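import Vale.Agent.P153.R2.FLDI.Br

/-!
Riemann sums on the scaled triangular lattice, and the complement of a Jordan domain.
-/

set_option autoImplicit false

namespace Vale.Agent.P153.R2.FLDI

open Filter Topology Set MeasureTheory
open Vale.Agent.P145.PT Vale.Agent.P153 Vale.Agent.P153.F.Top

open Classical in
/-- The vertices of the lattice of mesh `δ` in the ball of radius `R`. -/
noncomputable def Bx (δ R : ℝ) : Finset (ℤ × ℤ) :=
  if h : {v : ℤ × ℤ | dp δ v ∈ Metric.ball (0 : ℝ × ℝ) R}.Finite then h.toFinset else ∅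

theorem mem_Bx {δ : ℝ} (hδ : 0 < δ) {R : ℝ} {v : ℤ × ℤ} :
    v ∈ Bx δ R ↔ dp δ v ∈ Metric.ball (0 : ℝ × ℝ) R := by
  unfold Bx
  rw [dif_pos (lat_finite hδ R)]
  simp

theorem hv_Bx {δ R : ℝ} (hδ : 0 < δ) {f : ℝ × ℝ → ℝ}
    (hf : ∀ z, f z ≠ 0 → z ∈ Metric.ball (0 : ℝ × ℝ) R) (ω : Om) :
    hv δ f ω = hB (Bx δ R) δ f ω := by
  unfold hv hB
  rw [finsum_eq_sum_of_support_subset]
  intro v hv
  rw [Finset.mem_coe, mem_Bx hδ]
  refine hf _ ?_
  have h1 := right_ne_zero_of_mul hv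
  rw [tl_eq] at h1
  exact right_ne_zero_of_mul h1

theorem s3_pos : (0 : ℝ) < √3 / 2 := by positivity

theorem integral_tl (g : ℝ × ℝ → ℝ) (hg : Continuous g) (hc : HasCompactSupport g) :
    ∫ z, tl g z = ∫ z, g z := by
  have hs := s3_pos
  obtain ⟨R, hR⟩ := hc.isBounded.subset_closedBall (0 : ℝ × ℝ)
  have hz : ∀ z : ℝ × ℝ, R < ‖z‖ → g z = 0 := fun z hz => by
    by_contra hne
    have := hR (subset_tsupport _ (Function.mem_support.2 hne))
    rw [mem_closedBall_zero_iff] at this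
    linarith
  have hi1 : Integrable g := hg.integrable_of_hasCompactSupport hc
  have hcT : HasCompactSupport fun z : ℝ × ℝ => g (z.1 + z.2 / 2, √3 / 2 * z.2) := by
    refine HasCompactSupport.intro (K := Metric.closedBall (0 : ℝ × ℝ) (2 * |R| / (√3 / 2) + |R|))
      (ProperSpace.isCompact_closedBall _ _) fun z hz' => ?_
    refine hz _ ?_
    by_contra hcon
    push Not at hcon
    refine hz' ?_
    rw [Prod.norm_def, sup_le_iff, Real.norm_eq_abs, Real.norm_eq_abs] at hcon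
    simp only at hcon
    have h2 : |z.2| ≤ |R| / (√3 / 2) := by
      rw [le_div_iff₀ hs, mul_comm]
      calc √3 / 2 * |z.2| = |√3 / 2 * z.2| := by rw [abs_mul, abs_of_pos hs]
        _ ≤ R := hcon.2
        _ ≤ |R| := le_abs_self R
    have h1 : |z.1| ≤ |R| + |R| / (√3 / 2) := by
      have e : z.1 = (z.1 + z.2 / 2) - z.2 / 2 := by ring
      rw [e]
      refine (abs_sub _ _).trans ?_
      have h3 : |z.2 / 2| ≤ |R| / (√3 / 2) := by
        rw [abs_div, abs_two]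
        linarith [abs_nonneg z.2]
      have h4 := hcon.1.trans (le_abs_self R)
      linarith
    rw [mem_closedBall_zero_iff, Prod.norm_def, sup_le_iff, Real.norm_eq_abs, Real.norm_eq_abs]
    have e2 : 2 * |R| / (√3 / 2) = |R| / (√3 / 2) + |R| / (√3 / 2) := by ring
    have h0 : 0 ≤ |R| / (√3 / 2) := by positivity
    rw [e2]
    constructor <;> linarith [abs_nonneg R]
  have hcont : Continuous fun z : ℝ × ℝ => g (z.1 + z.2 / 2, √3 / 2 * z.2) := by fun_prop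
  have hi2 : Integrable fun z : ℝ × ℝ => g (z.1 + z.2 / 2, √3 / 2 * z.2) :=
    hcont.integrable_of_hasCompactSupport hcT
  unfold tl
  rw [integral_const_mul]
  have e1 : ∫ z : ℝ × ℝ, g (z.1 + z.2 / 2, √3 / 2 * z.2) =
      ∫ y : ℝ, ∫ x : ℝ, g (x + y / 2, √3 / 2 * y) := by
    rw [Measure.volume_eq_prod] at hi2 ⊢
    exact integral_prod_symm _ hi2
  have e2 : ∀ y : ℝ, ∫ x : ℝ, g (x + y / 2, √3 / 2 * y) = ∫ x : ℝ, g (x, √3 / 2 * y) := fun y =>
    integral_add_right_eq_self (fun x => g (x, √3 / 2 * y)) (y / 2)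
  have e3 : ∫ z, g z = ∫ y : ℝ, ∫ x : ℝ, g (x, y) := by
    rw [Measure.volume_eq_prod] at hi1 ⊢
    exact integral_prod_symm _ hi1
  rw [e1]
  simp_rw [e2]
  rw [e3, Measure.integral_comp_mul_left (fun y => ∫ x : ℝ, g (x, y)) (√3 / 2), smul_eq_mul,
    abs_of_pos (inv_pos.2 hs), ← mul_assoc, mul_inv_cancel₀ hs.ne', one_mul]

theorem tl_cs (g : ℝ × ℝ → ℝ) (hc : HasCompactSupport g) : HasCompactSupport (tl g) := by
  have hs := s3_pos
  obtain ⟨R, hR⟩ := hc.isBounded.subset_closedBall (0 : ℝ × ℝ)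
  have hz : ∀ z : ℝ × ℝ, R < ‖z‖ → g z = 0 := fun z hz => by
    by_contra hne
    have := hR (subset_tsupport _ (Function.mem_support.2 hne))
    rw [mem_closedBall_zero_iff] at this
    linarith
  refine HasCompactSupport.intro (K := Metric.closedBall (0 : ℝ × ℝ) (2 * |R| / (√3 / 2) + |R|))
    (ProperSpace.isCompact_closedBall _ _) fun z hz' => ?_
  unfold tl
  rw [hz, mul_zero]
  by_contra hcon
  push Not at hcon
  refine hz' ?_
  rw [Prod.norm_def, sup_le_iff, Real.norm_eq_abs, Real.norm_eq_abs] at hcon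
  simp only at hcon
  have h2 : |z.2| ≤ |R| / (√3 / 2) := by
    rw [le_div_iff₀ hs, mul_comm]
    calc √3 / 2 * |z.2| = |√3 / 2 * z.2| := by rw [abs_mul, abs_of_pos hs]
      _ ≤ R := hcon.2
      _ ≤ |R| := le_abs_self R
  have h1 : |z.1| ≤ |R| + |R| / (√3 / 2) := by
    have e : z.1 = (z.1 + z.2 / 2) - z.2 / 2 := by ring
    rw [e]
    refine (abs_sub _ _).trans ?_
    have h3 : |z.2 / 2| ≤ |R| / (√3 / 2) := by
      rw [abs_div, abs_two]
      linarith [abs_nonneg z.2]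
    have h4 := hcon.1.trans (le_abs_self R)
    linarith
  rw [mem_closedBall_zero_iff, Prod.norm_def, sup_le_iff, Real.norm_eq_abs, Real.norm_eq_abs]
  have e2 : 2 * |R| / (√3 / 2) = |R| / (√3 / 2) + |R| / (√3 / 2) := by ring
  have h0 : 0 ≤ |R| / (√3 / 2) := by positivity
  rw [e2]
  constructor <;> linarith [abs_nonneg R]

/-- Riemann sums on the triangular lattice. -/
theorem riem {g : ℝ × ℝ → ℝ} (hg : Continuous g) (hc : HasCompactSupport g) {R : ℝ}
    (hR : ∀ z, g z ≠ 0 → z ∈ Metric.ball (0 : ℝ × ℝ) R) {δ : ℕ → ℝ} (hδ : ∀ n, 0 < δ n)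
    (hδ0 : Tendsto δ atTop (𝓝 0)) :
    Tendsto (fun n => δ n ^ 2 * ∑ v ∈ Bx (δ n) R, tl g (δ n * v.1, δ n * v.2)) atTop
      (𝓝 (∫ z, g z)) := by
  have hcont : Continuous (tl g) := by
    unfold tl
    fun_prop
  have h := TwoPt.riemann2 (tl g) hcont (tl_cs g hc) δ δ hδ hδ hδ0 hδ0 (fun n => Bx (δ n) R)
    (fun n v hv => by
      rw [mem_Bx (hδ n)] at hv
      rw [mul_comm (v.1 : ℝ), mul_comm (v.2 : ℝ), tl_eq]
      by_contra hne
      exact hv (hR _ (right_ne_zero_of_mul hne)))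
  rw [integral_tl g hg hc] at h
  refine h.congr fun n => ?_
  rw [smul_eq_mul, sq]
  congr 1
  refine Finset.sum_congr rfl fun v _ => ?_
  rw [mul_comm (v.1 : ℝ), mul_comm (v.2 : ℝ)]

/-- Convergence of the total weights. -/
theorem riem_ab {f : ℝ × ℝ → ℝ} (hg : Continuous f) (hc : HasCompactSupport f) {R : ℝ}
    (hR : ∀ z, f z ≠ 0 → z ∈ Metric.ball (0 : ℝ × ℝ) R) {δ : ℕ → ℝ} (hδ : ∀ n, 0 < δ n)
    (hδ0 : Tendsto δ atTop (𝓝 0)) :
    Tendsto (fun n => ab (Bx (δ n) R) (δ n) f) atTop (𝓝 (∫ z, |f z|)) := by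
  have h := riem (g := fun z => |f z|) hg.abs (hc.comp_left (g := fun x : ℝ => |x|) abs_zero)
    (fun z hz => hR z (fun h0 => hz (by simp [h0]))) hδ hδ0
  refine h.congr fun n => ?_
  unfold ab
  congr 1
  refine Finset.sum_congr rfl fun v _ => ?_
  unfold tl
  rw [abs_mul, abs_of_pos s3_pos]

theorem ext_conn : IsConnected {z : ℝ × ℝ | 1 ≤ z.1 ^ 2 + z.2 ^ 2} := by
  have h1 : IsConnected ((univ : Set ℝ) ×ˢ Ici (1 : ℝ)) := isConnected_univ.prod isConnected_Ici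
  have h2 := h1.image (fun q : ℝ × ℝ => q.2 • Final.circ q.1)
    (Continuous.continuousOn (by
      have := circ_cont
      fun_prop))
  convert h2 using 1
  ext z
  constructor
  · intro hz
    have hz' : 1 ≤ z.1 ^ 2 + z.2 ^ 2 := hz
    have hr : 1 ≤ √(z.1 ^ 2 + z.2 ^ 2) := by
      rw [Real.one_le_sqrt]
      exact hz'
    set r := √(z.1 ^ 2 + z.2 ^ 2) with hrd
    have hr0 : 0 < r := by linarith
    have hrr : r ^ 2 = z.1 ^ 2 + z.2 ^ 2 := Real.sq_sqrt (by positivity)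
    obtain ⟨t, -, ht⟩ := circ_surj (z := r⁻¹ • z) (by
      simp only [Prod.smul_fst, Prod.smul_snd, smul_eq_mul]
      rw [mul_pow, mul_pow, ← mul_add, ← hrr, inv_pow, inv_mul_cancel₀ (by positivity)])
    refine ⟨(t, r), ⟨mem_univ _, hr⟩, ?_⟩
    simp only
    rw [ht, smul_smul, mul_inv_cancel₀ hr0.ne', one_smul]
  · rintro ⟨⟨t, r⟩, ⟨-, hr⟩, rfl⟩
    have hr' : 1 ≤ r := hr
    simp only [mem_ofPred_eq, Prod.smul_fst, Prod.smul_snd, smul_eq_mul]
    rw [mul_pow, mul_pow, ← mul_add, circ_sq, mul_one]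
    nlinarith

theorem domF_compl_conn {Φ : (ℝ × ℝ) ≃ₜ (ℝ × ℝ)} : IsConnected (Final.dom Φ)ᶜ := by
  have h1 := ext_conn.image Φ Φ.continuous.continuousOn
  convert h1 using 1
  unfold Final.dom
  rw [← Φ.image_compl]
  congr 1
  ext z
  simp

end Vale.Agent.P153.R2.FLDI
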