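import Vale.Agent.P153.R2.FLDI.HarmT

/-!
Uniqueness for the Dirichlet problem with finitely many exceptional boundary points.
-/

set_option autoImplicit false

namespace Vale.Agent.P153.R2.FLDI

open Filter Topology Set MeasureTheory
open Vale.Agent.P145.PT

/-- The nearest boundary point. -/
theorem exists_near {D : Set (ℝ × ℝ)} (hD : IsOpen D) (hb : Bornology.IsBounded D) {x : ℝ × ℝ}
    (hx : x ∈ D) : ∃ z ∈ frontier D, dist x z = dd D x := by
  obtain ⟨z, hz, hd⟩ := hD.isClosed_compl.exists_infDist_eq_dist (compl_ne hb) x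
  refine ⟨z, ?_, hd.symm⟩
  have hx0 : 0 < dd D x := (dd_pos hD hb).2 hx
  rw [hD.frontier_eq, Set.mem_sdiff]
  refine ⟨?_, hz⟩
  -- `z` is a limit of points of the segment from `x` to `z`
  rw [Metric.mem_closure_iff]
  intro ε hε
  have hdz : dist x z = dd D x := hd.symm
  set t : ℝ := min (1 / 2) (ε / (2 * dd D x)) with ht
  have ht0 : 0 < t := lt_min (by norm_num) (by positivity)
  have ht1 : t ≤ 1 / 2 := min_le_left _ _
  refine ⟨z + t • (x - z), ?_, ?_⟩
  · have h1 : dist (z + t • (x - z)) x = (1 - t) * dd D x := by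
      rw [dist_eq_norm, show z + t • (x - z) - x = (-(1 - t)) • (x - z) by module, norm_smul,
        ← dist_eq_norm, hdz, norm_neg, Real.norm_eq_abs, abs_of_pos (by linarith)]
    have h2 := ball_sub (x := x) (D := D) (s := (1 - t) * dd D x) (by nlinarith)
    exact h2 (by rw [Metric.mem_closedBall]; exact h1.le)
  · rw [dist_eq_norm, show z - (z + t • (x - z)) = (-t) • (x - z) by module, norm_smul,
      ← dist_eq_norm, hdz, norm_neg, Real.norm_eq_abs, abs_of_pos ht0]
    have h3 : t ≤ ε / (2 * dd D x) := min_le_right _ _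
    calc t * dd D x ≤ ε / (2 * dd D x) * dd D x := mul_le_mul_of_nonneg_right h3 hx0.le
      _ = ε / 2 := by field_simp
      _ < ε := by linarith

/-- From pointwise to uniform decay. -/
theorem decE_of {D : Set (ℝ × ℝ)} (hD : IsOpen D) (hb : Bornology.IsBounded D)
    {E : Finset (ℝ × ℝ)} {T : (ℝ × ℝ → ℝ) → ℝ}
    (h : ∀ z ∈ frontier D, z ∉ E → ∀ ε : ℝ, 0 < ε → ∃ r : ℝ, 0 < r ∧ ∀ x ∈ D, dist x z < r →
      |T (bump (dd D x / 2) x)| ≤ ε)
    (hbd : ∃ K r : ℝ, 0 < r ∧ ∀ x ∈ D, dd D x < r → |T (bump (dd D x / 2) x)| ≤ K) :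
    DecE D E T where
  bd := hbd
  dec := by
    intro ε ρ hε hρ
    -- the compact part of the boundary
    set F : Set (ℝ × ℝ) := frontier D ∩ {z | ∀ e ∈ E, ρ / 2 ≤ dist z e} with hF
    have hFc : IsCompact F := by
      have h1 : IsClosed {z : ℝ × ℝ | ∀ e ∈ E, ρ / 2 ≤ dist z e} := by
        have : {z : ℝ × ℝ | ∀ e ∈ E, ρ / 2 ≤ dist z e} = ⋂ e ∈ E, {z | ρ / 2 ≤ dist z e} := by
          ext z; simp
        rw [this]
        exact isClosed_biInter fun e _ => isClosed_le continuous_const (by fun_prop)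
      have h2 : IsCompact (frontier D) := Metric.isCompact_of_isClosed_isBounded isClosed_frontier
        ((hb.closure).subset frontier_subset_closure)
      exact h2.inter_right h1
    have hne : ∀ z ∈ F, z ∉ E := by
      intro z hz hzE
      have := hz.2 z hzE
      rw [dist_self] at this
      linarith
    have h' : ∀ z : ℝ × ℝ, ∃ r : ℝ, 0 < r ∧ (z ∈ F → ∀ x ∈ D, dist x z < r →
        |T (bump (dd D x / 2) x)| ≤ ε) := by
      intro z
      by_cases hz : z ∈ F
      · obtain ⟨r, hr, h1⟩ := h z hz.1 (hne z hz) ε hε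
        exact ⟨r, hr, fun _ => h1⟩
      · exact ⟨1, one_pos, fun h => absurd h hz⟩
    choose r hr0 hr using h'
    obtain ⟨t, htF, htc⟩ := hFc.elim_nhds_subcover (fun z => Metric.ball z (r z / 2))
      fun z _ => Metric.ball_mem_nhds z (by linarith [hr0 z])
    rcases t.eq_empty_or_nonempty with ht | ht
    · -- no boundary away from `E`
      refine ⟨ρ / 2, by positivity, fun x hx hxr hxe => ?_⟩
      obtain ⟨z, hz, hd⟩ := exists_near hD hb hx
      have hzF : z ∈ F := by
        refine ⟨hz, fun e he => ?_⟩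
        have h1 := hxe e he
        have h2 := dist_triangle x z e
        linarith
      have := htc hzF
      rw [ht] at this
      simp at this
    · set r1 := min (t.inf' ht fun z => r z / 2) (ρ / 2) with hr1
      have hr10 : 0 < r1 := lt_min ((Finset.lt_inf'_iff ht).2 fun z _ => by linarith [hr0 z])
        (by positivity)
      refine ⟨r1, hr10, fun x hx hxr hxe => ?_⟩
      obtain ⟨z, hz, hd⟩ := exists_near hD hb hx
      have hzF : z ∈ F := by
        refine ⟨hz, fun e he => ?_⟩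
        have h1 := hxe e he
        have h2 := dist_triangle x z e
        have h3 : dd D x < ρ / 2 := lt_of_lt_of_le hxr (min_le_right _ _)
        linarith
      obtain ⟨y, hy, hzy⟩ := mem_iUnion₂.1 (htc hzF)
      refine hr y (htF y hy) x hx ?_
      have h1 := dist_triangle x z y
      have h2 : dist z y < r y / 2 := hzy
      have h3 : dd D x < r y / 2 := lt_of_lt_of_le hxr ((min_le_left _ _).trans
        (Finset.inf'_le (fun z => r z / 2) hy))
      linarith

theorem bump_mem {D : Set (ℝ × ℝ)} (hD : IsOpen D) (hb : Bornology.IsBounded D) {x : ℝ × ℝ}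
    (hx : x ∈ D) {z : ℝ × ℝ} (hz : bump (dd D x / 2) x z ≠ 0) : z ∈ D ∧ dist z x ≤ dd D x / 2 := by
  have hx0 : 0 < dd D x := (dd_pos hD hb).2 hx
  have h3 : dist z x ≤ dd D x / 2 := by
    by_contra h4
    exact hz (bump_zero (by linarith) (not_le.1 h4))
  exact ⟨ball_sub (show dd D x / 2 < dd D x by linarith) h3, h3⟩

/-- The averages of a function over Whitney balls. -/
theorem bump_avg {D : Set (ℝ × ℝ)} (hD : IsOpen D) (hb : Bornology.IsBounded D)
    {u : ℝ × ℝ → ℝ} (hu : ContDiffOn ℝ ((⊤ : ℕ∞) : WithTop ℕ∞) u D) {x : ℝ × ℝ} (hx : x ∈ D)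
    {c ε : ℝ} (h : ∀ z ∈ D, dist z x ≤ dd D x / 2 → |u z - c| ≤ ε) :
    |(∫ z, u z * bump (dd D x / 2) x z) - c| ≤ ε := by
  have hx0 : 0 < dd D x := (dd_pos hD hb).2 hx
  have hbx : TestOn D (bump (dd D x / 2) x) := bump_test (by linarith) (ball_sub (by linarith))
  have hi := TestOn.locInt hD hb hu hbx
  have e1 : (∫ z, u z * bump (dd D x / 2) x z) - c = ∫ z, (u z - c) * bump (dd D x / 2) x z := by
    have e2 : c = ∫ z, c * bump (dd D x / 2) x z := by
      rw [integral_const_mul, bump_int (by linarith), mul_one]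
    have e3 : ∀ z, (u z - c) * bump (dd D x / 2) x z =
        u z * bump (dd D x / 2) x z - c * bump (dd D x / 2) x z := fun z => by ring
    simp_rw [e3]
    rw [integral_sub hi (hbx.int.const_mul c), ← e2]
  rw [e1]
  refine (abs_integral_le_integral_abs).trans ?_
  have e4 : ε = ∫ z, ε * bump (dd D x / 2) x z := by
    rw [integral_const_mul, bump_int (by linarith), mul_one]
  rw [e4]
  refine integral_mono_of_nonneg (ae_of_all _ fun z => abs_nonneg _) (hbx.int.const_mul ε)
    (ae_of_all _ fun z => ?_)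
  simp only
  rw [abs_mul, abs_of_nonneg (bump_nonneg _ _ z)]
  by_cases hz : bump (dd D x / 2) x z = 0
  · simp [hz]
  · obtain ⟨h1, h2⟩ := bump_mem hD hb hx hz
    exact mul_le_mul_of_nonneg_right (h z h1 h2) (bump_nonneg _ _ _)

theorem Dirichlet.near {D : Set (ℝ × ℝ)} {E : Finset (ℝ × ℝ)} {s u : ℝ × ℝ → ℝ}
    (hu : Dirichlet D E s u) {z : ℝ × ℝ} (hz : z ∈ frontier D) (hzE : z ∉ E) {ε : ℝ}
    (hε : 0 < ε) : ∃ r : ℝ, 0 < r ∧ ∀ y ∈ D, dist y z < r → |u y - s z| ≤ ε := by
  have h1 := (Metric.tendsto_nhds.1 (hu.bv z hz hzE)) ε hε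
  rw [eventually_nhdsWithin_iff, Metric.eventually_nhds_iff] at h1
  obtain ⟨r, hr, h2⟩ := h1
  exact ⟨r, hr, fun y hy hd => by
    have := h2 hd hy
    rw [Real.dist_eq] at this
    exact this.le⟩

/-- The averages of a solution of the Dirichlet problem. -/
theorem Dirichlet.avg {D : Set (ℝ × ℝ)} (hD : IsOpen D) (hb : Bornology.IsBounded D)
    {E : Finset (ℝ × ℝ)} {s u : ℝ × ℝ → ℝ}
    (hu : Dirichlet D E s u) {z : ℝ × ℝ} (hz : z ∈ frontier D) (hzE : z ∉ E) {ε : ℝ}
    (hε : 0 < ε) : ∃ r : ℝ, 0 < r ∧ ∀ x ∈ D, dist x z < r →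
      |(∫ y, u y * bump (dd D x / 2) x y) - s z| ≤ ε := by
  obtain ⟨r, hr, h⟩ := hu.near hz hzE hε
  refine ⟨r / 2, by positivity, fun x hx hxz => bump_avg hD hb hu.harm.smooth hx
    fun y hy hyx => h y hy ?_⟩
  have h1 : dd D x ≤ dist x z := by
    have hz' : z ∈ Dᶜ := by
      rw [hD.frontier_eq] at hz
      exact hz.2
    exact Metric.infDist_le_dist_of_mem hz'
  have h2 := dist_triangle y x z
  linarith

theorem avg_bdd {D : Set (ℝ × ℝ)} (hD : IsOpen D) (hb : Bornology.IsBounded D)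
    {u : ℝ × ℝ → ℝ} (hu : ContDiffOn ℝ ((⊤ : ℕ∞) : WithTop ℕ∞) u D) {K : ℝ}
    (hK : ∀ z ∈ D, |u z| ≤ K) {x : ℝ × ℝ} (hx : x ∈ D) :
    |∫ y, u y * bump (dd D x / 2) x y| ≤ K := by
  have h := bump_avg hD hb hu hx (c := 0) (ε := K) fun y hy _ => by
    rw [sub_zero]; exact hK y hy
  rwa [sub_zero] at h

theorem harm_l2fn {D : Set (ℝ × ℝ)} (hD : IsOpen D) (hb : Bornology.IsBounded D)
    {u : ℝ × ℝ → ℝ} (hu : ContDiffOn ℝ ((⊤ : ℕ∞) : WithTop ℕ∞) u D) {K : ℝ}
    (hK : ∀ z ∈ D, |u z| ≤ K) : ∃ C, L2Fn D (fun f => ∫ z, u z * f z) C := by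
  have hm : AEStronglyMeasurable u (volume.restrict D) :=
    hu.continuousOn.aestronglyMeasurable hD.measurableSet
  refine ⟨_, l2fn_int hm ?_⟩
  have hfin : volume D < ⊤ := hb.measure_lt_top
  have hc : Integrable (fun _ : ℝ × ℝ => K ^ 2) (volume.restrict D) :=
    integrableOn_const (hs := hfin.ne)
  refine hc.mono' (hm.pow 2) ?_
  refine (ae_restrict_iff' hD.measurableSet).2 (ae_of_all _ fun z hz => ?_)
  rw [Real.norm_eq_abs, abs_pow]
  exact pow_le_pow_left₀ (abs_nonneg _) (hK z hz) 2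

/-- A smooth function which is orthogonal to all test functions vanishes. -/
theorem zero_of_weak {D : Set (ℝ × ℝ)} (hD : IsOpen D) (hb : Bornology.IsBounded D)
    {u : ℝ × ℝ → ℝ} (hu : ContDiffOn ℝ ((⊤ : ℕ∞) : WithTop ℕ∞) u D)
    (h : ∀ f, TestOn D f → ∫ z, u z * f z = 0) : ∀ z ∈ D, u z = 0 := by
  intro x hx
  have hx0 : 0 < dd D x := (dd_pos hD hb).2 hx
  refine eq_of_abs_sub_le_all fun ε hε => ?_
  have hc : ContinuousAt u x := hu.continuousOn.continuousAt (hD.mem_nhds hx)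
  obtain ⟨r, hr, hru⟩ := Metric.continuousAt_iff.1 hc ε hε
  set s : ℝ := min (dd D x / 2) (r / 2) with hs
  have hs0 : 0 < s := lt_min (by linarith) (by linarith)
  have hbx : TestOn D (bump s x) := bump_test hs0 (ball_sub (lt_of_le_of_lt (min_le_left _ _)
    (by linarith)))
  have hi := TestOn.locInt hD hb hu hbx
  have e1 : u x - 0 = ∫ z, (u x - u z) * bump s x z := by
    have e2 : ∀ z, (u x - u z) * bump s x z = u x * bump s x z - u z * bump s x z :=
      fun z => by ring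
    simp_rw [e2]
    rw [integral_sub (hbx.int.const_mul _) hi, h _ hbx, integral_const_mul, bump_int hs0]
    ring
  rw [e1]
  refine (abs_integral_le_integral_abs).trans ?_
  have e4 : ε = ∫ z, ε * bump s x z := by
    rw [integral_const_mul, bump_int hs0, mul_one]
  rw [e4]
  refine integral_mono_of_nonneg (ae_of_all _ fun z => abs_nonneg _) (hbx.int.const_mul ε)
    (ae_of_all _ fun z => ?_)
  simp only
  rw [abs_mul, abs_of_nonneg (bump_nonneg _ _ z)]
  by_cases hz : bump s x z = 0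
  · simp [hz]
  · refine mul_le_mul_of_nonneg_right ?_ (bump_nonneg _ _ _)
    have h3 : dist z x ≤ s := by
      by_contra h4
      exact hz (bump_zero hs0 (not_le.1 h4))
    have h4 := hru (x := z) (lt_of_le_of_lt h3 (lt_of_le_of_lt (min_le_right _ _) (by linarith)))
    rw [Real.dist_eq, abs_sub_comm] at h4
    exact h4.le

theorem s_uniq : S_uniq := by
  intro D E s u v hD hb hE hu hv
  obtain ⟨K1, hK1⟩ := hu.bdd
  obtain ⟨K2, hK2⟩ := hv.bdd
  have hw : Harm D fun z => u z + (-1) * v z := hu.harm.comb hD hb hv.harm (-1)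
  have hwK : ∀ z ∈ D, |u z + (-1) * v z| ≤ K1 + K2 := fun z hz => by
    have h1 := hK1 z hz
    have h2 := hK2 z hz
    calc |u z + (-1) * v z| ≤ |u z| + |(-1) * v z| := abs_add_le _ _
      _ ≤ K1 + K2 := by rw [abs_mul, abs_neg, abs_one, one_mul]; linarith
  obtain ⟨C, hC⟩ := harm_l2fn hD hb hw.smooth hwK
  have hdec : DecE D E fun f => ∫ z, (u z + (-1) * v z) * f z := by
    refine decE_of hD hb (fun z hz hzE ε hε => ?_) ⟨K1 + K2, 1, one_pos, fun x hx _ =>
      avg_bdd hD hb hw.smooth hwK hx⟩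
    obtain ⟨r1, hr1, h1⟩ := hu.avg hD hb hz hzE (half_pos hε)
    obtain ⟨r2, hr2, h2⟩ := hv.avg hD hb hz hzE (half_pos hε)
    refine ⟨min r1 r2, lt_min hr1 hr2, fun x hx hxz => ?_⟩
    have g1 := abs_le.1 (h1 x hx (lt_of_lt_of_le hxz (min_le_left _ _)))
    have g2 := abs_le.1 (h2 x hx (lt_of_lt_of_le hxz (min_le_right _ _)))
    have hx0 : 0 < dd D x := (dd_pos hD hb).2 hx
    have hbx : TestOn D (bump (dd D x / 2) x) := bump_test (by linarith) (ball_sub (by linarith))
    have e1 : ∫ z, (u z + (-1) * v z) * bump (dd D x / 2) x z =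
        (∫ z, u z * bump (dd D x / 2) x z) - ∫ z, v z * bump (dd D x / 2) x z := by
      rw [← integral_sub (TestOn.locInt hD hb hu.harm.smooth hbx)
        (TestOn.locInt hD hb hv.harm.smooth hbx)]
      congr 1; funext z; ring
    rw [e1, abs_le]
    constructor <;> linarith [g1.1, g1.2, g2.1, g2.2]
  have h0 : ∀ f, TestOn D f → ∫ z, (u z + (-1) * v z) * f z = 0 := fun f hf =>
    uniqE hD hb hE hC (fun ψ hψ => hw.weak hD hb hψ) hdec hf
  intro z hz
  have := zero_of_weak hD hb hw.smooth h0 z hz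
  linarith

end Vale.Agent.P153.R2.FLDI
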