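import Vale.Agent.P153.R2.FLDI.Bv
import Vale.Agent.P153.R2.FLDI.Uniq

/-!
The boundary values of the heights with the exact values of the two arcs.
-/

set_option autoImplicit false

namespace Vale.Agent.P153.R2.FLDI

open Filter Topology Set MeasureTheory
open Vale.Agent.P145.PT Vale.Agent.P153 Vale.Agent.P153.F.Top

variable {Φ : (ℝ × ℝ) ≃ₜ (ℝ × ℝ)} {δ : ℕ → ℝ} {N k : ℕ → ℕ}
  {p : ∀ n, ZMod (N n) → ℤ × ℤ} {S : ℕ → Finset ((ℤ × ℤ) × Bool)} {κ R : ℝ}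

theorem dp_pt (δ : ℝ) (v : ℤ × ℤ) : δ • Final.pt v = dp δ v := by
  unfold Final.pt dp
  rw [Prod.smul_mk, smul_eq_mul, smul_eq_mul]

/-- The lattice points of a compact subset of the domain are inner vertices. -/
theorem ev_inner (h : Final.Approx Φ δ N k p S) {K : Set (ℝ × ℝ)} (hK : IsCompact K)
    (hKD : K ⊆ Final.dom Φ) :
    ∀ᶠ n in atTop, ∀ v, dp (δ n) v ∈ K → v ∈ F.Dom.inner (p n) (S n) := by
  have hA := approxF h
  obtain ⟨r, hr, hrD⟩ := hK.exists_cthickening_subset_open (domF_open (Φ := Φ)) hKD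
  have hb : Bornology.IsBounded (Metric.thickening r K) := hK.isBounded.thickening
  have h1 := F.Dom.s_in _ δ N p S hA (Metric.thickening r K) hb
    ((Metric.closure_thickening_subset_cthickening r K).trans hrD)
  have h2 : ∀ᶠ n in atTop, δ n < r / 2 := hA.lim.eventually (gt_mem_nhds (half_pos hr))
  filter_upwards [h1, h2] with n g1 g2 v hv
  refine g1 ?_
  rw [mem_Vs (hA.pos n) hb]
  intro y hy
  rw [Metric.mem_thickening_iff]
  refine ⟨dp (δ n) v, hv, ?_⟩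
  rw [Metric.mem_closedBall] at hy
  linarith

theorem ones_lim (h : Final.Approx Φ δ N k p S) {b : ℝ × ℝ → ℝ} (hb : TestOn (Final.dom Φ) b) :
    Tendsto (fun n => ones (p n) (S n) (δ n) b) atTop (𝓝 (∫ z, b z)) := by
  have hA := approxF h
  obtain ⟨R, hR⟩ := (domF_bdd (Φ := Φ)).subset_ball (0 : ℝ × ℝ)
  have h1 := riem hb.cont hb.cs (supp_ball hR hb) hA.pos hA.lim
  refine h1.congr' ?_
  filter_upwards [ev_inner h hb.2.1 hb.2.2] with n hn
  unfold ones hh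
  rw [hv_Bx (hA.pos n) (supp_ball hR hb)]
  unfold hB
  congr 1
  refine Finset.sum_congr rfl fun v _ => ?_
  by_cases h0 : b (dp (δ n) v) = 0
  · rw [tl_eq, h0]
    ring
  · unfold vh
    rw [if_pos (hn v (subset_tsupport _ h0))]
    norm_num

/-- Near a point of one arc the data have the value of this arc. -/
theorem data_near (h : Final.Approx Φ δ N k p S) {c : ℤ} {z : ℝ × ℝ}
    (hz : c = 1 ∧ z ∈ Final.arcPlus Φ ∨ c = -1 ∧ z ∈ Final.arcMinus Φ) :
    ∃ ρ : ℝ, 0 < ρ ∧ ∀ᶠ n in atTop, ∀ i : ZMod (N n), dist (dp (δ n) (p n i)) z < ρ →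
      dat (p n) (k n) (p n i) = c := by
  -- the other closed arc
  obtain ⟨a, b, hab, hzab, hother⟩ : ∃ a b : ℝ, a ≤ b ∧ z ∉ (fun t => Φ (Final.circ t)) '' Icc a b ∧
      ∀ (n : ℕ) (s : ℕ → ℝ), Monotone s → s 0 = 0 → s (k n) = Real.pi → s (N n) = 2 * Real.pi →
        ∀ i : ZMod (N n), dat (p n) (k n) (p n i) ≠ c → s i.val ∈ Icc a b := by
    have hpi := Real.pi_pos
    rcases hz with ⟨rfl, t, ht, rfl⟩ | ⟨rfl, t, ht, rfl⟩
    · refine ⟨Real.pi, 2 * Real.pi, by linarith, ?_, ?_⟩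
      · rintro ⟨s, hs, hst⟩
        have hst' := Φ.injective hst
        rcases eq_or_lt_of_le hs.2 with h2 | h2
        · have : Final.circ s = Final.circ 0 := by
            rw [h2]
            unfold Final.circ
            rw [Real.cos_two_pi, Real.sin_two_pi, Real.cos_zero, Real.sin_zero]
          rw [this] at hst'
          have := circ_inj (s := 0) (t := t) ⟨le_rfl, by linarith⟩
            ⟨ht.1.le, by linarith [ht.2]⟩ hst'
          linarith [ht.1]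
        · have := circ_inj (s := s) (t := t) ⟨by linarith [hs.1], h2⟩
            ⟨ht.1.le, by linarith [ht.2]⟩ hst'
          linarith [ht.2, hs.1]
      · intro n s hs h0 hk hN i hi
        have hNn : 2 < N n := (h.1 n).2.2.2.1.1
        have : NeZero (N n) := ⟨by omega⟩
        rw [dat_p (polyF (h.1 n).2.2.2.1)] at hi
        have hik : k n ≤ i.val := by
          by_contra hcon
          exact hi (if_pos (by omega))
        exact ⟨hk ▸ hs hik, hN ▸ hs i.val_lt.le⟩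
    · refine ⟨0, Real.pi, by linarith, ?_, ?_⟩
      · rintro ⟨s, hs, hst⟩
        have hst' := Φ.injective hst
        have := circ_inj (s := s) (t := t) ⟨hs.1, by linarith [hs.2]⟩
          ⟨by linarith [ht.1], ht.2⟩ hst'
        linarith [ht.1, hs.2]
      · intro n s hs h0 hk hN i hi
        rw [dat_p (polyF (h.1 n).2.2.2.1)] at hi
        have hik : i.val < k n := by
          by_contra hcon
          exact hi (if_neg hcon)
        exact ⟨h0 ▸ hs (Nat.zero_le _), hk ▸ hs hik.le⟩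
  have hcomp : IsCompact ((fun t => Φ (Final.circ t)) '' Icc a b) :=
    isCompact_Icc.image (Φ.continuous.comp circ_cont)
  have hne : ((fun t => Φ (Final.circ t)) '' Icc a b).Nonempty := (nonempty_Icc.2 hab).image _
  have hd : 0 < Metric.infDist z ((fun t => Φ (Final.circ t)) '' Icc a b) :=
    (hcomp.isClosed.notMem_iff_infDist_pos hne).1 hzab
  set d := Metric.infDist z ((fun t => Φ (Final.circ t)) '' Icc a b) with hdd
  refine ⟨d / 2, half_pos hd, ?_⟩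
  filter_upwards [h.2.2.1 (d / 2) (half_pos hd)] with n hn i hi
  obtain ⟨s, hs, hs0, hsk, hsN, hdist⟩ := hn
  have hNn : 2 < N n := (h.1 n).2.2.2.1.1
  have : NeZero (N n) := ⟨by omega⟩
  by_contra hcon
  have hmem := hother n s hs hs0 hsk hsN i hcon
  have h1 := hdist i.val i.val_lt (s i.val) ⟨le_rfl, hs (Nat.le_succ _)⟩
  have e : ((i.val : ℕ) : ZMod (N n)) = i := ZMod.natCast_zmod_val i
  rw [e, dp_pt] at h1
  have h2 : d ≤ dist z (Φ (Final.circ (s i.val))) :=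
    Metric.infDist_le_dist_of_mem ⟨_, hmem, rfl⟩
  have h3 := dist_triangle z (dp (δ n) (p n i)) (Φ (Final.circ (s i.val)))
  rw [dist_comm z (dp (δ n) (p n i))] at h3
  linarith

theorem alg4 {X Y s c : ℝ} (hc2 : c ^ 2 = 1) (hs3 : s ^ 2 ≤ 4) (j : ℕ) :
    ((X - c * s) * Y ^ j) ^ 2 ≤ 4 * X ^ (2 * 2) + (4 * 16 + 1 / 2 * Y ^ (2 * (2 * j))) := by
  have h2 : ((X - c * s) * Y ^ j) ^ 2 ≤ ((X - c * s) ^ 4 + (Y ^ j) ^ 4) / 2 := by
    nlinarith [sq_nonneg ((X - c * s) ^ 2 - (Y ^ j) ^ 2)]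
  have h3 : (Y ^ j) ^ 4 = Y ^ (2 * (2 * j)) := by
    rw [← pow_mul]
    congr 1
    ring
  have h4 : (X - c * s) ^ 2 ≤ 2 * X ^ 2 + 2 * s ^ 2 := by
    have h41 : (c * s) ^ 2 = s ^ 2 := by rw [mul_pow, hc2, one_mul]
    nlinarith [sq_nonneg (X + c * s)]
  have h5 : (X - c * s) ^ 4 ≤ 8 * X ^ 4 + 8 * 16 := by
    have h51 : (X - c * s) ^ 4 = ((X - c * s) ^ 2) ^ 2 := by ring
    rw [h51]
    have h52 := pow_le_pow_left₀ (sq_nonneg _) h4 2
    have h53 : (s ^ 2) ^ 2 ≤ 4 ^ 2 := pow_le_pow_left₀ (sq_nonneg _) hs3 2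
    nlinarith [sq_nonneg (X ^ 2 - s ^ 2)]
  rw [h3] at h2
  norm_num at h2 ⊢
  linarith

/-- The algebra of the boundary values. -/
theorem bv_alg {T : Set Hg} (hfin : T.Finite) (hne : T.Nonempty) {X Y : Hg → ℝ}
    {c s ε P K4 C1 C2 : ℝ} {j : ℕ} (hε : 0 < ε) (hK4 : 0 ≤ K4) (hC1 : 0 ≤ C1) (hC2 : 0 ≤ C2)
    (hc1 : |c| = 1) (hs1 : |s - 1| < 1) (hs2 : |s - 1| < ε / (2 * (1 + C2)))
    (hP : P ≤ ε ^ 2 / (4 * ((8 * (K4 + 16) + C1) / 2 + 1)))
    (hb : (Ex T fun g => (X g - c * s) * Y g ^ j) ^ 2 ≤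
      P * Ex T (fun g => ((X g - c * s) * Y g ^ j) ^ 2))
    (h2 : Ex T (fun g => X g ^ (2 * 2)) ≤ K4) (h3 : Ex T (fun g => Y g ^ (2 * (2 * j))) ≤ C1)
    (h4 : Ex T (fun g => Y g ^ (2 * j)) ≤ C2) :
    |Ex T fun g => (X g - c) * Y g ^ j| ≤ ε := by
  have hc2 : c ^ 2 = 1 := by rw [← sq_abs, hc1]; norm_num
  have hs3 : s ^ 2 ≤ 4 := by
    rw [abs_lt] at hs1
    nlinarith
  set M : ℝ := (8 * (K4 + 16) + C1) / 2 + 1 with hM
  have hM0 : 0 < M := by positivity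
  have hsec : Ex T (fun g => ((X g - c * s) * Y g ^ j) ^ 2) ≤ M := by
    have h1 : Ex T (fun g => ((X g - c * s) * Y g ^ j) ^ 2) ≤
        Ex T fun g => 4 * X g ^ (2 * 2) + (4 * 16 + 1 / 2 * Y g ^ (2 * (2 * j))) :=
      Ex_mono fun g _ => alg4 hc2 hs3 j
    refine h1.trans ?_
    rw [Ex_add, Ex_add, Ex_const_mul, Ex_const hfin hne, Ex_const_mul, hM]
    linarith
  have hsec0 : 0 ≤ Ex T (fun g => ((X g - c * s) * Y g ^ j) ^ 2) :=
    Ex_nonneg fun _ _ => sq_nonneg _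
  have hmain : |Ex T (fun g => (X g - c * s) * Y g ^ j)| ≤ ε / 2 := by
    refine abs_le_of_sq_le_sq ?_ (by positivity)
    refine hb.trans ?_
    calc P * Ex T (fun g => ((X g - c * s) * Y g ^ j) ^ 2)
        ≤ (ε ^ 2 / (4 * M)) * Ex T (fun g => ((X g - c * s) * Y g ^ j) ^ 2) :=
          mul_le_mul_of_nonneg_right hP hsec0
      _ ≤ (ε ^ 2 / (4 * M)) * M := mul_le_mul_of_nonneg_left hsec (by positivity)
      _ = (ε / 2) ^ 2 := by
          field_simp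
          ring
  have hY : |Ex T (fun g => Y g ^ j)| ≤ 1 + C2 := by
    have h1 : ∀ g, |Y g ^ j| ≤ 1 + Y g ^ (2 * j) := fun g => by
      have : Y g ^ (2 * j) = (Y g ^ j) ^ 2 := by rw [mul_comm, pow_mul]
      rw [this, abs_le]
      constructor <;> nlinarith [sq_nonneg (Y g ^ j - 1), sq_nonneg (Y g ^ j + 1)]
    have h2 : Ex T (fun g => 1 + Y g ^ (2 * j)) ≤ 1 + C2 := by
      rw [Ex_add, Ex_const hfin hne]
      linarith
    rw [abs_le]
    constructor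
    · have h3 : Ex T (fun g => -(1 + Y g ^ (2 * j))) ≤ Ex T (fun g => Y g ^ j) :=
        Ex_mono fun g _ => (abs_le.1 (h1 g)).1
      rw [Ex_neg] at h3
      linarith
    · exact (Ex_mono fun g _ => (abs_le.1 (h1 g)).2).trans h2
  have hsplit : Ex T (fun g => (X g - c) * Y g ^ j) =
      Ex T (fun g => (X g - c * s) * Y g ^ j) + c * (s - 1) * Ex T (fun g => Y g ^ j) := by
    rw [← Ex_const_mul, ← Ex_add]
    exact Ex_congr fun g _ => by ring
  rw [hsplit]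
  refine (abs_add_le _ _).trans ?_
  have hlast : |c * (s - 1) * Ex T (fun g => Y g ^ j)| ≤ ε / 2 := by
    rw [abs_mul, abs_mul, hc1, one_mul]
    calc |s - 1| * |Ex T (fun g => Y g ^ j)| ≤ (ε / (2 * (1 + C2))) * (1 + C2) :=
          mul_le_mul hs2.le hY (abs_nonneg _) (by positivity)
      _ = ε / 2 := by
          have : (1 + C2) ≠ 0 := by positivity
          field_simp
  linarith

/-- The boundary values. -/
theorem arcs_bv (h : Final.Approx Φ δ N k p S) (hκ : 0 < κ) (hfree : S_free κ) (hconn : S_conn)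
    {c : ℤ} {z : ℝ × ℝ}
    (hz : c = 1 ∧ z ∈ Final.arcPlus Φ ∨ c = -1 ∧ z ∈ Final.arcMinus Φ) {f : ℝ × ℝ → ℝ}
    (hf : TestOn (Final.dom Φ) f) (j : ℕ) {ε : ℝ} (hε : 0 < ε) : ∃ r : ℝ, 0 < r ∧
    ∀ x ∈ Final.dom Φ, dist x z < r → ∀ᶠ n in atTop,
      |Ex (CA (p n) (k n) (S n)) fun g =>
        (hh (p n) (S n) (δ n) (bump (dd (Final.dom Φ) x / 2) x) g - c) *
          hh (p n) (S n) (δ n) f g ^ j| ≤ ε := by
  have hA := approxF h
  obtain ⟨R, hR⟩ := (domF_bdd (Φ := Φ)).subset_ball (0 : ℝ × ℝ)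
  obtain ⟨ρ2, hρ2, hdat⟩ := data_near h hz
  have hzD : z ∉ Final.dom Φ := by
    rcases hz with ⟨-, t, -, rfl⟩ | ⟨-, t, -, rfl⟩ <;> exact circ_not_mem t
  -- the distance to the support of `f`
  obtain ⟨ρ3, hρ3, hff⟩ : ∃ ρ3 : ℝ, 0 < ρ3 ∧ ∀ y, f y ≠ 0 → ρ3 ≤ dist y z := by
    have hcl : IsClosed (tsupport f) := isClosed_tsupport f
    have hzn : z ∈ (tsupport f)ᶜ := fun hc => hzD (hf.2.2 hc)
    obtain ⟨ρ3, h3, h4⟩ := Metric.isOpen_iff.1 hcl.isOpen_compl z hzn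
    refine ⟨ρ3, h3, fun y hy => ?_⟩
    by_contra hcon
    push Not at hcon
    exact h4 hcon (subset_tsupport _ hy)
  have hρ : 0 < min (ρ2 / 2) ρ3 := lt_min (half_pos hρ2) hρ3
  obtain ⟨K4, hK4, hvb⟩ := arcs_vb h hκ hfree 2 (Or.inr rfl)
  obtain ⟨C1, hC1⟩ := arcs_mb h hfree hf (2 * j)
  obtain ⟨C2, hC2⟩ := arcs_mb h hfree hf j
  obtain ⟨r, hr, hfar⟩ := hconn Φ δ N k p S h c z hz (min (ρ2 / 2) ρ3)
    (ε ^ 2 / (4 * ((8 * (K4 + 16) + |C1|) / 2 + 1))) hρ (by positivity)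
  refine ⟨r, hr, fun x hx hxz => ?_⟩
  have hdx : 0 < dd (Final.dom Φ) x := (dd_pos domF_open domF_bdd).2 hx
  have hb := whit_test (D := Final.dom Φ) domF_open domF_bdd hx
  have hone := ones_lim h hb
  rw [bump_int (half_pos hdx)] at hone
  have e1 : ∀ᶠ n in atTop, dist (ones (p n) (S n) (δ n) (bump (dd (Final.dom Φ) x / 2) x)) 1 <
      min 1 (ε / (2 * (1 + |C2|))) :=
    (Metric.tendsto_nhds.1 hone) (min 1 (ε / (2 * (1 + |C2|)))) (by positivity)
  have e2 : ∀ᶠ n in atTop, δ n < ρ2 / 2 := hA.lim.eventually (gt_mem_nhds (half_pos hρ2))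
  filter_upwards [hfar x hx hxz, hvb x hx, hC1, hC2, e1, e2, hdat] with n g1 g2 g3 g4 g5 g6 g7
  rw [Real.dist_eq] at g5
  have hρρ : min (ρ2 / 2) ρ3 + δ n ≤ ρ2 := by
    have := min_le_left (ρ2 / 2) ρ3
    linarith
  have hbound := refl_bound (x := x) (D := Final.dom Φ) (c := c) (hA.encl n) (hA.pos n) hρρ g7
    (ca_fin (hA.poly n) (hA.encl n) (k n)) (b := bump (dd (Final.dom Φ) x / 2) x) (f := f)
    (supp_ball hR hb) (fun y hy => (bump_mem domF_open domF_bdd hx hy).2)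
    (fun y hy => (min_le_right _ _).trans (hff y hy)) j
  have hc1 : |(c : ℝ)| = 1 := by
    rcases hz with ⟨rfl, -⟩ | ⟨rfl, -⟩ <;> norm_num
  exact bv_alg (ca_fin (hA.poly n) (hA.encl n) (k n)) (ca_ne (hA.poly n) (hA.encl n) (k n)) hε hK4
    (abs_nonneg C1) (abs_nonneg C2) hc1 (lt_of_lt_of_le g5 (min_le_left _ _))
    (lt_of_lt_of_le g5 (min_le_right _ _)) g1 hbound g2 (g3.trans (le_abs_self _))
    (g4.trans (le_abs_self _))

end Vale.Agent.P153.R2.FLDI
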