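import Vale.Agent.P153.R2.FLDI.Defs

/-!
The capacity of Whitney balls in domains with connected complement.
-/

set_option autoImplicit false

namespace Vale.Agent.P153.R2.FLDI

open Filter Topology Set MeasureTheory
open Vale.Agent.P145.PT

theorem exists_sphere {D : Set (ℝ × ℝ)} (hD : IsOpen D) (hb : Bornology.IsBounded D)
    (hc : IsConnected Dᶜ) {x : ℝ × ℝ} {ρ : ℝ} (hρ : dd D x ≤ ρ) : ∃ y ∈ Dᶜ, dist y x = ρ := by
  obtain ⟨z, hz, hd⟩ := hD.isClosed_compl.exists_infDist_eq_dist (compl_ne hb) x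
  obtain ⟨r, hr⟩ := hb.subset_ball x
  set R : ℝ := |r| + |ρ| + 1 with hR
  have hR0 : 0 < R := by positivity
  set w : ℝ × ℝ := x + (R, 0) with hw
  have hwd : dist w x = R := by
    rw [hw, dist_eq_norm, add_sub_cancel_left, Prod.norm_mk, norm_zero, Real.norm_eq_abs,
      abs_of_pos hR0, max_eq_left hR0.le]
  have hwD : w ∈ Dᶜ := by
    intro h
    have h1 : dist w x < r := hr h
    rw [hwd] at h1
    have := le_abs_self r
    have := abs_nonneg ρ
    linarith
  have hpre := hc.isPreconnected.image (fun y => dist y x)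
    (Continuous.continuousOn (by fun_prop))
  have h1 : dist z x ∈ (fun y => dist y x) '' Dᶜ := mem_image_of_mem _ hz
  have h2 : dist w x ∈ (fun y => dist y x) '' Dᶜ := mem_image_of_mem _ hwD
  have h3 := hpre.Icc_subset h1 h2
  have h4 : ρ ∈ Icc (dist z x) (dist w x) := by
    refine ⟨?_, ?_⟩
    · rw [dist_comm, ← hd]
      exact hρ
    · rw [hwd]
      have := le_abs_self ρ
      have := abs_nonneg r
      linarith
  exact h3 h4

theorem osc {F F' : ℝ → ℝ} (hF : ∀ x, HasDerivAt F (F' x) x) (hc : Continuous F') {a b p q : ℝ}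
    (hp : p ∈ Icc a b) (hq : q ∈ Icc a b) : |F p - F q| ≤ ∫ s in a..b, |F' s| := by
  have hab : a ≤ b := hp.1.trans hp.2
  have h1 : ∫ s in q..p, F' s = F p - F q :=
    intervalIntegral.integral_eq_sub_of_hasDerivAt (fun x _ => hF x) (hc.intervalIntegrable _ _)
  rw [← h1]
  have h2 := intervalIntegral.norm_integral_le_abs_integral_norm (f := F') (a := q) (b := p)
    (μ := volume)
  simp only [Real.norm_eq_abs] at h2
  refine h2.trans ?_
  have h3 := intervalIntegral.abs_integral_mono_interval (f := fun s => |F' s|) (μ := volume)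
    (a := q) (b := p) (c := a) (d := b) ?_ (ae_of_all _ fun s => abs_nonneg _)
    (hc.abs.intervalIntegrable _ _)
  · rwa [abs_of_nonneg (intervalIntegral.integral_nonneg hab fun s _ => abs_nonneg (F' s))] at h3
  · rw [uIoc_of_le hab]
    intro y hy
    rcases le_total q p with h | h
    · rw [uIoc_of_le h] at hy
      exact ⟨lt_of_le_of_lt hq.1 hy.1, hy.2.trans hp.2⟩
    · rw [uIoc_of_ge h] at hy
      exact ⟨lt_of_le_of_lt hp.1 hy.1, hy.2.trans hq.2⟩

theorem hasDeriv_fst {ψ : ℝ × ℝ → ℝ} (hψ : Sm ψ) (t s : ℝ) :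
    HasDerivAt (fun t => ψ (t, s)) (dx ψ (t, s)) t := by
  have h1 := (hψ.diff (t, s)).hasFDerivAt
  have h2 : HasDerivAt (fun t : ℝ => (t, s)) ((1 : ℝ), (0 : ℝ)) t :=
    (hasDerivAt_id t).prodMk (hasDerivAt_const t s)
  exact h1.comp_hasDerivAt t h2

theorem hasDeriv_snd {ψ : ℝ × ℝ → ℝ} (hψ : Sm ψ) (t s : ℝ) :
    HasDerivAt (fun s => ψ (t, s)) (dy ψ (t, s)) s := by
  have h1 := (hψ.diff (t, s)).hasFDerivAt
  have h2 : HasDerivAt (fun s : ℝ => (t, s)) ((0 : ℝ), (1 : ℝ)) s :=
    (hasDerivAt_const s t).prodMk (hasDerivAt_id s)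
  exact h1.comp_hasDerivAt s h2

theorem box_int {F : ℝ × ℝ → ℝ} (hF : Continuous F) {a b c e : ℝ} (hab : a ≤ b) (hce : c ≤ e) :
    ∫ z in Ioc a b ×ˢ Ioc c e, F z = ∫ t in a..b, ∫ s in c..e, F (t, s) := by
  have hi : IntegrableOn F (Ioc a b ×ˢ Ioc c e) (volume.prod volume) := by
    have h1 : IntegrableOn F (Icc a b ×ˢ Icc c e) (volume.prod volume) :=
      hF.continuousOn.integrableOn_compact (isCompact_Icc.prod isCompact_Icc)
    exact h1.mono_set (prod_mono Ioc_subset_Icc_self Ioc_subset_Icc_self)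
  have h := setIntegral_prod F hi
  rw [intervalIntegral.integral_of_le hab]
  simp only [intervalIntegral.integral_of_le hce]
  exact h

theorem box_int' {F : ℝ × ℝ → ℝ} (hF : Continuous F) {a b c e : ℝ} (hab : a ≤ b) (hce : c ≤ e) :
    ∫ z in Ioc a b ×ˢ Ioc c e, F z = ∫ s in c..e, ∫ t in a..b, F (t, s) := by
  have h1 := box_int (F := fun z => F z.swap) (hF.comp continuous_swap) hce hab
  have h2 := setIntegral_prod_swap (μ := (volume : Measure ℝ)) (ν := (volume : Measure ℝ))
    (Ioc a b) (Ioc c e) F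
  simp only [Prod.swap_prod_mk] at h1
  rw [← h1]
  exact h2.symm

/-- `∫_box |h| ≤ vol(box) m / 2 + ∫ h² / (2 m)`. -/
theorem box_cs {D : Set (ℝ × ℝ)} {h : ℝ × ℝ → ℝ} (hh : TestOn D h) {a b c e m : ℝ}
    (hab : a ≤ b) (hce : c ≤ e) (hm : 0 < m) :
    ∫ z in Ioc a b ×ˢ Ioc c e, |h z| ≤ (b - a) * (e - c) * (m / 2) + (∫ z, h z ^ 2) / (2 * m) := by
  have hcs : IsCompact (Icc a b ×ˢ Icc c e) := isCompact_Icc.prod isCompact_Icc
  have hint : ∀ F : ℝ × ℝ → ℝ, Continuous F → IntegrableOn F (Ioc a b ×ˢ Ioc c e) := fun F hF =>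
    (hF.continuousOn.integrableOn_compact hcs).mono_set
      (prod_mono Ioc_subset_Icc_self Ioc_subset_Icc_self)
  have h1 : ∫ z in Ioc a b ×ˢ Ioc c e, |h z| ≤
      ∫ z in Ioc a b ×ˢ Ioc c e, (m / 2 + h z ^ 2 * (1 / (2 * m))) := by
    refine integral_mono (hint _ hh.cont.abs) (hint _ (by
      have := hh.cont
      fun_prop)) fun z => ?_
    simp only
    have h2 : 0 ≤ (|h z| - m) ^ 2 := sq_nonneg _
    rw [sub_sq, sq_abs] at h2
    have h3 : m / 2 + h z ^ 2 * (1 / (2 * m)) = (m ^ 2 + h z ^ 2) / (2 * m) := by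
      field_simp
    rw [h3, le_div_iff₀ (by positivity)]
    nlinarith
  refine h1.trans ?_
  rw [integral_add (hint _ continuous_const) (hint _ (by
    have := hh.cont
    fun_prop)), integral_mul_const]
  have h4 : ∫ _z in Ioc a b ×ˢ Ioc c e, m / 2 = (b - a) * (e - c) * (m / 2) := by
    rw [box_int (F := fun _ => m / 2) continuous_const hab hce]
    simp
    ring
  have h5 : ∫ z in Ioc a b ×ˢ Ioc c e, h z ^ 2 ≤ ∫ z, h z ^ 2 :=
    setIntegral_le_integral hh.intSq (ae_of_all _ fun z => sq_nonneg _)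
  rw [h4]
  have h6 : (∫ z in Ioc a b ×ˢ Ioc c e, h z ^ 2) * (1 / (2 * m)) ≤ (∫ z, h z ^ 2) / (2 * m) := by
    rw [mul_one_div]
    exact div_le_div_of_nonneg_right h5 (by positivity)
  linarith

/-- The integral over the box is controlled by the values on one line. -/
theorem box_line {D : Set (ℝ × ℝ)} {ψ : ℝ × ℝ → ℝ} (hψ : TestOn D ψ) {a b c e G : ℝ}
    (hab : a ≤ b) (hce : c ≤ e)
    (hG : (∃ t0 ∈ Icc a b, ∀ s ∈ Icc c e, |ψ (t0, s)| ≤ G) ∨
      ∃ s0 ∈ Icc c e, ∀ t ∈ Icc a b, |ψ (t, s0)| ≤ G) :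
    ∫ z in Ioc a b ×ˢ Ioc c e, |ψ z| ≤ (b - a) * (e - c) * G +
      ((b - a) * (∫ z in Ioc a b ×ˢ Ioc c e, |dx ψ z|) +
        (e - c) * ∫ z in Ioc a b ×ˢ Ioc c e, |dy ψ z|) := by
  have hcψ := hψ.cont
  have hcx : Continuous (dx ψ) := hψ.dx.cont
  have hcy : Continuous (dy ψ) := hψ.dy.cont
  set J2 := ∫ z in Ioc a b ×ˢ Ioc c e, |dx ψ z| with hJ2
  set J1 := ∫ z in Ioc a b ×ˢ Ioc c e, |dy ψ z| with hJ1
  have hJ20 : 0 ≤ J2 := integral_nonneg fun z => abs_nonneg _
  have hJ10 : 0 ≤ J1 := integral_nonneg fun z => abs_nonneg _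
  have hba : 0 ≤ b - a := by linarith
  have hec : 0 ≤ e - c := by linarith
  rcases hG with ⟨t0, ht0, h⟩ | ⟨s0, hs0, h⟩
  · rw [box_int' hcψ.abs hab hce]
    have g2c : Continuous fun s => ∫ t in a..b, |dx ψ (t, s)| :=
      intervalIntegral.continuous_parametric_intervalIntegral_of_continuous' (by
        exact (hcx.comp (continuous_snd.prodMk continuous_fst)).abs) a b
    have h1 : ∀ s ∈ Icc c e, ∫ t in a..b, |ψ (t, s)| ≤
        (b - a) * (G + ∫ t in a..b, |dx ψ (t, s)|) := by
      intro s hs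
      have h2 : ∀ t ∈ Icc a b, |ψ (t, s)| ≤ G + ∫ t in a..b, |dx ψ (t, s)| := by
        intro t ht
        have h3 := osc (fun t => hasDeriv_fst hψ.sm t s)
          (by exact hcx.comp (by fun_prop : Continuous fun t : ℝ => (t, s))) ht ht0
        have h4 := h s hs
        have h5 : |ψ (t, s)| ≤ |ψ (t, s) - ψ (t0, s)| + |ψ (t0, s)| := by
          have := abs_add_le (ψ (t, s) - ψ (t0, s)) (ψ (t0, s))
          rwa [sub_add_cancel] at this
        linarith
      calc ∫ t in a..b, |ψ (t, s)| ≤ ∫ _t in a..b, (G + ∫ t in a..b, |dx ψ (t, s)|) := by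
            refine intervalIntegral.integral_mono_on hab ?_ (by simp) h2
            exact Continuous.intervalIntegrable (by fun_prop) _ _
        _ = (b - a) * (G + ∫ t in a..b, |dx ψ (t, s)|) := by
            rw [intervalIntegral.integral_const, smul_eq_mul]
    calc ∫ s in c..e, ∫ t in a..b, |ψ (t, s)|
        ≤ ∫ s in c..e, (b - a) * (G + ∫ t in a..b, |dx ψ (t, s)|) := by
          refine intervalIntegral.integral_mono_on hce ?_ ?_ h1
          · refine Continuous.intervalIntegrable ?_ _ _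
            exact intervalIntegral.continuous_parametric_intervalIntegral_of_continuous' (by
              exact (hcψ.comp (continuous_snd.prodMk continuous_fst)).abs) a b
          · exact Continuous.intervalIntegrable (by fun_prop) _ _
      _ = (b - a) * ((e - c) * G + J2) := by
          rw [intervalIntegral.integral_const_mul, intervalIntegral.integral_add (by simp)
            (g2c.intervalIntegrable _ _), intervalIntegral.integral_const, smul_eq_mul, hJ2,
            box_int' hcx.abs hab hce]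
      _ ≤ _ := by nlinarith [mul_nonneg hec hJ10]
  · rw [box_int hcψ.abs hab hce]
    have g1c : Continuous fun t => ∫ s in c..e, |dy ψ (t, s)| :=
      intervalIntegral.continuous_parametric_intervalIntegral_of_continuous' (by
        exact hcy.abs) c e
    have h1 : ∀ t ∈ Icc a b, ∫ s in c..e, |ψ (t, s)| ≤
        (e - c) * (G + ∫ s in c..e, |dy ψ (t, s)|) := by
      intro t ht
      have h2 : ∀ s ∈ Icc c e, |ψ (t, s)| ≤ G + ∫ s in c..e, |dy ψ (t, s)| := by
        intro s hs
        have h3 := osc (fun s => hasDeriv_snd hψ.sm t s)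
          (by exact hcy.comp (by fun_prop : Continuous fun s : ℝ => (t, s))) hs hs0
        have h4 := h t ht
        have h5 : |ψ (t, s)| ≤ |ψ (t, s) - ψ (t, s0)| + |ψ (t, s0)| := by
          have := abs_add_le (ψ (t, s) - ψ (t, s0)) (ψ (t, s0))
          rwa [sub_add_cancel] at this
        linarith
      calc ∫ s in c..e, |ψ (t, s)| ≤ ∫ _s in c..e, (G + ∫ s in c..e, |dy ψ (t, s)|) := by
            refine intervalIntegral.integral_mono_on hce ?_ (by simp) h2
            exact Continuous.intervalIntegrable (by fun_prop) _ _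
        _ = (e - c) * (G + ∫ s in c..e, |dy ψ (t, s)|) := by
            rw [intervalIntegral.integral_const, smul_eq_mul]
    calc ∫ t in a..b, ∫ s in c..e, |ψ (t, s)|
        ≤ ∫ t in a..b, (e - c) * (G + ∫ s in c..e, |dy ψ (t, s)|) := by
          refine intervalIntegral.integral_mono_on hab ?_ ?_ h1
          · refine Continuous.intervalIntegrable ?_ _ _
            exact intervalIntegral.continuous_parametric_intervalIntegral_of_continuous' (by
              exact hcψ.abs) c e
          · exact Continuous.intervalIntegrable (by fun_prop) _ _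
      _ = (e - c) * ((b - a) * G + J1) := by
          rw [intervalIntegral.integral_const_mul, intervalIntegral.integral_add (by simp)
            (g1c.intervalIntegrable _ _), intervalIntegral.integral_const, smul_eq_mul, hJ1,
            box_int hcy.abs hab hce]
      _ ≤ _ := by nlinarith [mul_nonneg hba hJ20]

/-- A test function on `D` in the box of twice the distance to the boundary. -/
theorem whit_box {D : Set (ℝ × ℝ)} (hD : IsOpen D) (hb : Bornology.IsBounded D)
    (hc : IsConnected Dᶜ) {x : ℝ × ℝ} (hx : x ∈ D) {ψ : ℝ × ℝ → ℝ} (hψ : TestOn D ψ) :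
    ∫ z in Ioc (x.1 - 2 * dd D x) (x.1 + 2 * dd D x) ×ˢ
        Ioc (x.2 - 2 * dd D x) (x.2 + 2 * dd D x), |ψ z| ≤
      20 * dd D x * ((∫ z in Ioc (x.1 - 2 * dd D x) (x.1 + 2 * dd D x) ×ˢ
        Ioc (x.2 - 2 * dd D x) (x.2 + 2 * dd D x), |dx ψ z|) +
        ∫ z in Ioc (x.1 - 2 * dd D x) (x.1 + 2 * dd D x) ×ˢ
        Ioc (x.2 - 2 * dd D x) (x.2 + 2 * dd D x), |dy ψ z|) := by
  set d := dd D x with hd
  have hd0 : 0 < d := (dd_pos hD hb).2 hx
  set a := x.1 - 2 * d with ha
  set b := x.1 + 2 * d with hb'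
  set c := x.2 - 2 * d with hc'
  set e := x.2 + 2 * d with he
  have hab : a ≤ b := by linarith
  have hce : c ≤ e := by linarith
  have hcx : Continuous (dx ψ) := hψ.dx.cont
  have hcy : Continuous (dy ψ) := hψ.dy.cont
  set J2 := ∫ z in Ioc a b ×ˢ Ioc c e, |dx ψ z| with hJ2
  set J1 := ∫ z in Ioc a b ×ˢ Ioc c e, |dy ψ z| with hJ1
  set I := ∫ z in Ioc a b ×ˢ Ioc c e, |ψ z| with hI
  set g1 : ℝ → ℝ := fun t => ∫ s in c..e, |dy ψ (t, s)| with hg1
  set g2 : ℝ → ℝ := fun s => ∫ t in a..b, |dx ψ (t, s)| with hg2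
  have g1c : Continuous g1 :=
    intervalIntegral.continuous_parametric_intervalIntegral_of_continuous' (by
      exact hcy.abs) c e
  have g2c : Continuous g2 :=
    intervalIntegral.continuous_parametric_intervalIntegral_of_continuous' (by
      exact (hcx.comp (continuous_snd.prodMk continuous_fst)).abs) a b
  have g10 : ∀ t, 0 ≤ g1 t := fun t => intervalIntegral.integral_nonneg hce fun s _ => abs_nonneg _
  have g20 : ∀ t, 0 ≤ g2 t := fun t => intervalIntegral.integral_nonneg hab fun s _ => abs_nonneg _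
  have hJ1' : J1 = ∫ t in a..b, g1 t := box_int hcy.abs hab hce
  have hJ2' : J2 = ∫ s in c..e, g2 s := box_int' hcx.abs hab hce
  set G : ℝ → ℝ := fun ρ => g1 (x.1 + ρ) + g1 (x.1 - ρ) + (g2 (x.2 + ρ) + g2 (x.2 - ρ)) with hGd
  have hGc : Continuous G := by fun_prop
  have hzero : ∀ y ∈ Dᶜ, ψ y = 0 := fun y hy => by
    by_contra h
    exact hy (hψ.2.2 (subset_tsupport _ h))
  -- the bound for every radius
  have hA : ∀ ρ ∈ Icc d (2 * d), I ≤ 16 * d ^ 2 * G ρ + 4 * d * (J2 + J1) := by
    intro ρ hρ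
    have hρ0 : 0 ≤ ρ := hd0.le.trans hρ.1
    obtain ⟨y, hy, hyd⟩ := exists_sphere hD hb hc hρ.1
    have hmax : max |y.1 - x.1| |y.2 - x.2| = ρ := by
      rw [← hyd, dist_eq_norm, Prod.norm_def]
      rfl
    have hy1 : y.1 ∈ Icc a b := by
      have h1 : |y.1 - x.1| ≤ ρ := hmax ▸ le_max_left _ _
      have h2 := abs_le.1 h1
      constructor <;> linarith [h2.1, h2.2, hρ.2]
    have hy2 : y.2 ∈ Icc c e := by
      have h1 : |y.2 - x.2| ≤ ρ := hmax ▸ le_max_right _ _
      have h2 := abs_le.1 h1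
      constructor <;> linarith [h2.1, h2.2, hρ.2]
    have h0 : ψ (y.1, y.2) = 0 := hzero _ hy
    have hline : (∃ t0 ∈ Icc a b, ∀ s ∈ Icc c e, |ψ (t0, s)| ≤ G ρ) ∨
        ∃ s0 ∈ Icc c e, ∀ t ∈ Icc a b, |ψ (t, s0)| ≤ G ρ := by
      rcases max_choice |y.1 - x.1| |y.2 - x.2| with h | h
      · left
        refine ⟨y.1, hy1, fun s hs => ?_⟩
        have h3 := osc (fun s => hasDeriv_snd hψ.sm y.1 s)
          (by exact hcy.comp (by fun_prop : Continuous fun s : ℝ => (y.1, s))) hs hy2
        rw [h0, sub_zero] at h3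
        have h4 : g1 y.1 ≤ G ρ := by
          have h5 : |y.1 - x.1| = ρ := by rw [← h, hmax]
          have n1 := g10 (x.1 + ρ)
          have n2 := g10 (x.1 - ρ)
          have n3 := g20 (x.2 + ρ)
          have n4 := g20 (x.2 - ρ)
          rcases (abs_eq hρ0).1 h5 with h6 | h6
          · have : y.1 = x.1 + ρ := by linarith
            rw [this, hGd]
            simp only
            linarith
          · have : y.1 = x.1 - ρ := by linarith
            rw [this, hGd]
            simp only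
            linarith
        exact h3.trans h4
      · right
        refine ⟨y.2, hy2, fun t ht => ?_⟩
        have h3 := osc (fun t => hasDeriv_fst hψ.sm t y.2)
          (by exact hcx.comp (by fun_prop : Continuous fun t : ℝ => (t, y.2))) ht hy1
        rw [h0, sub_zero] at h3
        have h4 : g2 y.2 ≤ G ρ := by
          have h5 : |y.2 - x.2| = ρ := by rw [← h, hmax]
          have n1 := g10 (x.1 + ρ)
          have n2 := g10 (x.1 - ρ)
          have n3 := g20 (x.2 + ρ)
          have n4 := g20 (x.2 - ρ)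
          rcases (abs_eq hρ0).1 h5 with h6 | h6
          · have : y.2 = x.2 + ρ := by linarith
            rw [this, hGd]
            simp only
            linarith
          · have : y.2 = x.2 - ρ := by linarith
            rw [this, hGd]
            simp only
            linarith
        exact h3.trans h4
    have h1 := box_line hψ hab hce hline
    have e1 : b - a = 4 * d := by rw [ha, hb']; ring
    have e2 : e - c = 4 * d := by rw [hc', he]; ring
    rw [e1, e2] at h1
    refine h1.trans (le_of_eq ?_)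
    ring
  -- integration over the radius
  have hB : ∫ ρ in d..(2 * d), G ρ ≤ J2 + J1 := by
    have k1 : ∀ g : ℝ → ℝ, Continuous g → (∀ t, 0 ≤ g t) → ∀ y : ℝ,
        (∫ ρ in d..(2 * d), g (y + ρ)) + (∫ ρ in d..(2 * d), g (y - ρ)) ≤
          ∫ t in (y - 2 * d)..(y + 2 * d), g t := by
      intro g hg h0 y
      rw [intervalIntegral.integral_comp_add_left, intervalIntegral.integral_comp_sub_left]
      have i : ∀ p q : ℝ, IntervalIntegrable g volume p q := fun p q => hg.intervalIntegrable _ _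
      have j1 := intervalIntegral.integral_add_adjacent_intervals (i (y - 2 * d) (y - d))
        (i (y - d) (y + 2 * d))
      have j2 := intervalIntegral.integral_add_adjacent_intervals (i (y - d) (y + d))
        (i (y + d) (y + 2 * d))
      have : 0 ≤ ∫ t in (y - d)..(y + d), g t :=
        intervalIntegral.integral_nonneg (by linarith) fun t _ => h0 t
      linarith
    have h1 := k1 g1 g1c g10 x.1
    have h2 := k1 g2 g2c g20 x.2
    have h3 : ∫ ρ in d..(2 * d), G ρ = ((∫ ρ in d..(2 * d), g1 (x.1 + ρ)) +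
        ∫ ρ in d..(2 * d), g1 (x.1 - ρ)) + ((∫ ρ in d..(2 * d), g2 (x.2 + ρ)) +
        ∫ ρ in d..(2 * d), g2 (x.2 - ρ)) := by
      rw [hGd, intervalIntegral.integral_add, intervalIntegral.integral_add,
        intervalIntegral.integral_add]
      all_goals exact Continuous.intervalIntegrable (by fun_prop) _ _
    rw [h3, hJ1', hJ2']
    linarith
  have hC : d * I ≤ 16 * d ^ 2 * (J2 + J1) + d * (4 * d * (J2 + J1)) := by
    calc d * I = ∫ _ρ in d..(2 * d), I := by
          rw [intervalIntegral.integral_const, smul_eq_mul]; ring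
      _ ≤ ∫ ρ in d..(2 * d), (16 * d ^ 2 * G ρ + 4 * d * (J2 + J1)) := by
          refine intervalIntegral.integral_mono_on (by linarith) (by simp)
            (Continuous.intervalIntegrable (by fun_prop) _ _) hA
      _ = 16 * d ^ 2 * (∫ ρ in d..(2 * d), G ρ) + d * (4 * d * (J2 + J1)) := by
          rw [intervalIntegral.integral_add (Continuous.intervalIntegrable (by fun_prop) _ _)
            (by simp), intervalIntegral.integral_const_mul, intervalIntegral.integral_const,
            smul_eq_mul]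
          ring
      _ ≤ _ := by
          have := mul_le_mul_of_nonneg_left hB (show 0 ≤ 16 * d ^ 2 by positivity)
          linarith
  have hD' : d * I ≤ d * (20 * d * (J2 + J1)) := by
    refine hC.trans (le_of_eq ?_)
    ring
  exact le_of_mul_le_mul_left hD' hd0

theorem bump_bound {s : ℝ} (hs : 0 < s) (x z : ℝ × ℝ) : bump s x z ≤ Z0⁻¹ * (s ^ 2)⁻¹ := by
  unfold bump rs
  have h0 := Z0_pos
  calc Z0⁻¹ * (s ^ 2)⁻¹ * kk (sqn (z - x) / s ^ 2) ≤ Z0⁻¹ * (s ^ 2)⁻¹ * 1 :=
        mul_le_mul_of_nonneg_left (kk_le_one _) (by positivity)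
    _ = _ := mul_one _

theorem s_whit : S_whit := by
  have hZ := Z0_pos
  set q : ℝ := 80 * Z0⁻¹ with hq
  have hq0 : 0 < q := by positivity
  refine ⟨32 * q ^ 2, by positivity, fun D hD hb hc x hx => V_le fun ψ hψ => ?_⟩
  set d := dd D x with hd
  have hd0 : 0 < d := (dd_pos hD hb).2 hx
  have h1 := whit_box hD hb hc hx hψ
  rw [← hd] at h1
  set Q := Ioc (x.1 - 2 * d) (x.1 + 2 * d) ×ˢ Ioc (x.2 - 2 * d) (x.2 + 2 * d) with hQ
  set m : ℝ := q / d with hm
  have hm0 : 0 < m := by positivity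
  have h2 := box_cs hψ.dx (a := x.1 - 2 * d) (b := x.1 + 2 * d) (c := x.2 - 2 * d)
    (e := x.2 + 2 * d) (by linarith) (by linarith) hm0
  have h3 := box_cs hψ.dy (a := x.1 - 2 * d) (b := x.1 + 2 * d) (c := x.2 - 2 * d)
    (e := x.2 + 2 * d) (by linarith) (by linarith) hm0
  rw [← hQ] at h2 h3
  have hbx : TestOn D (bump (d / 2) x) := bump_test (by linarith) (ball_sub (by linarith))
  have hen : energy ψ = (∫ z, dx ψ z ^ 2) + ∫ z, dy ψ z ^ 2 := by
    unfold energy
    rw [integral_add hψ.dx.intSq hψ.dy.intSq]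
  have h4 : ∫ z, bump (d / 2) x z * ψ z ≤ Z0⁻¹ * ((d / 2) ^ 2)⁻¹ * ∫ z in Q, |ψ z| := by
    have hsupp : ∀ z, z ∉ Q → bump (d / 2) x z = 0 := by
      intro z hz
      refine bump_zero (by linarith) ?_
      by_contra h
      push Not at h
      refine hz ?_
      rw [dist_eq_norm, Prod.norm_def, max_le_iff, Real.norm_eq_abs, Real.norm_eq_abs, abs_le,
        abs_le] at h
      simp only [Prod.fst_sub, Prod.snd_sub] at h
      refine ⟨⟨?_, ?_⟩, ?_, ?_⟩ <;> linarith [h.1.1, h.1.2, h.2.1, h.2.2]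
    have hQm : MeasurableSet Q := measurableSet_Ioc.prod measurableSet_Ioc
    have hiQ : IntegrableOn (fun z => |ψ z|) Q := hψ.int.abs.integrableOn
    calc ∫ z, bump (d / 2) x z * ψ z = ∫ z in Q, bump (d / 2) x z * ψ z := by
          rw [setIntegral_eq_integral_of_forall_compl_eq_zero fun z hz => by
            rw [hsupp z hz, zero_mul]]
      _ ≤ ∫ z in Q, Z0⁻¹ * ((d / 2) ^ 2)⁻¹ * |ψ z| := by
          refine integral_mono (hbx.intMul hψ.cont).integrableOn (hiQ.const_mul _) fun z => ?_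
          simp only
          calc bump (d / 2) x z * ψ z ≤ bump (d / 2) x z * |ψ z| :=
                mul_le_mul_of_nonneg_left (le_abs_self _) (bump_nonneg _ _ _)
            _ ≤ _ := mul_le_mul_of_nonneg_right (bump_bound (by linarith) x z) (abs_nonneg _)
      _ = _ := integral_const_mul _ _
  have h5 : Z0⁻¹ * ((d / 2) ^ 2)⁻¹ * (20 * d) = q / d := by
    rw [hq]
    field_simp
    norm_num
  have h6 : Z0⁻¹ * ((d / 2) ^ 2)⁻¹ * ∫ z in Q, |ψ z| ≤
      q / d * ((∫ z in Q, |dx ψ z|) + ∫ z in Q, |dy ψ z|) := by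
    rw [← h5, mul_assoc (Z0⁻¹ * ((d / 2) ^ 2)⁻¹)]
    exact mul_le_mul_of_nonneg_left h1 (by positivity)
  have h7 : (∫ z in Q, |dx ψ z|) + ∫ z in Q, |dy ψ z| ≤ 16 * d ^ 2 * m + energy ψ / (2 * m) := by
    rw [hen, add_div]
    have e1 : (x.1 + 2 * d - (x.1 - 2 * d)) * (x.2 + 2 * d - (x.2 - 2 * d)) * (m / 2) =
        8 * d ^ 2 * m := by ring
    rw [e1] at h2 h3
    linarith
  have h8 : q / d * (16 * d ^ 2 * m + energy ψ / (2 * m)) = 16 * q ^ 2 + energy ψ / 2 := by
    rw [hm]
    field_simp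
  have h9 := mul_le_mul_of_nonneg_left h7 (show 0 ≤ q / d by positivity)
  rw [h8] at h9
  linarith

end Vale.Agent.P153.R2.FLDI
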