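import Vale.Agent.P153.R2.FLDI.Riem
import Vale.Agent.P153.R2.FLDI.Whit

/-!
Moment bounds for the heights with the exact values of the two arcs.
-/

set_option autoImplicit false

namespace Vale.Agent.P153.R2.FLDI

open Filter Topology Set MeasureTheory
open Vale.Agent.P145.PT Vale.Agent.P153 Vale.Agent.P153.F.Top

variable {Φ : (ℝ × ℝ) ≃ₜ (ℝ × ℝ)} {δ : ℕ → ℝ} {N k : ℕ → ℕ}
  {p : ∀ n, ZMod (N n) → ℤ × ℤ} {S : ℕ → Finset ((ℤ × ℤ) × Bool)} {κ R : ℝ}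

theorem supp_ball {D : Set (ℝ × ℝ)} (hR : D ⊆ Metric.ball 0 R) {f : ℝ × ℝ → ℝ} (hf : TestOn D f) :
    ∀ z, f z ≠ 0 → z ∈ Metric.ball (0 : ℝ × ℝ) R := fun _ hz =>
  hR (hf.2.2 (subset_tsupport _ hz))

/-- The moments for exact boundary values are asymptotically bounded by those for free boundary
values. -/
theorem arcs_bd (h : Final.Approx Φ δ N k p S) (hfree : S_free κ)
    (hR : Final.dom Φ ⊆ Metric.ball 0 R) {f : ℝ × ℝ → ℝ} (hf : TestOn (Final.dom Φ) f) (j : ℕ)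
    {η : ℝ} (hη : 0 < η) : ∀ᶠ n in atTop,
      Ex (CA (p n) (k n) (S n)) (fun g => hh (p n) (S n) (δ n) f g ^ (2 * j)) ≤
        4 ^ j * (gm (κ * V (Final.dom Φ) f) (2 * j) + (2 * ∫ z, |f z|) ^ (2 * j)) + η := by
  have hA := approxF h
  have h1 := hfree _ jordF δ N p S hA f hf (2 * j)
  have h2 := riem_ab hf.cont hf.cs (supp_ball hR hf) hA.pos hA.lim
  have h3 := ((h1.add ((h2.const_mul 2).pow (2 * j))).const_mul (4 ^ j)).eventually
    (gt_mem_nhds (lt_add_of_pos_right _ hη))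
  filter_upwards [h3] with n hn
  refine le_trans ?_ hn.le
  have e : ∀ ω, hv (δ n) f ω = hB (Bx (δ n) R) (δ n) f ω :=
    hv_Bx (hA.pos n) (supp_ball hR hf)
  unfold hh
  simp_rw [e]
  rw [← ca_law (hA.poly n) (hA.encl n) (k n) (fun ω => hB (Bx (δ n) R) (δ n) f ω ^ (2 * j))]
  exact arcs_mom (hA.poly n) (hA.encl n) (xi_pm (k n)) _ _ _ _

theorem gm_two (v : ℝ) : gm v 2 = v := by
  have : gm v 2 = (((0 : ℕ) : ℝ) + 1) * v * gm v 0 := rfl
  rw [this]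
  have h0 : gm v 0 = 1 := rfl
  rw [h0]
  norm_num

theorem gm_four (v : ℝ) : gm v 4 = 3 * v ^ 2 := by
  have : gm v 4 = (((2 : ℕ) : ℝ) + 1) * v * gm v 2 := rfl
  rw [this, gm_two]
  push_cast
  ring

/-- `V ≤ C ∫ f²`. -/
theorem V_le_sq {D : Set (ℝ × ℝ)} (hb : Bornology.IsBounded D) : ∃ C : ℝ, 0 ≤ C ∧
    ∀ f, TestOn D f → V D f ≤ C * ∫ z, f z ^ 2 := by
  obtain ⟨R, _, hR⟩ := bdd_fst hb
  exact ⟨4 * R ^ 2, by positivity, fun f hf =>
    V_le fun ψ hψ => functional_le hR hf.intSq hf.cont.aestronglyMeasurable hψ⟩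

/-- `(∫ |f|)² ≤ C ∫ f²`. -/
theorem l1_le_sq {D : Set (ℝ × ℝ)} (hb : Bornology.IsBounded D) : ∃ C : ℝ, 0 ≤ C ∧
    ∀ f, TestOn D f → (∫ z, |f z|) ^ 2 ≤ C * ∫ z, f z ^ 2 := by
  obtain ⟨R, hR⟩ := hb.subset_closedBall (0 : ℝ × ℝ)
  set A : Set (ℝ × ℝ) := Metric.closedBall (0 : ℝ × ℝ) R with hAd
  have hAm : MeasurableSet A := measurableSet_closedBall
  have hAf : volume A ≠ ⊤ := (measure_closedBall_lt_top).ne
  refine ⟨(volume A).toReal, ENNReal.toReal_nonneg, fun f hf => ?_⟩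
  have hz : ∀ z, z ∉ A → f z = 0 := fun z hz => by
    by_contra hne
    exact hz (hR (hf.2.2 (subset_tsupport _ hne)))
  set I1 := ∫ z, |f z| with hI1
  set I2 := ∫ z, f z ^ 2 with hI2
  set v := (volume A).toReal with hv
  have habs : Integrable fun z => |f z| := hf.int.abs
  have key : ∀ t : ℝ, 0 ≤ v * (t * t) + (-(2 * I1)) * t + I2 := by
    intro t
    have hi : Integrable (A.indicator fun _ : ℝ × ℝ => t ^ 2) :=
      (integrable_indicator_iff hAm).2 (integrableOn_const hAf)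
    have h1 : ∫ z, (A.indicator (fun _ : ℝ × ℝ => t ^ 2) z - 2 * t * |f z| + f z ^ 2) =
        v * (t * t) + (-(2 * I1)) * t + I2 := by
      have i1 : Integrable fun z => A.indicator (fun _ : ℝ × ℝ => t ^ 2) z - 2 * t * |f z| :=
        hi.sub (habs.const_mul _)
      rw [integral_add i1 hf.intSq, integral_sub hi (habs.const_mul _),
        integral_const_mul, integral_indicator hAm, setIntegral_const]
      simp only [Measure.real, smul_eq_mul]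
      rw [← hI1, ← hI2, ← hv]
      ring
    rw [← h1]
    refine integral_nonneg fun z => ?_
    by_cases hzA : z ∈ A
    · simp only [Pi.zero_apply, indicator_of_mem hzA]
      nlinarith [sq_nonneg (t - |f z|), sq_abs (f z)]
    · simp only [Pi.zero_apply, indicator_of_notMem hzA, hz z hzA]
      simp
  have h2 := discrim_le_zero key
  unfold discrim at h2
  nlinarith

theorem vol_bump {s : ℝ} (hs : 0 < s) (x : ℝ × ℝ) : ∫ z, |bump s x z| = 1 := by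
  have e : ∀ z, |bump s x z| = bump s x z := fun z => abs_of_nonneg (bump_nonneg s x z)
  simp_rw [e]
  exact bump_int hs x

theorem whit_test {D : Set (ℝ × ℝ)} (hD : IsOpen D) (hb : Bornology.IsBounded D) {x : ℝ × ℝ}
    (hx : x ∈ D) : TestOn D (bump (dd D x / 2) x) := by
  have hx0 : 0 < dd D x := (dd_pos hD hb).2 hx
  exact bump_test (half_pos hx0) fun z hz => ball_sub (show dd D x / 2 < dd D x by linarith) hz

/-- The bounds of the structure `Arc`. -/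
theorem arcs_mb (h : Final.Approx Φ δ N k p S) (hfree : S_free κ) {f : ℝ × ℝ → ℝ}
    (hf : TestOn (Final.dom Φ) f) (j : ℕ) : ∃ C : ℝ, ∀ᶠ n in atTop,
      Ex (CA (p n) (k n) (S n)) (fun g => hh (p n) (S n) (δ n) f g ^ (2 * j)) ≤ C := by
  obtain ⟨R, hR⟩ := (domF_bdd (Φ := Φ)).subset_ball (0 : ℝ × ℝ)
  exact ⟨_, arcs_bd h hfree hR hf j one_pos⟩

theorem arcs_l2 (h : Final.Approx Φ δ N k p S) (hκ : 0 < κ) (hfree : S_free κ) :
    ∃ C : ℝ, 0 ≤ C ∧ ∀ f, TestOn (Final.dom Φ) f → ∀ ε : ℝ, 0 < ε → ∀ᶠ n in atTop,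
      Ex (CA (p n) (k n) (S n)) (fun g => hh (p n) (S n) (δ n) f g ^ 2) ≤
        C * (∫ z, f z ^ 2) + ε := by
  obtain ⟨R, hR⟩ := (domF_bdd (Φ := Φ)).subset_ball (0 : ℝ × ℝ)
  obtain ⟨C1, hC1, h1⟩ := V_le_sq (domF_bdd (Φ := Φ))
  obtain ⟨C2, hC2, h2⟩ := l1_le_sq (domF_bdd (Φ := Φ))
  refine ⟨4 * (κ * C1 + 4 * C2), by positivity, fun f hf ε hε => ?_⟩
  filter_upwards [arcs_bd h hfree hR hf 1 hε] with n hn
  refine hn.trans ?_
  rw [mul_one, pow_one, gm_two]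
  have e1 := mul_le_mul_of_nonneg_left (h1 f hf) hκ.le
  have e2 := h2 f hf
  nlinarith

theorem arcs_vb (h : Final.Approx Φ δ N k p S) (hκ : 0 < κ) (hfree : S_free κ) (j : ℕ)
    (hj : j = 1 ∨ j = 2) :
    ∃ K : ℝ, 0 ≤ K ∧ ∀ x ∈ Final.dom Φ, ∀ᶠ n in atTop,
      Ex (CA (p n) (k n) (S n)) (fun g =>
        hh (p n) (S n) (δ n) (bump (dd (Final.dom Φ) x / 2) x) g ^ (2 * j)) ≤ K := by
  obtain ⟨R, hR⟩ := (domF_bdd (Φ := Φ)).subset_ball (0 : ℝ × ℝ)
  obtain ⟨K, hK0, hK⟩ := s_whit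
  refine ⟨4 ^ j * (κ * K + 3 * (κ * K) ^ 2 + 2 ^ (2 * j)) + 1, by positivity, fun x hx => ?_⟩
  have hd := (dd_pos domF_open domF_bdd).2 hx
  filter_upwards [arcs_bd h hfree hR (whit_test domF_open domF_bdd hx) j one_pos] with n hn
  refine hn.trans ?_
  rw [vol_bump (half_pos hd), mul_one]
  have h1 := hK _ domF_open domF_bdd domF_compl_conn x hx
  have h0 : 0 ≤ V (Final.dom Φ) (bump (dd (Final.dom Φ) x / 2) x) :=
    V_nonneg domF_bdd (whit_test domF_open domF_bdd hx)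
  have h2 : κ * V (Final.dom Φ) (bump (dd (Final.dom Φ) x / 2) x) ≤ κ * K :=
    mul_le_mul_of_nonneg_left h1 hκ.le
  have h3 : 0 ≤ κ * V (Final.dom Φ) (bump (dd (Final.dom Φ) x / 2) x) := by positivity
  have h4 : gm (κ * V (Final.dom Φ) (bump (dd (Final.dom Φ) x / 2) x)) (2 * j) ≤
      κ * K + 3 * (κ * K) ^ 2 := by
    rcases hj with rfl | rfl
    · rw [mul_one, gm_two]
      nlinarith [sq_nonneg (κ * K)]
    · rw [show 2 * 2 = 4 from rfl, gm_four]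
      nlinarith [mul_nonneg hκ.le hK0]
  have h5 : (0 : ℝ) ≤ 4 ^ j := by positivity
  nlinarith [mul_le_mul_of_nonneg_left h4 h5]

end Vale.Agent.P153.R2.FLDI
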