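import Vale.Agent.P153.R2.FLDI.Lat

/-!
From the definitions of the final statements to those of the lattice blocks.
-/

set_option autoImplicit false

namespace Vale.Agent.P153.R2.FLDI

open Filter Topology Set MeasureTheory ProbabilityTheory
open Vale.Agent.P145.PT Vale.Agent.P153 Vale.Agent.P153.F.Top
open Vale.Agent.P153.F.Dom.Arcs (HeightsB)

theorem adjF {x y : ℤ × ℤ} : Final.Adj x y ↔ GFF.Adj x y := by
  obtain ⟨x1, x2⟩ := x
  obtain ⟨y1, y2⟩ := y
  unfold Final.Adj Final.len GFF.Adj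
  simp only [Prod.mk_sub_mk, Set.mem_insert_iff, Set.mem_singleton_iff, Prod.mk.injEq]
  set a := y1 - x1
  set b := y2 - x2
  have h1 : √((a : ℝ) ^ 2 + a * b + (b : ℝ) ^ 2) = 1 ↔ a ^ 2 + a * b + b ^ 2 = 1 := by
    rw [Real.sqrt_eq_one]
    constructor
    · intro h
      exact_mod_cast h
    · intro h
      exact_mod_cast h
  rw [h1]
  constructor
  · intro h
    have hb : b ^ 2 ≤ 1 := by nlinarith [sq_nonneg (2 * a + b)]
    have ha : a ^ 2 ≤ 1 := by nlinarith [sq_nonneg (a + 2 * b)]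
    have hb1 : -1 ≤ b := by nlinarith
    have hb2 : b ≤ 1 := by nlinarith
    have ha1 : -1 ≤ a := by nlinarith
    have ha2 : a ≤ 1 := by nlinarith
    interval_cases b <;> interval_cases a <;> simp_all
  · rintro (⟨h, h'⟩ | ⟨h, h'⟩ | ⟨h, h'⟩ | ⟨h, h'⟩ | ⟨h, h'⟩ | ⟨h, h'⟩) <;> rw [h, h'] <;> norm_num

variable {n : ℕ} {p : ZMod n → ℤ × ℤ} {S : Finset ((ℤ × ℤ) × Bool)}

theorem polyF (h : Final.IsPolygon p) : F.Dom.IsPolygon p :=
  ⟨h.1, h.2.1, fun i => adjF.1 (h.2.2 i)⟩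

theorem enclF (h : Final.Encloses p S) : F.Dom.Encloses p S :=
  ⟨fun v => (h v).1, fun v => (h v).2.1, fun v => (h v).2.2⟩

theorem heightsF (k : ℕ) : Final.Heights p k S = HeightsB p S (xi k) := by
  ext h
  constructor
  · rintro ⟨h1, h2, h3, h4⟩
    have h2' : ∀ i, h (p i) = xi k i := h2
    refine ⟨F.Dom.Arcs.mem_heights.2 ⟨⟨h1, fun v hv w hw a => h3 v hv w hw (adjF.2 a), h4⟩,
      fun i => ?_⟩, h2'⟩
    rw [h2']
    exact xi_pm k i
  · rintro ⟨h1, h2⟩
    obtain ⟨⟨a1, a2, a3⟩, -⟩ := F.Dom.Arcs.mem_heights.1 h1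
    exact ⟨a1, h2, fun v hv w hw a => a2 v hv w hw (adjF.1 a), a3⟩

theorem fldF (δ : ℝ) (φ : ℝ × ℝ → ℝ) (h : ℤ × ℤ → ℤ) :
    Final.fld S δ φ h = F.Dom.fld S δ φ h := rfl

theorem testF {D : Set (ℝ × ℝ)} {φ : ℝ × ℝ → ℝ} : Final.TestOn D φ ↔ TestOn D φ := Iff.rfl

theorem vF (D : Set (ℝ × ℝ)) (φ : ℝ × ℝ → ℝ) : Final.V D φ = V D φ := rfl

theorem lapF (u : ℝ × ℝ → ℝ) (z : ℝ × ℝ) : Final.lap u z = lap u z := rfl

theorem lawF_spec (hp : Final.IsPolygon p) (hS : Final.Encloses p S) (k : ℕ) :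
    Final.Prob (Final.law p k S) ∧ (∀ G : (ℤ × ℤ → ℤ) → ℝ, Integrable G (Final.law p k S)) ∧
    ∀ G : (ℤ × ℤ → ℤ) → ℝ, Final.mean (Final.law p k S) G = Ex (HeightsB p S (xi k)) G := by
  have h := unif_spec (hB_fin (ξ := xi k) (polyF hp) (enclF hS))
    (F.Dom.Arcs.heightsB_ne (polyF hp) (enclF hS) (xi_pm k))
  unfold Final.law Final.unif Final.mean
  rw [heightsF]
  exact h

/-! ### Geometry of the marked domain -/

section Geo

variable {Φ : (ℝ × ℝ) ≃ₜ (ℝ × ℝ)}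

theorem jordF : F.Dom.JordanDomain (Final.dom Φ) := ⟨Φ, rfl⟩

theorem circ_sq (t : ℝ) : (Final.circ t).1 ^ 2 + (Final.circ t).2 ^ 2 = 1 := by
  unfold Final.circ
  simp only
  linarith [Real.sin_sq_add_cos_sq t]

theorem circ_cont : Continuous Final.circ := by
  unfold Final.circ
  fun_prop

theorem domF_open : IsOpen (Final.dom Φ) := by
  unfold Final.dom
  rw [Φ.isOpen_image]
  exact isOpen_lt (by fun_prop) continuous_const

theorem disc_bdd : Bornology.IsBounded {z : ℝ × ℝ | z.1 ^ 2 + z.2 ^ 2 ≤ 1} := by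
  rw [Metric.isBounded_iff_subset_closedBall (0 : ℝ × ℝ)]
  refine ⟨1, fun z hz => ?_⟩
  simp only [mem_ofPred_eq] at hz
  rw [mem_closedBall_zero_iff, Prod.norm_def, sup_le_iff, Real.norm_eq_abs, Real.norm_eq_abs]
  constructor
  · rw [abs_le_one_iff_mul_self_le_one]
    nlinarith [sq_nonneg z.2]
  · rw [abs_le_one_iff_mul_self_le_one]
    nlinarith [sq_nonneg z.1]

theorem disc_cpt : IsCompact {z : ℝ × ℝ | z.1 ^ 2 + z.2 ^ 2 ≤ 1} :=
  Metric.isCompact_of_isClosed_isBounded (isClosed_le (by fun_prop) continuous_const) disc_bdd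

theorem domF_bdd : Bornology.IsBounded (Final.dom Φ) := by
  have h1 : IsCompact (Φ '' {z : ℝ × ℝ | z.1 ^ 2 + z.2 ^ 2 ≤ 1}) := disc_cpt.image Φ.continuous
  refine h1.isBounded.subset (image_mono fun z hz => ?_)
  have : z.1 ^ 2 + z.2 ^ 2 < 1 := hz
  exact this.le

/-- The unit circle is the boundary of the disc. -/
theorem disc_closure : closure {z : ℝ × ℝ | z.1 ^ 2 + z.2 ^ 2 < 1} =
    {z : ℝ × ℝ | z.1 ^ 2 + z.2 ^ 2 ≤ 1} := by
  apply Subset.antisymm
  · refine closure_minimal (fun z hz => ?_) (isClosed_le (by fun_prop) continuous_const)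
    have : z.1 ^ 2 + z.2 ^ 2 < 1 := hz
    exact this.le
  · intro z hz
    have h1 : Tendsto (fun t : ℝ => t • z) (𝓝[<] 1) (𝓝 ((1 : ℝ) • z)) := by
      have : Continuous fun t : ℝ => t • z := by fun_prop
      exact (this.tendsto 1).mono_left nhdsWithin_le_nhds
    rw [one_smul] at h1
    refine mem_closure_of_tendsto h1 ?_
    have h2 : ∀ᶠ t : ℝ in 𝓝[<] 1, 0 < t :=
      nhdsWithin_le_nhds (lt_mem_nhds (by norm_num))
    filter_upwards [h2, self_mem_nhdsWithin] with t ht ht1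
    simp only [mem_ofPred_eq, Prod.smul_fst, Prod.smul_snd, smul_eq_mul] at *
    have e : (t * z.1) ^ 2 + (t * z.2) ^ 2 = t ^ 2 * (z.1 ^ 2 + z.2 ^ 2) := by ring
    rw [e]
    have h3 : t ^ 2 < 1 := by
      have : t < 1 := ht1
      nlinarith
    calc t ^ 2 * (z.1 ^ 2 + z.2 ^ 2) ≤ t ^ 2 * 1 :=
          mul_le_mul_of_nonneg_left hz (sq_nonneg t)
      _ < 1 := by linarith

theorem domF_frontier : frontier (Final.dom Φ) = Φ '' {z | z.1 ^ 2 + z.2 ^ 2 = 1} := by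
  unfold Final.dom
  rw [← Φ.image_frontier]
  congr 1
  rw [frontier, disc_closure, (isOpen_lt (by fun_prop) continuous_const).interior_eq]
  ext z
  simp only [Set.mem_sdiff, mem_ofPred_eq, not_lt]
  constructor
  · rintro ⟨h1, h2⟩
    linarith
  · intro h
    exact ⟨h.le, h.ge⟩

theorem circ_surj {z : ℝ × ℝ} (hz : z.1 ^ 2 + z.2 ^ 2 = 1) :
    ∃ t ∈ Ico 0 (2 * Real.pi), Final.circ t = z := by
  have h1 : ‖(⟨z.1, z.2⟩ : ℂ)‖ = 1 := by
    rw [Complex.norm_def, Complex.normSq_mk, Real.sqrt_eq_one]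
    linarith [hz]
  set w : ℂ := ⟨z.1, z.2⟩ with hw
  have h2 : (‖w‖ : ℂ) * Complex.exp (Complex.arg w * Complex.I) = w := Complex.norm_mul_exp_arg_mul_I w
  rw [h1, Complex.ofReal_one, one_mul] at h2
  have hc : Real.cos (Complex.arg w) = z.1 := by
    have := congrArg Complex.re h2
    rwa [Complex.exp_ofReal_mul_I_re] at this
  have hs : Real.sin (Complex.arg w) = z.2 := by
    have := congrArg Complex.im h2
    rwa [Complex.exp_ofReal_mul_I_im] at this
  have hlo := Complex.neg_pi_lt_arg w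
  have hhi := Complex.arg_le_pi w
  by_cases h0 : 0 ≤ Complex.arg w
  · refine ⟨Complex.arg w, ⟨h0, by linarith [Real.pi_pos]⟩, ?_⟩
    unfold Final.circ
    rw [hc, hs]
  · push Not at h0
    refine ⟨Complex.arg w + 2 * Real.pi, ⟨by linarith, by linarith⟩, ?_⟩
    unfold Final.circ
    rw [Real.cos_add_two_pi, Real.sin_add_two_pi, hc, hs]

theorem frontier_cases {x : ℝ × ℝ} (hx : x ∈ frontier (Final.dom Φ)) :
    x ∈ Final.arcPlus Φ ∨ x ∈ Final.arcMinus Φ ∨ x = Φ (Final.circ 0) ∨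
      x = Φ (Final.circ Real.pi) := by
  rw [domF_frontier] at hx
  obtain ⟨z, hz, rfl⟩ := hx
  obtain ⟨t, ht, rfl⟩ := circ_surj hz
  rcases eq_or_lt_of_le ht.1 with h0 | h0
  · right; right; left
    rw [← h0]
  rcases lt_trichotomy t Real.pi with h1 | h1 | h1
  · left
    exact ⟨t, ⟨h0, h1⟩, rfl⟩
  · right; right; right
    rw [h1]
  · right; left
    exact ⟨t, ⟨h1, ht.2⟩, rfl⟩

theorem circ_not_mem (t : ℝ) : Φ (Final.circ t) ∉ Final.dom Φ := by
  rintro ⟨z, hz, hzt⟩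
  have := Φ.injective hzt
  rw [this] at hz
  have h2 := circ_sq t
  simp only [mem_ofPred_eq] at hz
  linarith

theorem circ_mem_closure (t : ℝ) : Φ (Final.circ t) ∈ closure (Final.dom Φ) := by
  unfold Final.dom
  rw [← Φ.image_closure, disc_closure]
  exact ⟨_, (circ_sq t).le, rfl⟩

theorem circ_inj {s t : ℝ} (hs : s ∈ Ico 0 (2 * Real.pi)) (ht : t ∈ Ico 0 (2 * Real.pi))
    (h : Final.circ s = Final.circ t) : s = t := by
  unfold Final.circ at h
  rw [Prod.mk.injEq] at h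
  have h1 : Real.cos (s - t) = 1 := by
    rw [Real.cos_sub, h.1, h.2]
    nlinarith [Real.sin_sq_add_cos_sq t]
  obtain ⟨k, hk⟩ := (Real.cos_eq_one_iff _).1 h1
  have hpi := Real.pi_pos
  have h2 : |(k : ℝ)| < 1 := by
    rw [abs_lt]
    constructor
    · have : -(2 * Real.pi) < s - t := by linarith [hs.1, ht.2]
      rw [← hk] at this
      nlinarith
    · have : s - t < 2 * Real.pi := by linarith [hs.2, ht.1]
      rw [← hk] at this
      nlinarith
  have h3 : k = 0 := by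
    have : |k| < 1 := by exact_mod_cast h2
    exact Int.abs_lt_one_iff.1 this
  rw [h3] at hk
  simp at hk
  linarith

end Geo

/-- The approximations of the final statements are approximations in the former sense. -/
theorem approxF {Φ : (ℝ × ℝ) ≃ₜ (ℝ × ℝ)} {δ : ℕ → ℝ} {N k : ℕ → ℕ}
    {p : ∀ n, ZMod (N n) → ℤ × ℤ} {S : ℕ → Finset ((ℤ × ℤ) × Bool)}
    (h : Final.Approx Φ δ N k p S) : F.Dom.Approx (Final.dom Φ) δ N p S where
  pos n := (h.1 n).1
  lim := h.2.1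
  poly n := polyF (h.1 n).2.2.2.1
  encl n := enclF (h.1 n).2.2.2.2
  near ε hε := by
    filter_upwards [h.2.2.1 (ε / 2) (half_pos hε)] with n hn i
    obtain ⟨s, hs, hs0, -, hsN, hd⟩ := hn
    have hN : 2 < N n := (h.1 n).2.2.2.1.1
    have : NeZero (N n) := ⟨by omega⟩
    have hi : i.val < N n := i.val_lt
    have h1 := hd i.val hi (s i.val) ⟨le_rfl, hs (Nat.le_succ _)⟩
    have e : ((i.val : ℕ) : ZMod (N n)) = i := ZMod.natCast_zmod_val i
    rw [e] at h1
    have h2 := circ_mem_closure (Φ := Φ) (s i.val)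
    rw [Metric.mem_closure_iff] at h2
    obtain ⟨z, hz, hd2⟩ := h2 (ε / 2) (half_pos hε)
    refine ⟨z, hz, ?_⟩
    calc dist (δ n • F.Dom.pt (p n i)) z ≤ dist (δ n • F.Dom.pt (p n i)) (Φ (Final.circ (s i.val))) +
        dist (Φ (Final.circ (s i.val))) z := dist_triangle _ _ _
      _ < ε := by
          have h3 : dist (δ n • F.Dom.pt (p n i)) (Φ (Final.circ (s i.val))) < ε / 2 := h1
          linarith
  cpt K hK hc := h.2.2.2 K hK hc

end Vale.Agent.P153.R2.FLDI
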