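import Vale.Agent.P153.R2.FLDI.Defs
import Vale.Agent.P153.R2.Base.Defs
import Vale.Agent.P153.R2.Final.Defs
import Vale.Agent.P153.Bd5.B30

/-!
P153, two-arc boundary values, block FLDI: the inputs from the lattice blocks for the field theorem
`Final.FieldLimit`, in terms of the heights with exact data `Cfg V (exa V η)` of block BASE.
-/

set_option autoImplicit false

namespace Vale.Agent.P153.R2.FLDI

open Filter Topology Set MeasureTheory
open Vale.Agent.P145.PT Vale.Agent.P153 Vale.Agent.P153.F.Top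
open Vale.Agent.P153.Topo (Conn)

open Classical in
/-- The data of the polygon `p` with the values `1` at `p 0, …, p (k - 1)` and `-1` at
`p k, …, p (n - 1)`; the dummy value `1` elsewhere. -/
noncomputable def dat {n : ℕ} (p : ZMod n → ℤ × ℤ) (k : ℕ) : Hg := fun v =>
  if ∃ i : ZMod n, p i = v ∧ k ≤ i.val then -1 else 1

/-- The inner vertices, as a set. -/
noncomputable def inn {n : ℕ} (p : ZMod n → ℤ × ℤ) (S : Finset ((ℤ × ℤ) × Bool)) : Set Pt :=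
  (F.Dom.inner p S : Set (ℤ × ℤ))

/-- The heights with the exact data of the two arcs. -/
noncomputable def CA {n : ℕ} (p : ZMod n → ℤ × ℤ) (k : ℕ) (S : Finset ((ℤ × ℤ) × Bool)) : Set Hg :=
  Cfg (inn p S) (exa (inn p S) (dat p k))

/-- The smeared inner heights `√3/2 δ² ∑_{v inner} h(v) f(δ v)`. -/
noncomputable def hh {n : ℕ} (p : ZMod n → ℤ × ℤ) (S : Finset ((ℤ × ℤ) × Bool)) (δ : ℝ)
    (f : ℝ × ℝ → ℝ) (h : Hg) : ℝ := hv δ f (vh (F.Dom.inner p S) h)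

/-- INPUT 1 (block SDAR): the Schwinger-Dyson equations for the exact data of the two arcs, for all
approximations (`j = 0`: the mean is harmonic). -/
def S_sdar (κ : ℝ) : Prop := ∀ (Φ : (ℝ × ℝ) ≃ₜ (ℝ × ℝ)) (δ : ℕ → ℝ) (N k : ℕ → ℕ)
  (p : ∀ n, ZMod (N n) → ℤ × ℤ) (S : ℕ → Finset ((ℤ × ℤ) × Bool)), Final.Approx Φ δ N k p S →
  ∀ ψ f : ℝ × ℝ → ℝ, TestOn (Final.dom Φ) ψ → TestOn (Final.dom Φ) f → ∀ j : ℕ,
    Tendsto (fun n => Ex (CA (p n) (k n) (S n))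
        (fun h => hh (p n) (S n) (δ n) (lap ψ) h * hh (p n) (S n) (δ n) f h ^ j) +
      κ * j * (∫ z, ψ z * f z) * Ex (CA (p n) (k n) (S n))
        (fun h => hh (p n) (S n) (δ n) f h ^ (j - 1))) atTop (𝓝 0)

/-- Some inner vertex of the ball of radius `dd D x / 2` at `x` is joined to distance `ρ` from `z`
by a path of inner vertices with heights different from `c`. -/
def Far {n : ℕ} (p : ZMod n → ℤ × ℤ) (S : Finset ((ℤ × ℤ) × Bool)) (δ : ℝ) (D : Set (ℝ × ℝ))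
    (x z : ℝ × ℝ) (ρ : ℝ) (c : ℤ) : Set Hg :=
  {h | ∃ a b : Pt, dist (dp δ a) x ≤ dd D x / 2 ∧ ρ ≤ dist (dp δ b) z ∧
    Conn {v | v ∈ inn p S ∧ h v ≠ c} a b}

/-- INPUT 2 (block MULT): near a boundary point `z` of `A_+` (of `A_-`) the ball of radius
`dd D x / 2` at `x` is separated from distance `ρ` from `z` by heights `1` (by heights `-1`), with
high probability. -/
def S_conn : Prop := ∀ (Φ : (ℝ × ℝ) ≃ₜ (ℝ × ℝ)) (δ : ℕ → ℝ) (N k : ℕ → ℕ)
  (p : ∀ n, ZMod (N n) → ℤ × ℤ) (S : ℕ → Finset ((ℤ × ℤ) × Bool)), Final.Approx Φ δ N k p S →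
  ∀ (c : ℤ) (z : ℝ × ℝ), (c = 1 ∧ z ∈ Final.arcPlus Φ ∨ c = -1 ∧ z ∈ Final.arcMinus Φ) →
  ∀ ρ ε : ℝ, 0 < ρ → 0 < ε → ∃ r : ℝ, 0 < r ∧ ∀ x ∈ Final.dom Φ, dist x z < r →
    ∀ᶠ n in atTop, Pr (CA (p n) (k n) (S n))
      (Far (p n) (S n) (δ n) (Final.dom Φ) x z ρ c) ≤ ε

/-- The free field theorem in the form used here: the moments of the heights with free boundary
values in the polygons. -/
def S_free (κ : ℝ) : Prop := ∀ D : Set (ℝ × ℝ), F.Dom.JordanDomain D → ∀ (δ : ℕ → ℝ) (N : ℕ → ℕ)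
  (p : ∀ n, ZMod (N n) → ℤ × ℤ) (S : ℕ → Finset ((ℤ × ℤ) × Bool)), F.Dom.Approx D δ N p S →
  ∀ f : ℝ × ℝ → ℝ, TestOn D f → ∀ k : ℕ,
    Tendsto (fun n => ze (F.Dom.inner (p n) (S n)) (fun ω => hv (δ n) f ω ^ k)) atTop
      (𝓝 (gm (κ * V D f) k))

/-- OUTPUT of the block. -/
def S_fieldLimit : Prop := ∀ κ : ℝ, 0 < κ → S_free κ → S_sdar κ → S_conn → Final.FieldLimit κ

end Vale.Agent.P153.R2.FLDI
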