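import Vale.Agent.P153.R2.FLDI.Main

/-!
The centred moments are Gaussian in the limit.
-/

set_option autoImplicit false

namespace Vale.Agent.P153.R2.FLDI

open Filter Topology Set MeasureTheory Polynomial
open Vale.Agent.P145.PT Vale.Agent.P153 Vale.Agent.P153.F.Top

variable {κ : ℝ} {δ : ℕ → ℝ} {B : ℕ → Finset (ℤ × ℤ)} {μ : ℕ → Measure Om}
  {D : Set (ℝ × ℝ)} {E : Finset (ℝ × ℝ)} {s : ℝ × ℝ → ℝ} {U : Ultrafilter ℕ}

/-- The centred mixed moments. -/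
noncomputable def Ac (δ : ℕ → ℝ) (B : ℕ → Finset (ℤ × ℤ)) (μ : ℕ → Measure Om)
    (u : ℝ × ℝ → ℝ) (U : Ultrafilter ℕ) (f : ℝ × ℝ → ℝ) (k : ℕ) (g : ℝ × ℝ → ℝ) : ℝ :=
  lm U fun n => ∫ ω, (hB (B n) (δ n) g ω - ∫ z, u z * g z) *
    (hB (B n) (δ n) f ω - ∫ z, u z * f z) ^ k ∂(μ n)

/-- The centred moments. -/
noncomputable def ac (δ : ℕ → ℝ) (B : ℕ → Finset (ℤ × ℤ)) (μ : ℕ → Measure Om)
    (u : ℝ × ℝ → ℝ) (U : Ultrafilter ℕ) (f : ℝ × ℝ → ℝ) (k : ℕ) : ℝ :=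
  lm U fun n => ∫ ω, (hB (B n) (δ n) f ω - ∫ z, u z * f z) ^ k ∂(μ n)

theorem eval_pk (m x : ℝ) (k : ℕ) : ((X - Polynomial.C m) ^ k).eval x = (x - m) ^ k := by
  simp

theorem Arc.tend_Ac (A : Arc κ δ B μ D E s U) {g f : ℝ × ℝ → ℝ} (hg : TestOn D g)
    (hf : TestOn D f) (u : ℝ × ℝ → ℝ) (k : ℕ) :
    Tendsto (fun n => ∫ ω, (hB (B n) (δ n) g ω - ∫ z, u z * g z) *
      (hB (B n) (δ n) f ω - ∫ z, u z * f z) ^ k ∂(μ n)) U (𝓝 (Ac δ B μ u U f k g)) := by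
  have h := A.tend_mixed hg hf (∫ z, u z * g z) ((X - Polynomial.C (∫ z, u z * f z)) ^ k)
  simp only [eval_pk] at h
  exact h

theorem Arc.tend_ac (A : Arc κ δ B μ D E s U) {f : ℝ × ℝ → ℝ}
    (hf : TestOn D f) (u : ℝ × ℝ → ℝ) (k : ℕ) :
    Tendsto (fun n => ∫ ω, (hB (B n) (δ n) f ω - ∫ z, u z * f z) ^ k ∂(μ n)) U
      (𝓝 (ac δ B μ u U f k)) := by
  have h := A.tend_poly hf ((X - Polynomial.C (∫ z, u z * f z)) ^ k)
  simp only [eval_pk] at h
  exact h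

theorem Arc.Ac_sq (A : Arc κ δ B μ D E s U) {g f : ℝ × ℝ → ℝ} (hg : TestOn D g)
    (hf : TestOn D f) (u : ℝ × ℝ → ℝ) (k : ℕ) {C Q : ℝ} (hQ0 : 0 ≤ Q)
    (hC : ∀ᶠ n in (U : Filter ℕ), ∫ ω, (hB (B n) (δ n) f ω - ∫ z, u z * f z) ^ (2 * k) ∂(μ n) ≤ C)
    (hQ : ∀ᶠ n in (U : Filter ℕ), ∫ ω, hB (B n) (δ n) g ω ^ 2 ∂(μ n) ≤ Q) :
    Ac δ B μ u U f k g ^ 2 ≤ (2 * Q + 2 * (∫ z, u z * g z) ^ 2) * C := by
  refine le_of_tendsto ((A.tend_Ac hg hf u k).pow 2) ?_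
  filter_upwards [hC, hQ] with n h1 h2
  have h3 := (A.mom n).cs (alg_sub_const (B := B n) (δ := δ n) g (∫ z, u z * g z))
    ((alg_sub_const (B := B n) (δ := δ n) f (∫ z, u z * f z)).pow k)
  have e : ∀ ω, ((hB (B n) (δ n) f ω - ∫ z, u z * f z) ^ k) ^ 2 =
      (hB (B n) (δ n) f ω - ∫ z, u z * f z) ^ (2 * k) := fun ω => by
    rw [← pow_mul, mul_comm]
  simp_rw [e] at h3
  have h0 : 0 ≤ ∫ ω, (hB (B n) (δ n) f ω - ∫ z, u z * f z) ^ (2 * k) ∂(μ n) :=
    integral_nonneg fun ω => by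
      rw [pow_mul]
      exact pow_nonneg (sq_nonneg _) k
  refine h3.trans (mul_le_mul ?_ h1 h0 (by positivity))
  have hprob := (A.mom n).prob
  calc ∫ ω, (hB (B n) (δ n) g ω - ∫ z, u z * g z) ^ 2 ∂(μ n)
      ≤ ∫ ω, (2 * hB (B n) (δ n) g ω ^ 2 + 2 * (∫ z, u z * g z) ^ 2) ∂(μ n) := by
        refine integral_mono ((A.mom n).integrable
          ((alg_sub_const (B := B n) (δ := δ n) g (∫ z, u z * g z)).pow 2))
          ((((A.mom n).integrable (alg_hB.pow 2)).const_mul 2).add (integrable_const _))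
          fun ω => ?_
        simp only
        nlinarith [sq_nonneg (hB (B n) (δ n) g ω + ∫ z, u z * g z)]
    _ = 2 * (∫ ω, hB (B n) (δ n) g ω ^ 2 ∂(μ n)) + 2 * (∫ z, u z * g z) ^ 2 := by
        rw [integral_add (((A.mom n).integrable (alg_hB.pow 2)).const_mul 2)
          (integrable_const _), integral_const_mul]
        simp
    _ ≤ 2 * Q + 2 * (∫ z, u z * g z) ^ 2 := by linarith

theorem Arc.bd_ck (A : Arc κ δ B μ D E s U) {f : ℝ × ℝ → ℝ} (hf : TestOn D f) (m : ℝ) (k : ℕ) :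
    ∃ C : ℝ, 0 ≤ C ∧ ∀ᶠ n in (U : Filter ℕ),
      ∫ ω, (hB (B n) (δ n) f ω - m) ^ (2 * k) ∂(μ n) ≤ C := by
  obtain ⟨C, hC0, hC⟩ := A.bd_poly hf ((X - Polynomial.C m) ^ k)
  refine ⟨C, hC0, ?_⟩
  filter_upwards [hC] with n hn
  simp only [eval_pk] at hn
  refine le_trans (le_of_eq ?_) hn
  congr 1
  funext ω
  rw [← pow_mul, mul_comm]

theorem Arc.Ac_l2fn (A : Arc κ δ B μ D E s U) {f u : ℝ × ℝ → ℝ} (hf : TestOn D f)
    (hu : Harm D u) {K : ℝ} (hK : ∀ z ∈ D, |u z| ≤ K) (k : ℕ) :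
    ∃ C, L2Fn D (Ac δ B μ u U f k) C := by
  obtain ⟨C₂, hC₂, h2⟩ := A.l2
  obtain ⟨C', hC'0, hC'⟩ := A.bd_ck hf (∫ z, u z * f z) k
  obtain ⟨Cu, hCu⟩ := harm_l2fn A.op A.bdd hu.smooth hK
  refine ⟨Real.sqrt ((2 * C₂ + 2 * Cu ^ 2) * C'), ?_, ?_, ?_⟩
  · intro g g' hg hg'
    refine lm_eq ?_
    refine ((A.tend_Ac hg hf u k).add (A.tend_Ac hg' hf u k)).congr fun n => ?_
    have i1 := fun g : ℝ × ℝ → ℝ => (A.mom n).integrable (Alg.mul
      (alg_sub_const (B := B n) (δ := δ n) g (∫ z, u z * g z))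
      ((alg_sub_const (B := B n) (δ := δ n) f (∫ z, u z * f z)).pow k))
    rw [← integral_add (i1 g) (i1 g')]
    congr 1
    funext ω
    rw [hB_add]
    have := hCu.add g g' hg hg'
    simp only at this
    rw [this]
    ring
  · intro a g hg
    refine lm_eq ?_
    refine ((A.tend_Ac hg hf u k).const_mul a).congr fun n => ?_
    rw [← integral_const_mul]
    congr 1
    funext ω
    rw [hB_smul]
    have := hCu.smul a g hg
    simp only at this
    rw [this]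
    ring
  · intro g hg
    have h3 : Ac δ B μ u U f k g ^ 2 ≤ ((2 * C₂ + 2 * Cu ^ 2) * ∫ z, g z ^ 2) * C' := by
      have hub := hCu.bd g hg
      have hI : 0 ≤ ∫ z, g z ^ 2 := integral_nonneg fun z => sq_nonneg _
      have hub2 : (∫ z, u z * g z) ^ 2 ≤ Cu ^ 2 * ∫ z, g z ^ 2 := by
        rw [← sq_abs]
        calc |∫ z, u z * g z| ^ 2 ≤ (Cu * Real.sqrt (∫ z, g z ^ 2)) ^ 2 :=
              pow_le_pow_left₀ (abs_nonneg _) hub 2
          _ = Cu ^ 2 * ∫ z, g z ^ 2 := by rw [mul_pow, Real.sq_sqrt hI]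
      refine le_of_forall_pos_le_add fun η hη => ?_
      have h4 := A.Ac_sq hg hf u k (Q := C₂ * (∫ z, g z ^ 2) + η / (2 * (C' + 1))) (by positivity)
        hC' (h2 g hg _ (by positivity))
      have h5 : (2 * (C₂ * (∫ z, g z ^ 2) + η / (2 * (C' + 1))) + 2 * (∫ z, u z * g z) ^ 2) * C' ≤
          (2 * (C₂ * (∫ z, g z ^ 2) + η / (2 * (C' + 1))) + 2 * (Cu ^ 2 * ∫ z, g z ^ 2)) * C' :=
        mul_le_mul_of_nonneg_right (by linarith) hC'0
      have h6 : η / (C' + 1) * C' ≤ η := by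
        rw [div_mul_eq_mul_div, div_le_iff₀ (by linarith)]
        nlinarith
      have h7 : 2 * (η / (2 * (C' + 1))) * C' = η / (C' + 1) * C' := by
        field_simp
      nlinarith
    have h4 := Real.abs_le_sqrt h3
    rw [show (2 * C₂ + 2 * Cu ^ 2) * (∫ z, g z ^ 2) * C' =
      ((2 * C₂ + 2 * Cu ^ 2) * C') * ∫ z, g z ^ 2 by ring,
      Real.sqrt_mul (by positivity)] at h4
    exact h4

theorem Arc.Ac_decE (A : Arc κ δ B μ D E s U) {f u : ℝ × ℝ → ℝ} (hf : TestOn D f)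
    (hu : Dirichlet D E s u) (k : ℕ) : DecE D E (Ac δ B μ u U f k) := by
  obtain ⟨K, hK⟩ := hu.bdd
  obtain ⟨C, hC0, hC⟩ := A.bd_ck hf (∫ z, u z * f z) k
  obtain ⟨K2, hK20, hK2⟩ := A.vb
  set a := ac δ B μ u U f k with ha
  refine decE_of A.op A.bdd (fun z hz hzE ε hε => ?_)
    ⟨Real.sqrt ((2 * K2 + 2 * K ^ 2) * C), 1, one_pos, fun x hx _ => ?_⟩
  · obtain ⟨r1, hr1, h1⟩ := A.bv_poly hz hzE hf ((X - Polynomial.C (∫ z, u z * f z)) ^ k) (ε / 2)
      (half_pos hε)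
    obtain ⟨r2, hr2, h2⟩ := hu.avg A.op A.bdd hz hzE (show 0 < ε / (2 * (|a| + 1)) by positivity)
    refine ⟨min r1 r2, lt_min hr1 hr2, fun x hx hxz => ?_⟩
    have hb := bump_test' A.op A.bdd hx
    have g1 := h1 x hx (lt_of_lt_of_le hxz (min_le_left _ _))
    have g2 := h2 x hx (lt_of_lt_of_le hxz (min_le_right _ _))
    set c := ∫ y, u y * bump (dd D x / 2) x y with hc
    have t1 := A.tend_mixed hb hf (s z) ((X - Polynomial.C (∫ z, u z * f z)) ^ k)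
    have t1' : Tendsto (fun n => ∫ ω, (hB (B n) (δ n) (bump (dd D x / 2) x) ω - c) *
        ((X - Polynomial.C (∫ z, u z * f z)) ^ k).eval (hB (B n) (δ n) f ω) ∂(μ n)) U
        (𝓝 ((lm U fun n => ∫ ω, (hB (B n) (δ n) (bump (dd D x / 2) x) ω - s z) *
          ((X - Polynomial.C (∫ z, u z * f z)) ^ k).eval (hB (B n) (δ n) f ω) ∂(μ n)) +
          (s z - c) * a)) := by
      refine (t1.add ((A.tend_ac hf u k).const_mul (s z - c))).congr fun n => ?_
      have i1 := (A.mom n).integrable (Alg.mul (alg_sub_const (B := B n) (δ := δ n)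
        (bump (dd D x / 2) x) (s z)) (alg_poly (B := B n) (δ := δ n) f
        ((X - Polynomial.C (∫ z, u z * f z)) ^ k)))
      have i2 := (A.mom n).integrable ((alg_sub_const (B := B n) (δ := δ n) f
        (∫ z, u z * f z)).pow k)
      rw [← integral_const_mul, ← integral_add i1 (i2.const_mul _)]
      congr 1
      funext ω
      rw [eval_pk]
      ring
    have e1 : Ac δ B μ u U f k (bump (dd D x / 2) x) =
        (lm U fun n => ∫ ω, (hB (B n) (δ n) (bump (dd D x / 2) x) ω - s z) *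
          ((X - Polynomial.C (∫ z, u z * f z)) ^ k).eval (hB (B n) (δ n) f ω) ∂(μ n)) +
          (s z - c) * a := by
      have t2 := A.tend_Ac hb hf u k
      simp only [eval_pk] at t1' ⊢
      exact tendsto_nhds_unique t2 t1'
    have e2 : |lm U fun n => ∫ ω, (hB (B n) (δ n) (bump (dd D x / 2) x) ω - s z) *
          ((X - Polynomial.C (∫ z, u z * f z)) ^ k).eval (hB (B n) (δ n) f ω) ∂(μ n)| ≤ ε / 2 :=
      le_of_tendsto t1.abs g1
    rw [e1]
    refine (abs_add_le _ _).trans ?_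
    rw [abs_mul]
    have e3 : |s z - c| * |a| ≤ ε / 2 := by
      rw [abs_sub_comm]
      calc |c - s z| * |a| ≤ ε / (2 * (|a| + 1)) * |a| :=
            mul_le_mul_of_nonneg_right g2 (abs_nonneg _)
        _ = ε / 2 * (|a| / (|a| + 1)) := by field_simp
        _ ≤ ε / 2 := by
            have : |a| / (|a| + 1) ≤ 1 := by rw [div_le_one (by positivity)]; linarith
            nlinarith
    linarith
  · have hb := bump_test' A.op A.bdd hx
    have h1 := A.Ac_sq hb hf u k hK20 hC (hK2 x hx)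
    refine Real.abs_le_sqrt (h1.trans (mul_le_mul_of_nonneg_right ?_ hC0))
    have h2 := avg_bdd A.op A.bdd hu.harm.smooth hK hx
    have h3 : (∫ y, u y * bump (dd D x / 2) x y) ^ 2 ≤ K ^ 2 := by
      rw [← sq_abs]
      exact pow_le_pow_left₀ (abs_nonneg _) h2 2
    linarith

theorem Arc.Ac_sd0 (A : Arc κ δ B μ D E s U) {f u ψ : ℝ × ℝ → ℝ}
    (hu : Harm D u) (hψ : TestOn D ψ) : Ac δ B μ u U f 0 (lap ψ) = 0 := by
  refine lm_eq ?_
  rw [hu.weak A.op A.bdd hψ]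
  simpa using A.sd0 ψ hψ

theorem Arc.Ac_sd (A : Arc κ δ B μ D E s U) {f u ψ : ℝ × ℝ → ℝ} (hf : TestOn D f)
    (hu : Harm D u) (hψ : TestOn D ψ) (k : ℕ) : Ac δ B μ u U f (k + 1) (lap ψ) =
      - (κ * (k + 1) * (∫ z, ψ z * f z) * ac δ B μ u U f k) := by
  have h1 := A.sd_poly hψ hf ((X - Polynomial.C (∫ z, u z * f z)) ^ (k + 1))
  have h2 := (A.tend_ac hf u k).const_mul (κ * (∫ z, ψ z * f z) * (k + 1))
  have h3 := h1.sub h2
  rw [zero_sub] at h3
  have h4 := A.tend_Ac hψ.lap hf u (k + 1)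
  rw [hu.weak A.op A.bdd hψ] at h4
  refine tendsto_nhds_unique h4 ?_
  rw [show κ * (k + 1) * (∫ z, ψ z * f z) * ac δ B μ u U f k =
    κ * (∫ z, ψ z * f z) * (k + 1) * ac δ B μ u U f k by ring]
  refine h3.congr fun n => ?_
  simp only [eval_pk, sub_zero]
  rw [derivative_X_sub_C_pow]
  simp only [eval_mul, eval_C, eval_pk, add_tsub_cancel_right]
  rw [integral_const_mul]
  push_cast
  ring

theorem Arc.covE (A : Arc κ δ B μ D E s U) {u : ℝ × ℝ → ℝ} (hu : Dirichlet D E s u) :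
    CovE D E κ fun g f => Ac δ B μ u U f 1 g where
  symm := fun f g _ _ => by
    unfold Ac
    congr 1
    funext n
    congr 1
    funext ω
    ring
  pos := fun f hf => ge_of_tendsto' (A.tend_Ac hf hf u 1) fun n => integral_nonneg fun ω => by
    simp only [pow_one]
    exact mul_self_nonneg _
  bd := fun g hg => by
    obtain ⟨K, hK⟩ := hu.bdd
    exact A.Ac_l2fn hg hu.harm hK 1
  sd := fun ψ g hψ hg => by
    have h := A.Ac_sd hg hu.harm hψ 0
    have h0 : ac δ B μ u U g 0 = 1 := by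
      refine lm_eq ?_
      have : (fun n => ∫ ω, (hB (B n) (δ n) g ω - ∫ z, u z * g z) ^ 0 ∂(μ n)) =
          fun _ => (1 : ℝ) := by
        funext n
        have := (A.mom n).prob
        simp
      rw [this]
      exact tendsto_const_nhds
    rw [h0] at h
    simp only [zero_add] at h
    rw [h]
    push_cast
    ring
  dec := fun g hg => A.Ac_decE hg hu 1

/-- The limit moments. -/
theorem Arc.gauss (A : Arc κ δ B μ D E s U) {u : ℝ × ℝ → ℝ} (hu : Dirichlet D E s u)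
    {f : ℝ × ℝ → ℝ} (hf : TestOn D f) (k : ℕ) :
    Tendsto (fun n => ∫ ω, (hB (B n) (δ n) f ω - ∫ z, u z * f z) ^ k ∂(μ n)) U
      (𝓝 (gm (κ * V D f) k)) := by
  have h0 : ac δ B μ u U f 0 = 1 := by
    refine lm_eq ?_
    have : (fun n => ∫ ω, (hB (B n) (δ n) f ω - ∫ z, u z * f z) ^ 0 ∂(μ n)) =
        fun _ => (1 : ℝ) := by
      funext n
      have := (A.mom n).prob
      simp
    rw [this]
    exact tendsto_const_nhds
  have h := moments_gaussE A.op A.bdd A.out A.κpos hf (A.covE hu)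
    (fun k g => Ac δ B μ u U f k g) (fun k => ac δ B μ u U f k) rfl h0 (fun n => ?_)
    (fun n => ?_) (fun ψ hψ => A.Ac_sd0 hu.harm hψ) (fun n ψ hψ => A.Ac_sd hf hu.harm hψ n)
    (fun n => A.Ac_decE hf hu n) k
  · rw [← h]
    exact A.tend_ac hf u k
  · unfold ac Ac
    congr 1
    funext n
    congr 1
    funext ω
    rw [pow_succ, mul_comm]
  · obtain ⟨K, hK⟩ := hu.bdd
    exact A.Ac_l2fn hf hu.harm hK n

theorem s_field : S_field := by
  intro κ δ B μ D E s U A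
  exact ⟨uu δ B μ D U, A.dirichlet, fun f hf => ⟨A.tend_mean hf, fun k =>
    A.gauss A.dirichlet hf k⟩⟩

end Vale.Agent.P153.R2.FLDI
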