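import Vale.Agent.P153.R2.FLDI.Bv2
import Vale.Agent.P153.R2.FLDI.Gauss

/-!
The heights with the exact values of the two arcs satisfy the hypotheses of the identification
theorem.
-/

set_option autoImplicit false

namespace Vale.Agent.P153.R2.FLDI

open Filter Topology Set MeasureTheory
open Vale.Agent.P145.PT Vale.Agent.P153 Vale.Agent.P153.F.Top

variable {Φ : (ℝ × ℝ) ≃ₜ (ℝ × ℝ)} {δ : ℕ → ℝ} {N k : ℕ → ℕ}
  {p : ∀ n, ZMod (N n) → ℤ × ℤ} {S : ℕ → Finset ((ℤ × ℤ) × Bool)} {κ R : ℝ}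

open Classical in
/-- The marked points. -/
noncomputable def Em (Φ : (ℝ × ℝ) ≃ₜ (ℝ × ℝ)) : Finset (ℝ × ℝ) :=
  {Φ (Final.circ 0), Φ (Final.circ Real.pi)}

open Classical in
/-- The boundary values. -/
noncomputable def sv (Φ : (ℝ × ℝ) ≃ₜ (ℝ × ℝ)) (z : ℝ × ℝ) : ℝ :=
  if z ∈ Final.arcPlus Φ then 1 else -1

theorem mem_Em {z : ℝ × ℝ} : z ∈ Em Φ ↔ z = Φ (Final.circ 0) ∨ z = Φ (Final.circ Real.pi) := by
  unfold Em
  simp

theorem arcs_disj {z : ℝ × ℝ} (h1 : z ∈ Final.arcPlus Φ) (h2 : z ∈ Final.arcMinus Φ) : False := by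
  obtain ⟨t, ht, rfl⟩ := h1
  obtain ⟨s, hs, hst⟩ := h2
  have hpi := Real.pi_pos
  have := circ_inj (s := s) (t := t) ⟨by linarith [hs.1], hs.2⟩ ⟨ht.1.le, by linarith [ht.2]⟩
    (Φ.injective hst)
  linarith [ht.2, hs.1]

theorem bd_cases {z : ℝ × ℝ} (hz : z ∈ frontier (Final.dom Φ)) (hE : z ∉ Em Φ) :
    ∃ c : ℤ, sv Φ z = c ∧ (c = 1 ∧ z ∈ Final.arcPlus Φ ∨ c = -1 ∧ z ∈ Final.arcMinus Φ) := by
  rw [mem_Em] at hE
  push Not at hE
  rcases frontier_cases hz with h | h | h | h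
  · refine ⟨1, ?_, Or.inl ⟨rfl, h⟩⟩
    unfold sv
    rw [if_pos h]
    norm_num
  · refine ⟨-1, ?_, Or.inr ⟨rfl, h⟩⟩
    unfold sv
    rw [if_neg fun hc => arcs_disj hc h]
    norm_num
  · exact absurd h hE.1
  · exact absurd h hE.2

/-- The laws of the inner heights. -/
theorem exists_mu (h : Final.Approx Φ δ N k p S) : ∃ μ : ℕ → Measure Om, ∀ n, Mom (μ n) ∧
    ∀ A : Om → ℝ, ∫ ω, A ω ∂(μ n) =
      Ex (CA (p n) (k n) (S n)) fun g => A (vh (F.Dom.inner (p n) (S n)) g) := by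
  have hA := approxF h
  choose μ h1 h2 using fun n => exists_law (ca_fin (hA.poly n) (hA.encl n) (k n))
    (ca_ne (hA.poly n) (hA.encl n) (k n)) (F.Dom.inner (p n) (S n))
  exact ⟨μ, fun n => ⟨h1 n, h2 n⟩⟩

/-- The structure `Arc`. -/
theorem arc_of (h : Final.Approx Φ δ N k p S) (hκ : 0 < κ) (hfree : S_free κ) (hsd : S_sdar κ)
    (hconn : S_conn) (hR : Final.dom Φ ⊆ Metric.ball 0 R) {μ : ℕ → Measure Om}
    (hμ : ∀ n, Mom (μ n) ∧ ∀ A : Om → ℝ, ∫ ω, A ω ∂(μ n) =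
      Ex (CA (p n) (k n) (S n)) fun g => A (vh (F.Dom.inner (p n) (S n)) g))
    {U : Ultrafilter ℕ} (hU : (U : Filter ℕ) ≤ atTop) :
    Arc κ δ (fun n => Bx (δ n) R) μ (Final.dom Φ) (Em Φ) (sv Φ) U := by
  have hA := approxF h
  have e : ∀ n f, TestOn (Final.dom Φ) f → ∀ ω, hB (Bx (δ n) R) (δ n) f ω = hv (δ n) f ω :=
    fun n f hf ω => (hv_Bx (hA.pos n) (supp_ball hR hf) ω).symm
  refine
    { κpos := hκ
      op := domF_open
      bdd := domF_bdd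
      out := ?_
      mom := fun n => (hμ n).1
      mb := ?_
      l2 := ?_
      vb := ?_
      sd0 := ?_
      sd := ?_
      bv := ?_ }
  · intro x hx
    rcases mem_Em.1 hx with rfl | rfl <;> exact circ_not_mem _
  · intro f hf j
    obtain ⟨C, hC⟩ := arcs_mb h hfree hf j
    refine ⟨C, hU ?_⟩
    filter_upwards [hC] with n hn
    rw [(hμ n).2]
    simp_rw [e n f hf]
    exact hn
  · obtain ⟨C, hC0, hC⟩ := arcs_l2 h hκ hfree
    refine ⟨C, hC0, fun f hf ε hε => hU ?_⟩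
    filter_upwards [hC f hf ε hε] with n hn
    rw [(hμ n).2]
    simp_rw [e n f hf]
    exact hn
  · obtain ⟨K, hK0, hK⟩ := arcs_vb h hκ hfree 1 (Or.inl rfl)
    refine ⟨K, hK0, fun x hx => hU ?_⟩
    filter_upwards [hK x hx] with n hn
    rw [(hμ n).2]
    simp_rw [e n _ (whit_test domF_open domF_bdd hx)]
    exact hn
  · intro ψ hψ
    have h1 := hsd Φ δ N k p S h ψ (fun _ => 0) hψ (TestOn.zero _) 0
    refine (h1.mono_left hU).congr fun n => ?_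
    rw [(hμ n).2]
    simp_rw [e n _ hψ.lap]
    simp only [pow_zero, mul_one, CharP.cast_eq_zero, mul_zero, zero_mul, add_zero]
    rfl
  · intro ψ f hψ hf j
    have h1 := hsd Φ δ N k p S h ψ f hψ hf (j + 1)
    refine (h1.mono_left hU).congr fun n => ?_
    unfold sdE
    rw [(hμ n).2, (hμ n).2]
    simp_rw [e n _ hψ.lap, e n _ hf]
    rw [add_tsub_cancel_right]
    push_cast
    rfl
  · intro z hz hzE f hf j ε hε
    obtain ⟨c, hc, hcz⟩ := bd_cases hz hzE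
    obtain ⟨r, hr, hbv⟩ := arcs_bv h hκ hfree hconn hcz hf j hε
    refine ⟨r, hr, fun x hx hxz => hU ?_⟩
    filter_upwards [hbv x hx hxz] with n hn
    rw [(hμ n).2, hc]
    simp_rw [e n _ hf, e n _ (whit_test domF_open domF_bdd hx)]
    exact hn

end Vale.Agent.P153.R2.FLDI
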