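import Vale.Agent.P153.R2.FLDI.Bd

/-!
The boundary values: reflection of the clusters of `{h ≠ c}` near a boundary point.
-/

set_option autoImplicit false

namespace Vale.Agent.P153.R2.FLDI

open Filter Topology Set MeasureTheory
open Vale.Agent.P145.PT Vale.Agent.P153 Vale.Agent.P153.F.Top
open Vale.Agent.P153.Topo (Conn)

/-! ### Reflection -/

section Refl

variable {I A : Set Pt} {c : ℤ} {h : Hg}

/-- The union of the clusters of `{h ≠ c}` in `I` which meet `A`. -/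
def Wc (I A : Set Pt) (c : ℤ) (h : Hg) : Set Pt := Cl {v | v ∈ I ∧ h v ≠ c} A

theorem Wc_sub {v : Pt} (hv : v ∈ Wc I A c h) : v ∈ I ∧ h v ≠ c := by
  obtain ⟨a, -, ha⟩ := hv
  exact ha.right_mem

theorem Wc_self {v : Pt} (hv : v ∈ I) (hvA : v ∈ A) (hc : h v ≠ c) : v ∈ Wc I A c h :=
  ⟨v, hvA, Conn.refl (show v ∈ {v | v ∈ I ∧ h v ≠ c} from ⟨hv, hc⟩)⟩

theorem Wc_next {v w : Pt} (hv : v ∈ Wc I A c h) (hvw : Adj v w) (hw : w ∈ I) (hc : h w ≠ c) :
    w ∈ Wc I A c h := by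
  obtain ⟨a, haA, ha⟩ := hv
  exact ⟨a, haA, ha.tail hvw ⟨hw, hc⟩⟩

theorem refl_in {K : Set Pt} {v : Pt} (hv : v ∈ K) : refl c K h v = 2 * c - h v := by
  unfold refl
  rw [if_pos hv]

theorem refl_out {K : Set Pt} {v : Pt} (hv : v ∉ K) : refl c K h v = h v := by
  unfold refl
  rw [if_neg hv]

theorem refl_ne {K : Set Pt} {v : Pt} : refl c K h v ≠ c ↔ h v ≠ c := by
  by_cases hv : v ∈ K
  · rw [refl_in hv]
    omega
  · rw [refl_out hv]

theorem Wc_refl : Wc I A c (refl c (Wc I A c h) h) = Wc I A c h := by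
  unfold Wc
  simp only [refl_ne]

theorem refl_refl' {K : Set Pt} : refl c K (refl c K h) = h := by
  funext v
  by_cases hv : v ∈ K
  · rw [refl_in hv, refl_in hv]
    ring
  · rw [refl_out hv, refl_out hv]

end Refl

theorem dist_adj {δ : ℝ} (hδ : 0 < δ) {v w : Pt} (h : Adj v w) : dist (dp δ v) (dp δ w) ≤ δ := by
  obtain ⟨v1, v2⟩ := v
  obtain ⟨w1, w2⟩ := w
  have hs : √3 / 2 ≤ 1 := by
    have : √3 ≤ 2 := by
      rw [Real.sqrt_le_left (by norm_num)]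
      norm_num
    linarith
  have hs0 := s3_pos
  unfold dp
  rw [dist_comm, Prod.dist_eq, Real.dist_eq, Real.dist_eq, sup_le_iff]
  simp only
  rw [← mul_sub, ← mul_sub, abs_mul, abs_mul, abs_of_pos hδ]
  have key : |((w1 : ℝ) + w2 / 2) - (v1 + v2 / 2)| ≤ 1 ∧ |√3 / 2 * (w2 : ℝ) - √3 / 2 * v2| ≤ 1 := by
    rw [← mul_sub, abs_mul, abs_of_pos hs0]
    rw [Topo.adj_iff] at h
    simp only at h
    rcases h with ⟨h1, h2⟩ | ⟨h1, h2⟩ | ⟨h1, h2⟩ | ⟨h1, h2⟩ | ⟨h1, h2⟩ | ⟨h1, h2⟩ <;>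
      rw [h1, h2] <;> push_cast
    · have e1 : (v1 + 1 + v2 / 2 - (v1 + v2 / 2) : ℝ) = 1 := by ring
      have e2 : (v2 - v2 : ℝ) = 0 := by ring
      rw [e1, e2]; norm_num
    · have e1 : (v1 - 1 + v2 / 2 - (v1 + v2 / 2) : ℝ) = -1 := by ring
      have e2 : (v2 - v2 : ℝ) = 0 := by ring
      rw [e1, e2]; norm_num
    · have e1 : (v1 + (v2 + 1) / 2 - (v1 + v2 / 2) : ℝ) = 1 / 2 := by ring
      have e2 : (v2 + 1 - v2 : ℝ) = 1 := by ring
      rw [e1, e2, abs_one, mul_one]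
      exact ⟨by norm_num [abs_of_pos], hs⟩
    · have e1 : (v1 + (v2 - 1) / 2 - (v1 + v2 / 2) : ℝ) = -(1 / 2) := by ring
      have e2 : (v2 - 1 - v2 : ℝ) = -1 := by ring
      rw [e1, e2, abs_neg, abs_neg, abs_one, mul_one]
      exact ⟨by norm_num [abs_of_pos], hs⟩
    · have e1 : (v1 + 1 + (v2 - 1) / 2 - (v1 + v2 / 2) : ℝ) = 1 / 2 := by ring
      have e2 : (v2 - 1 - v2 : ℝ) = -1 := by ring
      rw [e1, e2, abs_neg, abs_one, mul_one]
      exact ⟨by norm_num [abs_of_pos], hs⟩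
    · have e1 : (v1 - 1 + (v2 + 1) / 2 - (v1 + v2 / 2) : ℝ) = -(1 / 2) := by ring
      have e2 : (v2 + 1 - v2 : ℝ) = 1 := by ring
      rw [e1, e2, abs_neg, abs_one, mul_one]
      exact ⟨by norm_num [abs_of_pos], hs⟩
  constructor
  · nlinarith [key.1]
  · nlinarith [key.2]

section Lattice

variable {n k : ℕ} {p : ZMod n → ℤ × ℤ} {S : Finset ((ℤ × ℤ) × Bool)} {D : Set (ℝ × ℝ)}
  {δ ρ ρ1 : ℝ} {x z : ℝ × ℝ} {c : ℤ}

/-- The lattice points of the Whitney ball. -/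
def Aw (δ : ℝ) (D : Set (ℝ × ℝ)) (x : ℝ × ℝ) : Set Pt := {a | dist (dp δ a) x ≤ dd D x / 2}

/-- The reflected heights. -/
noncomputable def Tr {n : ℕ} (p : ZMod n → ℤ × ℤ) (S : Finset ((ℤ × ℤ) × Bool)) (δ : ℝ)
    (D : Set (ℝ × ℝ)) (x : ℝ × ℝ) (c : ℤ) (h : Hg) : Hg :=
  refl c (Wc (inn p S) (Aw δ D x) c h) h

theorem not_far {h : Hg} (hf : h ∉ Far p S δ D x z ρ c) {v : Pt}
    (hv : v ∈ Wc (inn p S) (Aw δ D x) c h) : dist (dp δ v) z < ρ := by
  by_contra hcon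
  push Not at hcon
  obtain ⟨a, ha, hav⟩ := hv
  exact hf ⟨a, v, ha, hcon, hav⟩

theorem far_Tr {h : Hg} : Tr p S δ D x c h ∈ Far p S δ D x z ρ c ↔ h ∈ Far p S δ D x z ρ c := by
  unfold Far Tr
  simp only [mem_ofPred_eq, refl_ne]

theorem Tr_Tr {h : Hg} : Tr p S δ D x c (Tr p S δ D x c h) = h := by
  unfold Tr
  rw [Wc_refl]
  exact refl_refl'

theorem Tr_mem (hS : F.Dom.Encloses p S) (hδ : 0 < δ)
    (hρ : ρ + δ ≤ ρ1) (hdat : ∀ i, dist (dp δ (p i)) z < ρ1 → dat p k (p i) = c) {h : Hg}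
    (hh : h ∈ CA p k S) (hf : h ∉ Far p S δ D x z ρ c) : Tr p S δ D x c h ∈ CA p k S := by
  set W := Wc (inn p S) (Aw δ D x) c h with hW
  have hTin : ∀ {v}, v ∈ W → Tr p S δ D x c h v = 2 * c - h v := fun hv => refl_in hv
  have hTout : ∀ {v}, v ∉ W → Tr p S δ D x c h v = h v := fun hv => refl_out hv
  have hodd : ∀ v, Odd (Tr p S δ D x c h v) := fun v => by
    by_cases hv : v ∈ W
    · rw [hTin hv]
      exact Even.sub_odd (even_two_mul c) (Cfg.odd hh v)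
    · rw [hTout hv]
      exact Cfg.odd hh v
  -- a site of `W` next to a site off `W`
  have hb : ∀ v w, v ∈ W → w ∉ W → Adj v w → h w = c := by
    intro v w hv hw hvw
    by_contra hc
    by_cases hwi : w ∈ inn p S
    · exact hw (Wc_next hv hvw hwi hc)
    · have hvi := (Wc_sub hv).1
      have hwv : w ∈ F.Dom.verts S := F.Dom.dl_nbr hS hvi hvw
      have : ∃ i, p i = w := by
        by_contra hcon
        push Not at hcon
        exact hwi (mem_inn.2 ⟨hwv, hcon⟩)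
      obtain ⟨i, rfl⟩ := this
      have h1 := not_far hf hv
      have h2 := dist_adj hδ hvw
      have h3 : dist (dp δ (p i)) z < ρ1 := by
        calc dist (dp δ (p i)) z ≤ dist (dp δ (p i)) (dp δ v) + dist (dp δ v) z :=
              dist_triangle _ _ _
          _ < ρ1 := by
              rw [dist_comm (dp δ (p i))]
              linarith
      rw [ca_out hh hwi] at hc
      exact hc (hdat i h3)
  have hlip : ∀ v w, v ∈ inn p S → Adj v w → |Tr p S δ D x c h v - Tr p S δ D x c h w| ≤ 2 := by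
    intro v w hvi hvw
    have h0 := Cfg.lip hh hvi hvw
    by_cases hv : v ∈ W
    · by_cases hw : w ∈ W
      · rw [hTin hv, hTin hw]
        rw [abs_le] at h0 ⊢
        constructor <;> linarith [h0.1, h0.2]
      · have hc := hb v w hv hw hvw
        rw [hTin hv, hTout hw]
        rw [hc] at h0 ⊢
        rw [abs_le] at h0 ⊢
        constructor <;> linarith [h0.1, h0.2]
    · by_cases hw : w ∈ W
      · have hc := hb w v hw hv (Topo.adj_symm hvw)
        rw [hTout hv, hTin hw]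
        rw [hc] at h0 ⊢
        rw [abs_le] at h0 ⊢
        constructor <;> linarith [h0.1, h0.2]
      · rw [hTout hv, hTout hw]
        exact h0
  refine ⟨hodd, fun v => ?_, fun v hv w hvw => hlip v w hv hvw⟩
  unfold exa
  by_cases hv : v ∈ inn p S
  · rw [if_pos hv]
    exact mem_univ _
  · rw [if_neg hv, mem_singleton_iff]
    have hvW : v ∉ W := fun hc => hv (Wc_sub hc).1
    rw [hTout hvW]
    exact ca_out hh hv

/-- The smeared heights of the constant `1`. -/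
noncomputable def ones {n : ℕ} (p : ZMod n → ℤ × ℤ) (S : Finset ((ℤ × ℤ) × Bool)) (δ : ℝ)
    (f : ℝ × ℝ → ℝ) : ℝ := hh p S δ f fun _ => 1

theorem hh_Tr_far {f : ℝ × ℝ → ℝ} (hff : ∀ y, f y ≠ 0 → ρ ≤ dist y z) {h : Hg}
    (hf : h ∉ Far p S δ D x z ρ c) : hh p S δ f (Tr p S δ D x c h) = hh p S δ f h := by
  unfold hh hv
  congr 1
  refine finsum_congr fun v => ?_
  by_cases h0 : f (dp δ v) = 0
  · rw [tl_eq, h0, mul_zero, mul_zero, mul_zero]
  · congr 1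
    have hv : v ∉ Wc (inn p S) (Aw δ D x) c h := fun hc =>
      absurd (not_far hf hc) (not_lt.2 (hff _ h0))
    unfold vh
    rw [show Tr p S δ D x c h v = h v from refl_out hv]

theorem hh_Tr_near {R : ℝ} (hδ : 0 < δ) {b : ℝ × ℝ → ℝ} (hR : ∀ y, b y ≠ 0 → y ∈ Metric.ball 0 R)
    (hbb : ∀ y, b y ≠ 0 → dist y x ≤ dd D x / 2) (h : Hg) :
    hh p S δ b (Tr p S δ D x c h) - c * ones p S δ b = -(hh p S δ b h - c * ones p S δ b) := by
  unfold ones hh
  rw [hv_Bx hδ hR, hv_Bx hδ hR, hv_Bx hδ hR]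
  unfold hB
  have key : ∑ v ∈ Bx δ R, vh (F.Dom.inner p S) (Tr p S δ D x c h) v * tl b (δ * v.1, δ * v.2) =
      2 * c * (∑ v ∈ Bx δ R, vh (F.Dom.inner p S) (fun _ => 1) v * tl b (δ * v.1, δ * v.2)) -
      ∑ v ∈ Bx δ R, vh (F.Dom.inner p S) h v * tl b (δ * v.1, δ * v.2) := by
    rw [Finset.mul_sum, ← Finset.sum_sub_distrib]
    refine Finset.sum_congr rfl fun v _ => ?_
    rw [tl_eq]
    by_cases h0 : b (dp δ v) = 0
    · rw [h0]; ring
    · by_cases hv : v ∈ F.Dom.inner p S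
      · have hT : Tr p S δ D x c h v = 2 * c - h v := by
          by_cases hc : h v = c
          · have : v ∉ Wc (inn p S) (Aw δ D x) c h := fun hcc => (Wc_sub hcc).2 hc
            rw [show Tr p S δ D x c h v = h v from refl_out this, hc]
            ring
          · exact refl_in (Wc_self hv (hbb _ h0) hc)
        unfold vh
        rw [if_pos hv, if_pos hv, if_pos hv, hT]
        push_cast
        ring
      · unfold vh
        rw [if_neg hv, if_neg hv, if_neg hv]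
        ring
  rw [key]
  ring

/-- The antisymmetry off the event `Far`. -/
theorem refl_zero (hS : F.Dom.Encloses p S) (hδ : 0 < δ)
    (hρ : ρ + δ ≤ ρ1) (hdat : ∀ i, dist (dp δ (p i)) z < ρ1 → dat p k (p i) = c)
    (hfin : (CA p k S).Finite) {R : ℝ} {b f : ℝ × ℝ → ℝ} (hR : ∀ y, b y ≠ 0 → y ∈ Metric.ball 0 R)
    (hbb : ∀ y, b y ≠ 0 → dist y x ≤ dd D x / 2) (hff : ∀ y, f y ≠ 0 → ρ ≤ dist y z) (j : ℕ) :
    Ex (CA p k S) (fun h => ind (Far p S δ D x z ρ c)ᶜ h *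
      ((hh p S δ b h - c * ones p S δ b) * hh p S δ f h ^ j)) = 0 := by
  rw [← Ex_inter_mul hfin]
  have hbij : BijOn (Tr p S δ D x c) (CA p k S ∩ (Far p S δ D x z ρ c)ᶜ)
      (CA p k S ∩ (Far p S δ D x z ρ c)ᶜ) := by
    refine InvOn.bijOn (f' := Tr p S δ D x c) ⟨fun h _ => Tr_Tr, fun h _ => Tr_Tr⟩ ?_ ?_
    · exact fun h hh => ⟨Tr_mem hS hδ hρ hdat hh.1 hh.2, fun hc => hh.2 (far_Tr.1 hc)⟩
    · exact fun h hh => ⟨Tr_mem hS hδ hρ hdat hh.1 hh.2, fun hc => hh.2 (far_Tr.1 hc)⟩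
  have h1 := Ex_bijOn hbij fun h => (hh p S δ b h - c * ones p S δ b) * hh p S δ f h ^ j
  have h2 : Ex (CA p k S ∩ (Far p S δ D x z ρ c)ᶜ) (fun h =>
      (hh p S δ b (Tr p S δ D x c h) - c * ones p S δ b) * hh p S δ f (Tr p S δ D x c h) ^ j) =
      Ex (CA p k S ∩ (Far p S δ D x z ρ c)ᶜ) (fun h =>
        -((hh p S δ b h - c * ones p S δ b) * hh p S δ f h ^ j)) := by
    refine Ex_congr fun h hh => ?_
    rw [hh_Tr_near hδ hR hbb, hh_Tr_far hff hh.2]
    ring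
  rw [h2, Ex_neg] at h1
  have h3 : Ex (CA p k S ∩ (Far p S δ D x z ρ c)ᶜ) (fun h =>
      (hh p S δ b h - c * ones p S δ b) * hh p S δ f h ^ j) = 0 := by linarith
  rw [h3, mul_zero]

/-- The bound by the probability of `Far`. -/
theorem refl_bound (hS : F.Dom.Encloses p S) (hδ : 0 < δ)
    (hρ : ρ + δ ≤ ρ1) (hdat : ∀ i, dist (dp δ (p i)) z < ρ1 → dat p k (p i) = c)
    (hfin : (CA p k S).Finite) {R : ℝ} {b f : ℝ × ℝ → ℝ} (hR : ∀ y, b y ≠ 0 → y ∈ Metric.ball 0 R)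
    (hbb : ∀ y, b y ≠ 0 → dist y x ≤ dd D x / 2) (hff : ∀ y, f y ≠ 0 → ρ ≤ dist y z) (j : ℕ) :
    (Ex (CA p k S) fun h => (hh p S δ b h - c * ones p S δ b) * hh p S δ f h ^ j) ^ 2 ≤
      Pr (CA p k S) (Far p S δ D x z ρ c) *
      Ex (CA p k S) (fun h => ((hh p S δ b h - c * ones p S δ b) * hh p S δ f h ^ j) ^ 2) := by
  have h0 := refl_zero hS hδ hρ hdat hfin hR hbb hff j
  set G : Hg → ℝ := fun h => (hh p S δ b h - c * ones p S δ b) * hh p S δ f h ^ j with hG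
  set E := Far p S δ D x z ρ c with hE
  have h1 : Ex (CA p k S) G = Ex (CA p k S) fun h => ind E h * G h := by
    have h2 : Ex (CA p k S) G = Ex (CA p k S) (fun h => ind E h * G h + ind Eᶜ h * G h) :=
      Ex_congr fun h _ => by
        by_cases hE' : h ∈ E <;> simp [ind, hE']
    rw [h2, Ex_add]
    have h3 : Ex (CA p k S) (fun h => ind Eᶜ h * G h) = 0 := h0
    rw [h3, add_zero]
  have h4 := Ex_mul_sq_le hfin (ind E) G
  have h5 : Ex (CA p k S) (fun h => ind E h ^ 2) = Pr (CA p k S) E := by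
    rw [Pr_eq_Ex hfin]
    exact Ex_congr fun h _ => by
      by_cases hE' : h ∈ E <;> simp [ind, hE']
  rw [h5] at h4
  change (Ex (CA p k S) G) ^ 2 ≤ Pr (CA p k S) E * Ex (CA p k S) (fun h => G h ^ 2)
  rw [h1]
  exact h4

end Lattice

end Vale.Agent.P153.R2.FLDI
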