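import Vale.Agent.P153.R2.FLDI.Uniq

/-!
Twice continuously differentiable harmonic functions are smooth.
-/

set_option autoImplicit false

namespace Vale.Agent.P153.R2.FLDI

open Filter Topology Set MeasureTheory
open Vale.Agent.P145.PT

/-- A function which is `C²` in `D` agrees near a compact subset with a `C²` function with compact
support. -/
theorem exists_near2 {D : Set (ℝ × ℝ)} (hD : IsOpen D) (hb : Bornology.IsBounded D)
    {w : ℝ × ℝ → ℝ} (hw : ContDiffOn ℝ 2 w D) {K : Set (ℝ × ℝ)}
    (hK : IsCompact K) (hKD : K ⊆ D) :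
    ∃ (g : ℝ × ℝ → ℝ) (O : Set (ℝ × ℝ)), ContDiff ℝ 2 g ∧ HasCompactSupport g ∧ IsOpen O ∧
      K ⊆ O ∧ O ⊆ D ∧ ∀ z ∈ O, g z = w z := by
  obtain ⟨r, hr, hrK⟩ := exists_low_compact hD hb hK hKD
  obtain ⟨χ, hχs, hχ01, hχ0, hχ1⟩ := exists_cutoff D (show r / 4 < r / 2 by linarith)
  have hsub : Function.support χ ⊆ {x | r / 4 ≤ dd D x} := by
    intro x hx
    by_contra h
    rw [mem_ofPred_eq, not_le] at h
    exact hx (hχ0 x h.le)
  have hts : tsupport χ ⊆ {x | r / 4 ≤ dd D x} :=
    closure_minimal hsub (isClosed_le continuous_const (dd_cont D))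
  have htD : tsupport χ ⊆ D := fun x hx => by
    have h1 : r / 4 ≤ dd D x := hts hx
    exact (dd_pos hD hb).1 (by linarith)
  have hcχ : HasCompactSupport χ :=
    Metric.isCompact_of_isClosed_isBounded (isClosed_tsupport _) (hb.subset htD)
  refine ⟨fun z => χ z * w z, {x | r / 2 < dd D x}, ?_, hcχ.mul_right,
    isOpen_lt continuous_const (dd_cont D), fun z hz => ?_, fun z hz => ?_, fun z hz => ?_⟩
  · rw [contDiff_iff_contDiffAt]
    intro z
    by_cases hz : z ∈ D
    · exact ((hχs.of_le (by norm_cast)).contDiffAt).mul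
        (hw.contDiffAt (hD.mem_nhds hz))
    · have h0 : dd D z < r / 4 := by
        have : ¬ 0 < dd D z := fun h => hz ((dd_pos hD hb).1 h)
        linarith
      have : (fun z => χ z * w z) =ᶠ[𝓝 z] fun _ => 0 := by
        filter_upwards [(isOpen_lt (dd_cont D) continuous_const).mem_nhds h0] with y hy
        rw [hχ0 y (le_of_lt hy), zero_mul]
      exact contDiffAt_const.congr_of_eventuallyEq this
  · exact lt_of_lt_of_le (by linarith) (hrK z hz)
  · have h1 : r / 2 < dd D z := hz
    exact (dd_pos hD hb).1 (by linarith)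
  · have h1 : r / 2 < dd D z := hz
    simp only
    rw [hχ1 z h1.le, one_mul]

theorem ibp_c1 {f g : ℝ × ℝ → ℝ} (hf : ContDiff ℝ 1 f) (hc : HasCompactSupport f)
    (hg : ContDiff ℝ 1 g) (v : ℝ × ℝ) :
    ∫ z, f z * fderiv ℝ g z v = - ∫ z, fderiv ℝ f z v * g z := by
  have hf' : Continuous fun z => fderiv ℝ f z v :=
    (hf.continuous_fderiv one_ne_zero).clm_apply continuous_const
  have hg' : Continuous fun z => fderiv ℝ g z v :=
    (hg.continuous_fderiv one_ne_zero).clm_apply continuous_const
  refine integral_mul_fderiv_eq_neg_fderiv_mul_of_integrable ?_ ?_ ?_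
    (fun x _ => hf.differentiable one_ne_zero x) (fun x _ => hg.differentiable one_ne_zero x)
  · exact Continuous.integrable_of_hasCompactSupport (hf'.mul hg.continuous)
      (hc.fderiv_apply (𝕜 := ℝ) v).mul_right
  · exact Continuous.integrable_of_hasCompactSupport (hf.continuous.mul hg') hc.mul_right
  · exact Continuous.integrable_of_hasCompactSupport (hf.continuous.mul hg.continuous)
      hc.mul_right

theorem c1_fderiv {g : ℝ × ℝ → ℝ} (hg : ContDiff ℝ 2 g) (v : ℝ × ℝ) :
    ContDiff ℝ 1 fun z => fderiv ℝ g z v :=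
  (hg.fderiv_right (m := 1) (by norm_num)).clm_apply contDiff_const

theorem swap2 {D : Set (ℝ × ℝ)} {g ψ : ℝ × ℝ → ℝ} (hg : ContDiff ℝ 2 g)
    (hc : HasCompactSupport g) (hψ : TestOn D ψ) :
    ∫ z, g z * lap ψ z = ∫ z, lap g z * ψ z := by
  have hψ1 : ContDiff ℝ 1 ψ := hψ.sm.of_le (by norm_cast)
  have key : ∀ v : ℝ × ℝ, ∫ z, g z * fderiv ℝ (fun y => fderiv ℝ ψ y v) z v =
      ∫ z, fderiv ℝ (fun y => fderiv ℝ g y v) z v * ψ z := by
    intro v
    rw [ibp_c1 (hg.of_le (by norm_num)) hc ((hψ.sm.fd v).of_le (by norm_cast)) v,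
      ibp_c1 (c1_fderiv hg v) (hc.fderiv_apply (𝕜 := ℝ) v) hψ1 v, neg_neg]
  have i1 : ∀ v : ℝ × ℝ, Integrable fun z => g z * fderiv ℝ (fun y => fderiv ℝ ψ y v) z v :=
    fun v => Continuous.integrable_of_hasCompactSupport
      (hg.continuous.mul ((hψ.fd v).fd v).cont) hc.mul_right
  have i2 : ∀ v : ℝ × ℝ, Integrable fun z => fderiv ℝ (fun y => fderiv ℝ g y v) z v * ψ z :=
    fun v => Continuous.integrable_of_hasCompactSupport
      ((((c1_fderiv hg v).continuous_fderiv one_ne_zero).clm_apply continuous_const).mul hψ.cont)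
      hψ.cs.mul_left
  have e1 : ∫ z, g z * lap ψ z = (∫ z, g z * fderiv ℝ (fun y => fderiv ℝ ψ y (1, 0)) z (1, 0)) +
      ∫ z, g z * fderiv ℝ (fun y => fderiv ℝ ψ y (0, 1)) z (0, 1) := by
    rw [← integral_add (i1 _) (i1 _)]
    congr 1
    funext z
    unfold lap dx dy
    ring
  have e2 : ∫ z, lap g z * ψ z = (∫ z, fderiv ℝ (fun y => fderiv ℝ g y (1, 0)) z (1, 0) * ψ z) +
      ∫ z, fderiv ℝ (fun y => fderiv ℝ g y (0, 1)) z (0, 1) * ψ z := by
    rw [← integral_add (i2 _) (i2 _)]
    congr 1
    funext z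
    unfold lap dx dy
    ring
  rw [e1, e2, key, key]

/-- A bounded `C²` harmonic function is smooth. -/
theorem harm_of_c2 {D : Set (ℝ × ℝ)} (hD : IsOpen D) (hb : Bornology.IsBounded D)
    {u : ℝ × ℝ → ℝ} (hu : ContDiffOn ℝ 2 u D) (hl : ∀ z ∈ D, lap u z = 0) {K : ℝ}
    (hK : ∀ z ∈ D, |u z| ≤ K) : Harm D u := by
  have hm : AEStronglyMeasurable u (volume.restrict D) :=
    hu.continuousOn.aestronglyMeasurable hD.measurableSet
  have hfin : volume D < ⊤ := hb.measure_lt_top
  have hc : Integrable (fun _ : ℝ × ℝ => K ^ 2) (volume.restrict D) :=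
    integrableOn_const (hs := hfin.ne)
  have hi2 : IntegrableOn (fun z => u z ^ 2) D := by
    refine hc.mono' (hm.pow 2) ?_
    refine (ae_restrict_iff' hD.measurableSet).2 (ae_of_all _ fun z hz => ?_)
    rw [Real.norm_eq_abs, abs_pow]
    exact pow_le_pow_left₀ (abs_nonneg _) (hK z hz) 2
  have hT := l2fn_int hm hi2
  have hweak : ∀ ψ, TestOn D ψ → ∫ z, u z * lap ψ z = 0 := by
    intro ψ hψ
    obtain ⟨g, O, hg, hgc, hO, hKO, hOD, he⟩ := exists_near2 hD hb hu hψ.2.1 hψ.2.2
    have h1 : ∫ z, u z * lap ψ z = ∫ z, g z * lap ψ z := by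
      congr 1
      funext z
      by_cases hz : z ∈ O
      · rw [he z hz]
      · have h0 : ∀ y ∈ (tsupport ψ)ᶜ, ψ y = (fun _ => (0 : ℝ)) y := fun y hy => by
          by_contra h
          exact hy (subset_tsupport _ h)
        have : lap ψ z = 0 := by
          rw [lap_congr (isClosed_tsupport ψ).isOpen_compl h0 (fun h => hz (hKO h))]
          exact F.Top.lap_zero' z
        rw [this, mul_zero, mul_zero]
    rw [h1, swap2 hg hgc hψ, ← integral_zero (ℝ × ℝ) ℝ]
    congr 1
    funext z
    by_cases hz : z ∈ O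
    · rw [lap_congr hO he hz, hl z (hOD hz), zero_mul]
    · have : ψ z = 0 := by
        by_contra h
        exact hz (hKO (subset_tsupport _ h))
      rw [this, mul_zero]
  obtain ⟨hH, hTu⟩ := uT_spec hD hb hT hweak
  set v := uT D fun f => ∫ z, u z * f z with hv
  -- `u = v` in `D`
  have huv : ∀ x ∈ D, u x = v x := by
    intro x hx
    have hx0 : 0 < dd D x := (dd_pos hD hb).2 hx
    have h0 : u x - v x = 0 := by
      refine eq_of_abs_sub_le_all fun ε hε => ?_
      have hcu : ContinuousAt (fun z => u z - v z) x :=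
        (hu.continuousOn.continuousAt (hD.mem_nhds hx)).sub
          (hH.smooth.continuousOn.continuousAt (hD.mem_nhds hx))
      obtain ⟨r, hr, hru⟩ := Metric.continuousAt_iff.1 hcu ε hε
      set s : ℝ := min (dd D x / 2) (r / 2) with hs
      have hs0 : 0 < s := lt_min (by linarith) (by linarith)
      have hbx : TestOn D (bump s x) := bump_test hs0 (ball_sub (lt_of_le_of_lt (min_le_left _ _)
        (by linarith)))
      have hiv := TestOn.locInt hD hb hH.smooth hbx
      have hiu : Integrable fun z => u z * bump s x z := by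
        obtain ⟨g, O, hg, hgc, hO, hKO, hOD, he⟩ := exists_near2 hD hb hu hbx.2.1 hbx.2.2
        have : Integrable fun z => g z * bump s x z :=
          Continuous.integrable_of_hasCompactSupport (hg.continuous.mul hbx.cont) hgc.mul_right
        refine this.congr (ae_of_all _ fun z => ?_)
        simp only
        by_cases hz : z ∈ O
        · rw [he z hz]
        · have : bump s x z = 0 := by
            by_contra h
            exact hz (hKO (subset_tsupport _ h))
          rw [this, mul_zero, mul_zero]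
      have e0 := hTu _ hbx
      have e1 : u x - v x - 0 = ∫ z, ((u x - v x) - (u z - v z)) * bump s x z := by
        have e2 : ∀ z, ((u x - v x) - (u z - v z)) * bump s x z =
            (u x - v x) * bump s x z - (u z * bump s x z - v z * bump s x z) := fun z => by ring
        have hj : Integrable fun z => u z * bump s x z - v z * bump s x z := hiu.sub hiv
        simp_rw [e2]
        rw [integral_sub (hbx.int.const_mul _) hj, integral_sub hiu hiv, e0,
          integral_const_mul, bump_int hs0]
        ring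
      rw [e1]
      refine (abs_integral_le_integral_abs).trans ?_
      have e4 : ε = ∫ z, ε * bump s x z := by
        rw [integral_const_mul, bump_int hs0, mul_one]
      rw [e4]
      refine integral_mono_of_nonneg (ae_of_all _ fun z => abs_nonneg _) (hbx.int.const_mul ε)
        (ae_of_all _ fun z => ?_)
      simp only
      rw [abs_mul, abs_of_nonneg (bump_nonneg _ _ z)]
      by_cases hz : bump s x z = 0
      · simp [hz]
      · refine mul_le_mul_of_nonneg_right ?_ (bump_nonneg _ _ _)
        have h3 : dist z x ≤ s := by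
          by_contra h4
          exact hz (bump_zero hs0 (not_le.1 h4))
        have h4 := hru (x := z) (lt_of_le_of_lt h3 (lt_of_le_of_lt (min_le_right _ _)
          (by linarith)))
        rw [Real.dist_eq, abs_sub_comm] at h4
        exact h4.le
    linarith
  refine ⟨hH.smooth.congr fun z hz => huv z hz, hl⟩

end Vale.Agent.P153.R2.FLDI
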