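import Vale.Agent.P153.R2.POLY.Dom
import Vale.Agent.P153.R2.FLDI.Br

/-!
P153, two-arc boundary values, block FLDI, input S_conn, part 1: the union `gr A` of the edges of
the lattice between the vertices of `A`, in lattice coordinates.
-/

set_option autoImplicit false

namespace Vale.Agent.P153.R2.FLDI

open Filter Topology Set
open Vale.Agent.P153
open Vale.Agent.P153.Topo (Conn)
open Vale.Agent.P153.R2.POLY (rp ep dir opp ep_flip exists_ep_of_segment ep_mem_segment)

/-- The union of the edges of the lattice between the vertices of `A` (with the vertices), in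
lattice coordinates. -/
def gr (A : Set Pt) : Set (ℝ × ℝ) :=
  {x | ∃ v ∈ A, ∃ w ∈ A, (v = w ∨ Adj v w) ∧ x ∈ segment ℝ (rp v) (rp w)}

theorem rp_mem_gr {A : Set Pt} {v : Pt} (hv : v ∈ A) : rp v ∈ gr A :=
  ⟨v, hv, v, hv, Or.inl rfl, left_mem_segment ℝ _ _⟩

theorem gr_mono {A B : Set Pt} (h : A ⊆ B) : gr A ⊆ gr B := by
  rintro x ⟨v, hv, w, hw, h1, h2⟩
  exact ⟨v, h hv, w, h hw, h1, h2⟩

theorem rp_inj {v w : Pt} (h : rp v = rp w) : v = w := by
  unfold rp at h
  rw [Prod.mk.injEq] at h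
  exact Prod.ext (by exact_mod_cast h.1) (by exact_mod_cast h.2)

/-- A lattice point on an edge is an end of the edge. -/
theorem rp_seg {u v w : Pt} (hvw : v = w ∨ Adj v w) (hu : rp u ∈ segment ℝ (rp v) (rp w)) :
    u = v ∨ u = w := by
  obtain ⟨a, b, ha, hb, hab, h⟩ := hu
  obtain ⟨u1, u2⟩ := u
  obtain ⟨v1, v2⟩ := v
  obtain ⟨w1, w2⟩ := w
  unfold rp at h
  simp only [Prod.smul_mk, smul_eq_mul, Prod.mk_add_mk, Prod.mk.injEq] at h
  obtain ⟨h1, h2⟩ := h
  rw [Prod.mk.injEq, Prod.mk.injEq]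
  have ea : a = 1 - b := by linarith
  subst ea
  have key : ∀ d m : ℤ, d = 1 ∨ d = -1 → b * (d : ℝ) = m → m = 0 ∨ m = d := by
    intro d m hd hm
    rcases hd with rfl | rfl
    · have g1 : (0 : ℝ) ≤ m := by rw [← hm]; push_cast; linarith
      have g2 : (m : ℝ) ≤ 1 := by rw [← hm]; push_cast; linarith
      have g1' : 0 ≤ m := by exact_mod_cast g1
      have g2' : m ≤ 1 := by exact_mod_cast g2
      omega
    · have g1 : (m : ℝ) ≤ 0 := by rw [← hm]; push_cast; linarith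
      have g2 : (-1 : ℝ) ≤ m := by rw [← hm]; push_cast; linarith
      have g1' : m ≤ 0 := by exact_mod_cast g1
      have g2' : -1 ≤ m := by exact_mod_cast g2
      omega
  have e1 : b * ((w1 - v1 : ℤ) : ℝ) = ((u1 - v1 : ℤ) : ℝ) := by push_cast; linarith
  have e2 : b * ((w2 - v2 : ℤ) : ℝ) = ((u2 - v2 : ℤ) : ℝ) := by push_cast; linarith
  have z0 : ∀ d m : ℤ, d = 0 → b * (d : ℝ) = m → m = 0 := by
    intro d m hd hm
    rw [hd] at hm
    have : (m : ℝ) = 0 := by rw [← hm]; push_cast; ring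
    exact_mod_cast this
  have e3 : b * (((w1 - v1) + (w2 - v2) : ℤ) : ℝ) = (((u1 - v1) + (u2 - v2) : ℤ) : ℝ) := by
    push_cast at e1 e2 ⊢
    linarith
  rcases hvw with h0 | h0
  · rw [Prod.mk.injEq] at h0
    have i1 := z0 _ _ (by omega) e1
    have i2 := z0 _ _ (by omega) e2
    omega
  · rw [Topo.adj_iff] at h0
    simp only at h0
    rcases h0 with h0 | h0 | h0 | h0 | h0 | h0
    · have i1 := key _ _ (by omega) e1
      have i2 := z0 _ _ (by omega) e2
      omega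
    · have i1 := key _ _ (by omega) e1
      have i2 := z0 _ _ (by omega) e2
      omega
    · have i1 := z0 _ _ (by omega) e1
      have i2 := key _ _ (by omega) e2
      omega
    · have i1 := z0 _ _ (by omega) e1
      have i2 := key _ _ (by omega) e2
      omega
    · have i1 := key _ _ (by omega) e1
      have i2 := key _ _ (by omega) e2
      have i3 := z0 _ _ (by omega) e3
      omega
    · have i1 := key _ _ (by omega) e1
      have i2 := key _ _ (by omega) e2
      have i3 := z0 _ _ (by omega) e3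
      omega

/-- Normal form of the points of an edge. -/
theorem edge_nf {v w : Pt} (h : Adj v w) {x : ℝ × ℝ} (hx : x ∈ segment ℝ (rp v) (rp w)) :
    ∃ (u : Pt) (k : Fin 6) (θ : ℝ), (k = 0 ∨ k = 1 ∨ k = 2) ∧ 0 ≤ θ ∧ θ ≤ 1 ∧ x = ep u k θ ∧
      ((v = u ∧ w = u + dir k) ∨ (w = u ∧ v = u + dir k)) := by
  have hk : ∃ k : Fin 6, (k = 0 ∨ k = 1 ∨ k = 2) ∧ (w = v + dir k ∨ v = w + dir k) := by
    rw [Topo.adj_iff] at h
    obtain ⟨v1, v2⟩ := v
    obtain ⟨w1, w2⟩ := w
    simp only at h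
    rcases h with h | h | h | h | h | h
    · exact ⟨0, by simp, Or.inl (by simp [dir, Prod.ext_iff]; omega)⟩
    · exact ⟨0, by simp, Or.inr (by simp [dir, Prod.ext_iff]; omega)⟩
    · exact ⟨1, by simp, Or.inl (by simp [dir, Prod.ext_iff]; omega)⟩
    · exact ⟨1, by simp, Or.inr (by simp [dir, Prod.ext_iff]; omega)⟩
    · exact ⟨2, by simp, Or.inr (by simp [dir, Prod.ext_iff]; omega)⟩
    · exact ⟨2, by simp, Or.inl (by simp [dir, Prod.ext_iff]; omega)⟩
  obtain ⟨k, hk3, rfl | rfl⟩ := hk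
  · obtain ⟨θ, h0, h1, e⟩ := exists_ep_of_segment hx
    exact ⟨v, k, θ, hk3, h0, h1, e, Or.inl ⟨rfl, rfl⟩⟩
  · rw [segment_symm] at hx
    obtain ⟨θ, h0, h1, e⟩ := exists_ep_of_segment hx
    exact ⟨w, k, θ, hk3, h0, h1, e, Or.inr ⟨rfl, rfl⟩⟩

theorem no_int {θ : ℝ} (h0 : 0 < θ) (h1 : θ < 1) {m : ℤ} (h : θ = m) : False := by
  rw [h] at h0 h1
  have g0 : 0 < m := by exact_mod_cast h0
  have g1 : m < 1 := by exact_mod_cast h1
  omega

theorem int_zero {θ θ' : ℝ} (h0 : 0 < θ) (h1 : θ < 1) (h0' : 0 < θ') (h1' : θ' < 1) {m : ℤ}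
    (h : θ - θ' = m) : m = 0 := by
  have g0 : (-1 : ℝ) < m := by rw [← h]; linarith
  have g1 : (m : ℝ) < 1 := by rw [← h]; linarith
  have g0' : -1 < m := by exact_mod_cast g0
  have g1' : m < 1 := by exact_mod_cast g1
  omega

/-- Points inside two edges. -/
theorem ep_inter {u u' : Pt} {k l : Fin 6} {θ θ' : ℝ} (hk : k = 0 ∨ k = 1 ∨ k = 2)
    (hl : l = 0 ∨ l = 1 ∨ l = 2) (h0 : 0 < θ) (h1 : θ < 1) (h0' : 0 < θ') (h1' : θ' < 1)
    (h : ep u k θ = ep u' l θ') : u = u' ∧ k = l := by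
  obtain ⟨a, b⟩ := u
  obtain ⟨c, d⟩ := u'
  unfold ep rp at h
  rw [Prod.ext_iff] at h
  rcases hk with rfl | rfl | rfl <;> rcases hl with rfl | rfl | rfl <;>
    simp [dir] at h <;> obtain ⟨g1, g2⟩ := h
  · have i1 := int_zero h0 h1 h0' h1' (m := c - a) (by push_cast; linarith)
    refine ⟨?_, rfl⟩
    rw [Prod.mk.injEq]
    omega
  · exact (no_int h0 h1 (m := c - a) (by push_cast; linarith)).elim
  · exact (no_int h0' h1' (m := b - d) (by push_cast; linarith)).elim
  · exact (no_int h0 h1 (m := d - b) (by push_cast; linarith)).elim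
  · have i1 := int_zero h0 h1 h0' h1' (m := d - b) (by push_cast; linarith)
    refine ⟨?_, rfl⟩
    rw [Prod.mk.injEq]
    omega
  · exact (no_int h0' h1' (m := c - a) (by push_cast; linarith)).elim
  · exact (no_int h0 h1 (m := d - b) (by push_cast; linarith)).elim
  · exact (no_int h0 h1 (m := a - c) (by push_cast; linarith)).elim
  · have i1 := int_zero h0 h1 h0' h1' (m := d - b) (by push_cast; linarith)
    have i2 := int_zero h0 h1 h0' h1' (m := a - c) (by push_cast; linarith)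
    refine ⟨?_, rfl⟩
    rw [Prod.mk.injEq]
    omega

theorem gr_inter (A B : Set Pt) : gr A ∩ gr B = gr (A ∩ B) := by
  apply Subset.antisymm
  · rintro x ⟨⟨v, hv, w, hw, hvw, hx⟩, ⟨v', hv', w', hw', hvw', hx'⟩⟩
    by_cases hlat : ∃ u, x = rp u
    · obtain ⟨u, rfl⟩ := hlat
      have huA : u ∈ A := by rcases rp_seg hvw hx with rfl | rfl <;> assumption
      have huB : u ∈ B := by rcases rp_seg hvw' hx' with rfl | rfl <;> assumption
      exact rp_mem_gr ⟨huA, huB⟩
    · rcases hvw with rfl | hvw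
      · rw [segment_same, mem_singleton_iff] at hx
        exact (hlat ⟨_, hx⟩).elim
      rcases hvw' with rfl | hvw'
      · rw [segment_same, mem_singleton_iff] at hx'
        exact (hlat ⟨_, hx'⟩).elim
      obtain ⟨u, k, θ, hk, h0, h1, e, hu⟩ := edge_nf hvw hx
      obtain ⟨u', k', θ', hk', h0', h1', e', hu'⟩ := edge_nf hvw' hx'
      have lat : ∀ (u : Pt) (k : Fin 6) (θ : ℝ), 0 ≤ θ → θ ≤ 1 → x = ep u k θ →
          0 < θ ∧ θ < 1 := by
        intro u k θ h0 h1 e
        constructor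
        · rcases h0.eq_or_lt with h | h
          · exact (hlat ⟨u, by rw [e, ← h, POLY.ep_zero]⟩).elim
          · exact h
        · rcases h1.eq_or_lt with h | h
          · exact (hlat ⟨u + dir k, by rw [e, h, POLY.ep_one]⟩).elim
          · exact h
      obtain ⟨g0, g1⟩ := lat u k θ h0 h1 e
      obtain ⟨g0', g1'⟩ := lat u' k' θ' h0' h1' e'
      obtain ⟨rfl, rfl⟩ := ep_inter hk hk' g0 g1 g0' g1' (e ▸ e')
      have hA : u ∈ A ∧ u + dir k ∈ A := by
        rcases hu with ⟨rfl, rfl⟩ | ⟨rfl, rfl⟩ <;> exact ⟨by assumption, by assumption⟩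
      have hB : u ∈ B ∧ u + dir k ∈ B := by
        rcases hu' with ⟨rfl, rfl⟩ | ⟨rfl, rfl⟩ <;> exact ⟨by assumption, by assumption⟩
      rcases hu with ⟨rfl, rfl⟩ | ⟨rfl, rfl⟩
      · exact ⟨v, ⟨hA.1, hB.1⟩, _, ⟨hA.2, hB.2⟩, Or.inr hvw, hx⟩
      · exact ⟨_, ⟨hA.2, hB.2⟩, w, ⟨hA.1, hB.1⟩, Or.inr hvw, hx⟩
  · exact subset_inter (gr_mono inter_subset_left) (gr_mono inter_subset_right)

theorem gr_empty : gr ∅ = ∅ := by
  rw [Set.eq_empty_iff_forall_notMem]
  rintro x ⟨v, hv, -⟩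
  exact hv

theorem gr_disj {A B : Set Pt} (h : Disjoint A B) : Disjoint (gr A) (gr B) := by
  rw [Set.disjoint_iff_inter_eq_empty] at h ⊢
  rw [gr_inter, h, gr_empty]

/-- The edges of a finite set of vertices are a compact set. -/
theorem gr_compact {A : Set Pt} (hA : A.Finite) : IsCompact (gr A) := by
  have e : gr A = ⋃ v ∈ A, ⋃ w ∈ {w | w ∈ A ∧ (v = w ∨ Adj v w)}, segment ℝ (rp v) (rp w) := by
    ext x
    simp only [gr, Set.mem_ofPred_eq, mem_iUnion, exists_prop]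
    constructor
    · rintro ⟨v, hv, w, hw, h1, h2⟩
      exact ⟨v, hv, w, ⟨hw, h1⟩, h2⟩
    · rintro ⟨v, hv, w, ⟨hw, h1⟩, h2⟩
      exact ⟨v, hv, w, hw, h1, h2⟩
  rw [e]
  refine hA.isCompact_biUnion fun v _ => ?_
  refine (hA.subset fun w hw => hw.1).isCompact_biUnion fun w _ => ?_
  rw [segment_eq_image]
  exact isCompact_Icc.image (by fun_prop)

/-- The edges of a connected set of vertices are a connected set. -/
theorem gr_preconn {A : Set Pt} (hA : ∀ x ∈ A, ∀ y ∈ A, Conn A x y) : IsPreconnected (gr A) := by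
  rcases A.eq_empty_or_nonempty with rfl | ⟨a, ha⟩
  · rw [gr_empty]; exact isPreconnected_empty
  have key : ∀ y, Conn A a y → ∃ T ⊆ gr A, rp a ∈ T ∧ rp y ∈ T ∧ IsPreconnected T := by
    intro y hy
    refine Conn.ind (S := A) (fun y => ∃ T ⊆ gr A, rp a ∈ T ∧ rp y ∈ T ∧ IsPreconnected T)
      ⟨{rp a}, by rw [singleton_subset_iff]; exact rp_mem_gr ha, rfl, rfl,
        isPreconnected_singleton⟩ ?_ hy
    rintro u v hu huv hv ⟨T, hT, haT, huT, hTc⟩
    refine ⟨T ∪ segment ℝ (rp u) (rp v), union_subset hT ?_, Or.inl haT,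
      Or.inr (right_mem_segment ℝ _ _), ?_⟩
    · intro z hz
      exact ⟨u, hu.right_mem, v, hv, Or.inr huv, hz⟩
    · exact IsPreconnected.union (rp u) huT (left_mem_segment ℝ _ _) hTc
        (convex_segment _ _).isPreconnected
  refine isPreconnected_of_forall (rp a) ?_
  rintro x ⟨v, hv, w, hw, hvw, hx⟩
  obtain ⟨T, hT, haT, hvT, hTc⟩ := key v (hA a ha v hv)
  refine ⟨T ∪ segment ℝ (rp v) (rp w), union_subset hT ?_, Or.inl haT, Or.inr hx,
    IsPreconnected.union (rp v) hvT (left_mem_segment ℝ _ _) hTc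
      (convex_segment _ _).isPreconnected⟩
  intro z hz
  exact ⟨v, hv, w, hw, hvw, hz⟩

end Vale.Agent.P153.R2.FLDI
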