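import Vale.Agent.P153.R2.FLDI.Conn1
import Vale.Agent.P153.R2.R1.Jan

/-!
P153, two-arc boundary values, block FLDI, input S_conn, part 2: two connected sets from an inner
vertex to the outside cannot miss two pieces which cover the polygon and have a connected
intersection (Janiszewski).
-/

set_option autoImplicit false

namespace Vale.Agent.P153.R2.FLDI

open Filter Topology Set
open Vale.Agent.P153
open Vale.Agent.P153.Topo (Conn)
open Vale.Agent.P153.R2.POLY (rp NN NN_PP NN_segment DC isOpen_DC closure_DC frontier_DC)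
open Vale.Agent.P153.R2.INTF (PP)
open Vale.Agent.P153.R2.Final (toC)

variable {n : ℕ} {p : ZMod n → ℤ × ℤ} {S : Finset ((ℤ × ℤ) × Bool)} {δ : ℝ}

/-- The points of an edge, in lattice coordinates. -/
theorem NN_mem_segment (hδ : 0 < δ) {v w : Pt} {x : ℂ} (hx : x ∈ segment ℝ (PP δ v) (PP δ w)) :
    NN hδ x ∈ segment ℝ (rp v) (rp w) := by
  have h := mem_image_of_mem (NN hδ) hx
  rw [NN_segment, NN_PP, NN_PP] at h
  exact h

theorem adj_poly (hp : Final.IsPolygon p) (i : ZMod n) : Adj (p i) (p (i + 1)) := adjF.1 (hp.2.2 i)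

/-- The inner vertices are in the open domain. -/
theorem PP_mem_DC (hδ : 0 < δ) (hp : Final.IsPolygon p) (hS : Final.Encloses p S) {a : Pt}
    (ha : a ∈ F.Dom.inner p S) : PP δ a ∈ DC δ S := by
  rw [F.Dom.dl_inner] at ha
  by_contra hcon
  have h1 : PP δ a ∈ closure (DC δ S) := by
    rw [closure_DC hδ]
    obtain ⟨t, ht, hv⟩ := Finset.mem_biUnion.1 ha.1
    refine ⟨δ • Final.pt a, ⟨t, ht, ?_⟩, rfl⟩
    exact subset_convexHull ℝ _ ⟨a, hv, rfl⟩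
  have h2 : PP δ a ∈ frontier (DC δ S) := by
    rw [(isOpen_DC hδ S).frontier_eq]
    exact ⟨h1, hcon⟩
  rw [frontier_DC hδ hp hS, mem_iUnion] at h2
  obtain ⟨i, hi⟩ := h2
  have h3 := NN_mem_segment hδ hi
  rw [NN_PP] at h3
  rcases rp_seg (Or.inr (adj_poly hp i)) h3 with h | h
  · exact ha.2 i h.symm
  · exact ha.2 (i + 1) h.symm

/-- **The cut lemma.** -/
theorem cut (hδ : 0 < δ) (hp : Final.IsPolygon p) (hS : Final.Encloses p S) {A1 A2 : Set Pt}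
    (hA1 : A1.Finite) (hA2 : A2.Finite)
    (hc : ∀ x ∈ A1 ∩ A2, ∀ y ∈ A1 ∩ A2, Conn (A1 ∩ A2) x y)
    (hcov : ∀ i, (p i ∈ A1 ∧ p (i + 1) ∈ A1) ∨ (p i ∈ A2 ∧ p (i + 1) ∈ A2)) {a : Pt}
    (ha : a ∈ F.Dom.inner p S) {w : ℂ} (hw : w ∉ DC δ S) {X Y : Set ℂ}
    (hX : IsPreconnected X) (haX : PP δ a ∈ X) (hwX : w ∈ X)
    (hXd : Disjoint X (NN hδ ⁻¹' gr A1))
    (hY : IsPreconnected Y) (haY : PP δ a ∈ Y) (hwY : w ∈ Y)
    (hYd : Disjoint Y (NN hδ ⁻¹' gr A2)) : False := by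
  have h1 : IsCompact (NN hδ ⁻¹' gr A1) := (NN hδ).isCompact_preimage.2 (gr_compact hA1)
  have h2 : IsCompact (NN hδ ⁻¹' gr A2) := (NN hδ).isCompact_preimage.2 (gr_compact hA2)
  have h3 : IsPreconnected (NN hδ ⁻¹' gr A1 ∩ NN hδ ⁻¹' gr A2) := by
    rw [← preimage_inter, gr_inter, (NN hδ).isPreconnected_preimage]
    exact gr_preconn hc
  have h4 := R1.janiszewski h1 h2 h3 hX hXd haX hwX hY hYd haY hwY
  set C := connectedComponentIn (NN hδ ⁻¹' gr A1 ∪ NN hδ ⁻¹' gr A2)ᶜ (PP δ a) with hC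
  have haC : PP δ a ∈ C := by
    refine mem_connectedComponentIn ?_
    rintro (h | h)
    · exact hXd.le_bot ⟨haX, h⟩
    · exact hYd.le_bot ⟨haY, h⟩
  refine hw (isPreconnected_connectedComponentIn.subset_of_closure_inter_subset (isOpen_DC hδ S)
    ⟨_, haC, PP_mem_DC hδ hp hS ha⟩ ?_ h4)
  rintro x ⟨hx1, hxC⟩
  by_contra hx2
  have hxK : x ∉ NN hδ ⁻¹' gr A1 ∪ NN hδ ⁻¹' gr A2 := connectedComponentIn_subset _ _ hxC
  have hxf : x ∈ frontier (DC δ S) := by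
    rw [(isOpen_DC hδ S).frontier_eq]
    exact ⟨hx1, hx2⟩
  rw [frontier_DC hδ hp hS, mem_iUnion] at hxf
  obtain ⟨i, hi⟩ := hxf
  have h5 := NN_mem_segment hδ hi
  rcases hcov i with ⟨g1, g2⟩ | ⟨g1, g2⟩
  · exact hxK (Or.inl ⟨_, g1, _, g2, Or.inr (adj_poly hp i), h5⟩)
  · exact hxK (Or.inr ⟨_, g1, _, g2, Or.inr (adj_poly hp i), h5⟩)

end Vale.Agent.P153.R2.FLDI
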