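import Vale.Agent.P153.R2.FLDI.Conn2
import Vale.Agent.P153.R2.FLDI.Bv2

/-!
P153, two-arc boundary values, block FLDI, input S_conn, part 3: the lattice points near a
connected set; lattice coordinates and distances; first exits.
-/

set_option autoImplicit false

namespace Vale.Agent.P153.R2.FLDI

open Filter Topology Set
open Vale.Agent.P145.PT Vale.Agent.P153 Vale.Agent.P153.F.Top
open Vale.Agent.P153.Topo (Conn)
open Vale.Agent.P153.R2.POLY (rp NN NN_PP NN_segment)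
open Vale.Agent.P153.R2.INTF (PP)
open Vale.Agent.P153.R2.Final (toC)

/-! ### Lattice points near a connected set, in lattice coordinates -/

/-- The lattice points near `c`. -/
def ng (c : ℝ × ℝ) : Set Pt := {v | |(v.1 : ℝ) - c.1| ≤ 1 ∧ |(v.2 : ℝ) - c.2| ≤ 1}

/-- The lattice points near the set `E`. -/
def nr (E : Set (ℝ × ℝ)) : Set Pt := {v | ∃ x ∈ E, v ∈ ng x}

theorem ng_sub_nr {E : Set (ℝ × ℝ)} {x : ℝ × ℝ} (hx : x ∈ E) : ng x ⊆ nr E := fun _ hv => ⟨x, hx, hv⟩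

theorem round_near (c : ℝ) : |((round c : ℤ) : ℝ) - c| ≤ 1 / 2 := by
  rw [abs_sub_comm]
  exact abs_sub_round c

theorem ng_nonempty (c : ℝ × ℝ) : (ng c).Nonempty :=
  ⟨(round c.1, round c.2), (round_near c.1).trans (by norm_num), (round_near c.2).trans (by norm_num)⟩

theorem near_int {m : ℤ} {c : ℝ} (h : |(m : ℝ) - c| ≤ 1) :
    m = ⌊c⌋ ∨ m = ⌊c⌋ + 1 ∨ m = ⌊c⌋ - 1 := by
  rw [abs_le] at h
  have h1 := Int.floor_le c
  have h2 := Int.lt_floor_add_one c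
  have g1 : (m : ℝ) < (⌊c⌋ + 2 : ℤ) := by push_cast; linarith
  have g2 : ((⌊c⌋ - 1 : ℤ) : ℝ) ≤ m := by push_cast; linarith
  have g1' : m < ⌊c⌋ + 2 := by exact_mod_cast g1
  have g2' : ⌊c⌋ - 1 ≤ m := by exact_mod_cast g2
  omega

theorem floor_near (c : ℝ) : |((⌊c⌋ : ℤ) : ℝ) - c| ≤ 1 := by
  rw [abs_le]
  constructor <;> linarith [Int.floor_le c, Int.lt_floor_add_one c]

theorem step1 {a a' b : ℤ} (h : a = a' ∨ a = a' + 1 ∨ a = a' - 1) :
    ((a, b) : Pt) = (a', b) ∨ Adj (a, b) (a', b) := by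
  rw [Topo.adj_iff, Prod.mk.injEq]
  show a = a' ∧ b = b ∨ (a' = a + 1 ∧ b = b) ∨ (a' = a - 1 ∧ b = b) ∨ (a' = a ∧ b = b + 1) ∨
    (a' = a ∧ b = b - 1) ∨ (a' = a + 1 ∧ b = b - 1) ∨ (a' = a - 1 ∧ b = b + 1)
  omega

theorem step2 {a b b' : ℤ} (h : b = b' ∨ b = b' + 1 ∨ b = b' - 1) :
    ((a, b) : Pt) = (a, b') ∨ Adj (a, b) (a, b') := by
  rw [Topo.adj_iff, Prod.mk.injEq]
  show a = a ∧ b = b' ∨ (a = a + 1 ∧ b' = b) ∨ (a = a - 1 ∧ b' = b) ∨ (a = a ∧ b' = b + 1) ∨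
    (a = a ∧ b' = b - 1) ∨ (a = a + 1 ∧ b' = b - 1) ∨ (a = a - 1 ∧ b' = b + 1)
  omega

theorem conn_ng {c : ℝ × ℝ} {u v : Pt} (hu : u ∈ ng c) (hv : v ∈ ng c) : Conn (ng c) u v := by
  have key : ∀ u ∈ ng c, Conn (ng c) u (⌊c.1⌋, ⌊c.2⌋) := by
    rintro ⟨a, b⟩ ⟨h1, h2⟩
    have m1 : ((⌊c.1⌋, b) : Pt) ∈ ng c := ⟨floor_near _, h2⟩
    have m2 : ((⌊c.1⌋, ⌊c.2⌋) : Pt) ∈ ng c := ⟨floor_near _, floor_near _⟩
    have e1 : Conn (ng c) (a, b) (⌊c.1⌋, b) := by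
      rcases step1 (b := b) (near_int h1) with h | h
      · simp only at h
        rw [h]
        exact Conn.refl m1
      · exact Conn.of_adj ⟨h1, h2⟩ m1 h
    refine e1.trans ?_
    rcases step2 (a := ⌊c.1⌋) (near_int h2) with h | h
    · simp only at h
      rw [h]
      exact Conn.refl m2
    · exact Conn.of_adj m1 m2 h
  exact (key u hu).trans (key v hv).symm

theorem conn_nr {E : Set (ℝ × ℝ)} (hE : IsPreconnected E) {u v : Pt} (hu : u ∈ nr E)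
    (hv : v ∈ nr E) : Conn (nr E) u v := by
  obtain ⟨x, hx, hux⟩ := hu
  obtain ⟨y, hy, hvy⟩ := hv
  refine hE.induction₂ (fun x y => ∀ u ∈ ng x, ∀ v ∈ ng y, Conn (nr E) u v) ?_ ?_ ?_ hx hy
    u hux v hvy
  · intro x hx
    have h1 : Metric.ball x (1 / 2) ∈ 𝓝[E] x :=
      mem_nhdsWithin_of_mem_nhds (Metric.ball_mem_nhds x (by norm_num))
    filter_upwards [h1, self_mem_nhdsWithin] with y hy hyE u hu v hv
    rw [Metric.mem_ball, Prod.dist_eq, max_lt_iff, Real.dist_eq, Real.dist_eq] at hy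
    have m1 : ((round x.1, round x.2) : Pt) ∈ ng x :=
      ⟨(round_near x.1).trans (by norm_num), (round_near x.2).trans (by norm_num)⟩
    have m2 : ((round x.1, round x.2) : Pt) ∈ ng y := by
      have g1 := round_near x.1
      have g2 := round_near x.2
      rw [abs_le] at g1 g2
      rw [abs_lt, abs_lt] at hy
      constructor <;> rw [abs_le] <;> constructor <;> simp only <;>
        linarith [hy.1.1, hy.1.2, hy.2.1, hy.2.2]
    exact ((conn_ng hu m1).mono (ng_sub_nr hx)).trans ((conn_ng m2 hv).mono (ng_sub_nr hyE))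
  · intro x y z _ hy _ h1 h2 u hu v hv
    obtain ⟨m, hm⟩ := ng_nonempty y
    exact (h1 u hu m hm).trans (h2 m hm v hv)
  · intro x y _ _ h u hu v hv
    exact (h v hv u hu).symm

/-! ### Lattice coordinates of the mesh `δ` -/

/-- Lattice coordinates of the mesh `δ`. -/
noncomputable def lc (δ : ℝ) (x : ℝ × ℝ) : ℝ × ℝ := (x.1 / δ - x.2 / δ / √3, 2 * (x.2 / δ) / √3)

variable {δ : ℝ}

theorem NN_toC (hδ : 0 < δ) (x : ℝ × ℝ) : NN hδ (toC x) = lc δ x := rfl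

theorem lc_cont (δ : ℝ) : Continuous (lc δ) := by
  unfold lc
  fun_prop

theorem lc_dp (hδ : 0 < δ) (v : Pt) : lc δ (dp δ v) = rp v := by
  rw [← NN_toC hδ, ← NN_PP hδ v]
  unfold PP
  rw [dp_pt]

theorem toC_dp (δ : ℝ) (v : Pt) : toC (dp δ v) = PP δ v := by
  unfold PP
  rw [dp_pt]

theorem lc_fst (hδ : 0 < δ) (x : ℝ × ℝ) : x.1 = δ * ((lc δ x).1 + (lc δ x).2 / 2) := by
  have h3 : 0 < √3 := by positivity
  unfold lc
  field_simp
  ring

theorem lc_snd (hδ : 0 < δ) (x : ℝ × ℝ) : x.2 = δ * (√3 / 2 * (lc δ x).2) := by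
  have h3 : 0 < √3 := by positivity
  unfold lc
  field_simp

theorem sqrt3_le : √3 ≤ 2 := by
  rw [Real.sqrt_le_left (by norm_num)]
  norm_num

theorem le_sqrt3 : 3 / 2 ≤ √3 := by
  apply Real.le_sqrt_of_sq_le
  norm_num

theorem dist_le_lc (hδ : 0 < δ) {x y : ℝ × ℝ} {r : ℝ} (h1 : |(lc δ x).1 - (lc δ y).1| ≤ r)
    (h2 : |(lc δ x).2 - (lc δ y).2| ≤ r) : dist x y ≤ 3 / 2 * δ * r := by
  have h3 := sqrt3_le
  have h3' : 0 < √3 := by positivity
  have hr : 0 ≤ r := (abs_nonneg _).trans h1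
  rw [Prod.dist_eq, max_le_iff, Real.dist_eq, Real.dist_eq]
  rw [abs_le] at h1 h2
  constructor
  · have e : x.1 - y.1 = δ * (((lc δ x).1 - (lc δ y).1) + ((lc δ x).2 - (lc δ y).2) / 2) := by
      rw [lc_fst hδ x, lc_fst hδ y]
      ring
    rw [e, abs_mul, abs_of_pos hδ]
    have : |((lc δ x).1 - (lc δ y).1) + ((lc δ x).2 - (lc δ y).2) / 2| ≤ 3 / 2 * r := by
      rw [abs_le]
      constructor <;> linarith [h1.1, h1.2, h2.1, h2.2]
    nlinarith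
  · have e : x.2 - y.2 = δ * (√3 / 2 * ((lc δ x).2 - (lc δ y).2)) := by
      rw [lc_snd hδ x, lc_snd hδ y]
      ring
    rw [e, abs_mul, abs_of_pos hδ, abs_mul, abs_of_pos (by positivity : (0 : ℝ) < √3 / 2)]
    have : |(lc δ x).2 - (lc δ y).2| ≤ r := abs_le.2 h2
    have h4 : √3 / 2 * |(lc δ x).2 - (lc δ y).2| ≤ 1 * r :=
      mul_le_mul (by linarith) this (abs_nonneg _) zero_le_one
    nlinarith

theorem lc_le_dist (hδ : 0 < δ) (x y : ℝ × ℝ) :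
    |(lc δ x).1 - (lc δ y).1| ≤ 2 * dist x y / δ ∧ |(lc δ x).2 - (lc δ y).2| ≤ 2 * dist x y / δ := by
  have h3 := le_sqrt3
  have h3' : 0 < √3 := by positivity
  have d1 : |x.1 - y.1| ≤ dist x y := by rw [Prod.dist_eq]; exact le_max_left _ _
  have d2 : |x.2 - y.2| ≤ dist x y := by rw [Prod.dist_eq]; exact le_max_right _ _
  have hd : 0 ≤ dist x y := dist_nonneg
  constructor
  · have e : (lc δ x).1 - (lc δ y).1 = ((x.1 - y.1) - (x.2 - y.2) / √3) / δ := by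
      unfold lc
      field_simp
      ring
    rw [e, abs_div, abs_of_pos hδ]
    refine div_le_div_of_nonneg_right ?_ hδ.le
    refine (abs_sub _ _).trans ?_
    rw [abs_div, abs_of_pos h3']
    have : |x.2 - y.2| / √3 ≤ dist x y := by
      rw [div_le_iff₀ h3']
      nlinarith
    linarith
  · have e : (lc δ x).2 - (lc δ y).2 = (2 * (x.2 - y.2) / √3) / δ := by
      unfold lc
      field_simp
    rw [e, abs_div, abs_of_pos hδ]
    refine div_le_div_of_nonneg_right ?_ hδ.le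
    rw [abs_div, abs_of_pos h3', abs_mul, abs_of_pos (by norm_num : (0 : ℝ) < 2),
      div_le_iff₀ h3']
    nlinarith

/-- The lattice points of the mesh `δ` near the set `E`. -/
def nrd (δ : ℝ) (E : Set (ℝ × ℝ)) : Set Pt := nr (lc δ '' E)

theorem conn_nrd {E : Set (ℝ × ℝ)} (hE : IsPreconnected E) {u v : Pt} (hu : u ∈ nrd δ E)
    (hv : v ∈ nrd δ E) : Conn (nrd δ E) u v :=
  conn_nr (hE.image _ (lc_cont δ).continuousOn) hu hv

theorem nrd_near (hδ : 0 < δ) {E : Set (ℝ × ℝ)} {v : Pt} (hv : v ∈ nrd δ E) :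
    ∃ x ∈ E, dist (dp δ v) x ≤ 2 * δ := by
  obtain ⟨_, ⟨x, hx, rfl⟩, h1, h2⟩ := hv
  refine ⟨x, hx, ?_⟩
  have h3 := dist_le_lc hδ (x := dp δ v) (y := x) (r := 1) (by rw [lc_dp hδ]; exact h1)
    (by rw [lc_dp hδ]; exact h2)
  linarith

theorem mem_nrd_self (hδ : 0 < δ) {E : Set (ℝ × ℝ)} {v : Pt} (hv : dp δ v ∈ E) : v ∈ nrd δ E := by
  refine ⟨lc δ (dp δ v), mem_image_of_mem _ hv, ?_⟩
  rw [lc_dp hδ]
  unfold ng rp
  simp

theorem nrd_mono {E E' : Set (ℝ × ℝ)} (h : E ⊆ E') : nrd δ E ⊆ nrd δ E' := by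
  rintro v ⟨_, ⟨x, hx, rfl⟩, h1⟩
  exact ⟨_, ⟨x, h hx, rfl⟩, h1⟩

theorem exists_nrd {E : Set (ℝ × ℝ)} {x : ℝ × ℝ} (hx : x ∈ E) : ∃ v ∈ ng (lc δ x), v ∈ nrd δ E := by
  obtain ⟨v, hv⟩ := ng_nonempty (lc δ x)
  exact ⟨v, hv, _, ⟨x, hx, rfl⟩, hv⟩

theorem ng_near (hδ : 0 < δ) {x : ℝ × ℝ} {v : Pt} (hv : v ∈ ng (lc δ x)) :
    dist (dp δ v) x ≤ 2 * δ := by
  have h3 := dist_le_lc hδ (x := dp δ v) (y := x) (r := 1) (by rw [lc_dp hδ]; exact hv.1)
    (by rw [lc_dp hδ]; exact hv.2)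
  linarith

/-! ### Edges -/

/-- The points of the edges between the vertices of `A` are close to `A`. -/
theorem gr_near (hδ : 0 < δ) {A : Set Pt} {x : ℝ × ℝ} (hx : toC x ∈ NN hδ ⁻¹' gr A) :
    ∃ v ∈ A, dist (dp δ v) x ≤ 2 * δ := by
  obtain ⟨v, hv, w, hw, hvw, a, b, ha, hb, hab, e⟩ := hx
  refine ⟨v, hv, ?_⟩
  rw [NN_toC] at e
  have e1 : ∀ u : Pt, (rp u).1 = u.1 ∧ (rp u).2 = u.2 := fun u => ⟨rfl, rfl⟩
  have h1 : |(w.1 : ℝ) - v.1| ≤ 1 ∧ |(w.2 : ℝ) - v.2| ≤ 1 := by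
    have : |w.1 - v.1| ≤ 1 ∧ |w.2 - v.2| ≤ 1 := by
      rcases hvw with rfl | hvw
      · simp
      · rw [Topo.adj_iff] at hvw
        rw [abs_le, abs_le]
        omega
    exact ⟨by exact_mod_cast this.1, by exact_mod_cast this.2⟩
  have hb1 : b ≤ 1 := by linarith
  have h3 := dist_le_lc hδ (x := dp δ v) (y := x) (r := 1) ?_ ?_
  · linarith
  · rw [lc_dp hδ, ← e]
    simp only [Prod.fst_add, Prod.smul_fst, smul_eq_mul, (e1 _).1]
    have : (v.1 : ℝ) - (a * v.1 + b * w.1) = -(b * (w.1 - v.1)) := by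
      have : a = 1 - b := by linarith
      subst this
      ring
    rw [this, abs_neg, abs_mul, abs_of_nonneg hb]
    exact mul_le_one₀ hb1 (abs_nonneg _) h1.1
  · rw [lc_dp hδ, ← e]
    simp only [Prod.snd_add, Prod.smul_snd, smul_eq_mul, (e1 _).2]
    have : (v.2 : ℝ) - (a * v.2 + b * w.2) = -(b * (w.2 - v.2)) := by
      have : a = 1 - b := by linarith
      subst this
      ring
    rw [this, abs_neg, abs_mul, abs_of_nonneg hb]
    exact mul_le_one₀ hb1 (abs_nonneg _) h1.2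

/-! ### First exits -/

theorem first_exit {W V : Set Pt} {m v : Pt} (h : Conn W m v) (hm : m ∈ V) (hv : v ∉ V) :
    ∃ q o, Conn (W ∩ V) m q ∧ Adj q o ∧ o ∈ W ∧ o ∉ V := by
  by_contra hcon
  push Not at hcon
  have key : Conn (W ∩ V) m v := by
    refine Conn.ind (S := W) (fun u => Conn (W ∩ V) m u) (Conn.refl ⟨h.left_mem, hm⟩) ?_ h
    intro u w _ huw hw ih
    have h1 : w ∈ V := by
      exact hcon u w ih huw hw
    exact ih.tail huw ⟨hw, h1⟩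
  exact hv key.right_mem.2

/-- A path which misses `Q`, or a first vertex in `Q`. -/
theorem conn_meet {W Q : Set Pt} {a b : Pt} (h : Conn W a b) :
    Conn (W \ Q) a b ∨ ∃ y ∈ Q, Conn W a y := by
  by_contra hcon
  push Not at hcon
  refine hcon.1 (Conn.ind (S := W) (fun u => Conn (W \ Q) a u) (Conn.refl ⟨h.left_mem, fun h1 =>
    hcon.2 a h1 (Conn.refl h.left_mem)⟩) ?_ h)
  intro u w hu huw hw ih
  exact ih.tail huw ⟨hw, fun h1 => hcon.2 w h1 (hu.tail huw hw)⟩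

end Vale.Agent.P153.R2.FLDI
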