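import Vale.Agent.P153.R2.FLDI.Br

/-!
P153, two-arc boundary values, block FLDI, input S_conn, part 4: a crosscut of the Jordan domain
around a boundary point.
-/

set_option autoImplicit false

namespace Vale.Agent.P153.R2.FLDI

open Filter Topology Set
open Vale.Agent.P153

/-- The point with the coordinate `s` of the chord between the angles `t₀` and `t₀ ± 2 η`. -/
noncomputable def WW (t₀ η σ s : ℝ) : ℝ × ℝ :=
  (Real.cos η * Real.cos t₀ - σ * s * Real.sin t₀, Real.cos η * Real.sin t₀ + σ * s * Real.cos t₀)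

/-- The linear form `⟨x, circ t₀⟩`. -/
noncomputable def LL (t₀ : ℝ) (x : ℝ × ℝ) : ℝ := x.1 * Real.cos t₀ + x.2 * Real.sin t₀

theorem LL_WW (t₀ η σ s : ℝ) : LL t₀ (WW t₀ η σ s) = Real.cos η := by
  unfold LL WW
  simp only
  linear_combination Real.cos η * Real.sin_sq_add_cos_sq t₀

theorem LL_circ (t₀ t : ℝ) : LL t₀ (Final.circ t) = Real.cos (t - t₀) := by
  unfold LL Final.circ
  rw [Real.cos_sub]

theorem WW_sq {t₀ η σ s : ℝ} (hσ : σ ^ 2 = 1) :
    (WW t₀ η σ s).1 ^ 2 + (WW t₀ η σ s).2 ^ 2 = Real.cos η ^ 2 + s ^ 2 := by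
  unfold WW
  simp only
  linear_combination (Real.cos η ^ 2 + s ^ 2 * σ ^ 2) * Real.sin_sq_add_cos_sq t₀ + s ^ 2 * hσ

theorem WW_circ {t₀ η σ : ℝ} (hσ : σ = 1 ∨ σ = -1) :
    WW t₀ η σ (Real.sin η) = Final.circ (t₀ + σ * η) := by
  unfold WW Final.circ
  rcases hσ with rfl | rfl
  · rw [one_mul, one_mul, Real.cos_add, Real.sin_add, Prod.mk.injEq]
    constructor <;> ring
  · rw [Real.cos_add, Real.sin_add, Prod.mk.injEq]
    simp only [neg_mul, one_mul, Real.cos_neg, Real.sin_neg]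
    constructor <;> ring

theorem WW_cont (t₀ η σ : ℝ) : Continuous fun s => WW t₀ η σ s := by
  unfold WW
  fun_prop

/-- The chord meets the circle only at its end. -/
theorem WW_eq_circ {t₀ η σ s t : ℝ} (hσ : σ = 1 ∨ σ = -1) (hs : 0 ≤ s) (hη : 0 < Real.sin η)
    (h1 : 0 < t₀ + σ * η) (h2 : t₀ + σ * η < 2 * Real.pi) (ht : t ∈ Icc 0 (2 * Real.pi))
    (h : WW t₀ η σ s = Final.circ t) : t = t₀ + σ * η := by
  have hσ2 : σ ^ 2 = 1 := by rcases hσ with rfl | rfl <;> norm_num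
  have h3 := WW_sq (t₀ := t₀) (η := η) (s := s) hσ2
  rw [h, circ_sq] at h3
  have h4 : s = Real.sin η := by
    have h5 : s ^ 2 = Real.sin η ^ 2 := by linarith [Real.sin_sq_add_cos_sq η]
    exact (sq_eq_sq₀ hs hη.le).1 h5
  rw [h4, WW_circ hσ] at h
  rcases eq_or_lt_of_le ht.2 with h5 | h5
  · have h6 : Final.circ t = Final.circ 0 := by
      rw [h5]
      unfold Final.circ
      rw [Real.cos_two_pi, Real.sin_two_pi, Real.cos_zero, Real.sin_zero]
    rw [h6] at h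
    have := circ_inj ⟨h1.le, h2⟩ ⟨le_rfl, by linarith [Real.pi_pos]⟩ h
    linarith
  · exact (circ_inj ⟨h1.le, h2⟩ ⟨ht.1, h5⟩ h).symm

/-- Disjoint closed and compact sets have a positive distance. -/
theorem exists_dist {A B : Set (ℝ × ℝ)} (hA : IsCompact A) (hB : IsClosed B) (h : Disjoint A B) :
    ∃ d : ℝ, 0 < d ∧ ∀ a ∈ A, ∀ b ∈ B, d ≤ dist a b := by
  obtain ⟨d, hd, h1⟩ := h.exists_thickenings hA hB
  refine ⟨d, hd, fun a ha b hb => ?_⟩
  by_contra hcon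
  push Not at hcon
  exact h1.le_bot ⟨Metric.self_subset_thickening hd A ha,
    Metric.mem_thickening_iff.2 ⟨b, hb, hcon⟩⟩

variable {Φ : (ℝ × ℝ) ≃ₜ (ℝ × ℝ)}

/-- A half of a crosscut around the boundary point `z`: a compact connected set from the point
`x₀` of the domain to the point `x₁` outside, which is close to the boundary curve only at
parameters in `(a, b)`. -/
structure Hc (Φ : (ℝ × ℝ) ≃ₜ (ℝ × ℝ)) (z : ℝ × ℝ) (ρ d a b : ℝ) (x₀ : ℝ × ℝ) (E : Set (ℝ × ℝ))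
    (x₁ : ℝ × ℝ) : Prop where
  conn : IsPreconnected E
  mem0 : x₀ ∈ E
  mem1 : x₁ ∈ E
  out : x₁ ∉ closure (Final.dom Φ)
  near : ∀ e ∈ E, dist e z < ρ
  par : ∀ e ∈ E, ∀ t ∈ Icc 0 (2 * Real.pi), dist e (Φ (Final.circ t)) < d → t ∈ Ioo a b

theorem closure_dom : closure (Final.dom Φ) = Φ '' {z | z.1 ^ 2 + z.2 ^ 2 ≤ 1} := by
  unfold Final.dom
  rw [← Φ.image_closure, disc_closure]

theorem circFcont : Continuous fun t => Φ (Final.circ t) := Φ.continuous.comp circ_cont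

/-- Existence of a half of a crosscut. -/
theorem exists_hc {t₀ η σ : ℝ} {z : ℝ × ℝ} {ρ : ℝ} (hσ : σ = 1 ∨ σ = -1) (hη : 0 < η)
    (hη2 : η < Real.pi / 2) {a b : ℝ} (ha : 0 < a) (hab : t₀ + σ * η ∈ Ioo a b)
    (hb : b < 2 * Real.pi)
    (hnear : ∀ s ∈ Icc 0 (2 * Real.sin η), dist (Φ (WW t₀ η σ s)) z < ρ) :
    ∃ d : ℝ, 0 < d ∧ Hc Φ z ρ d a b (Φ (WW t₀ η σ 0))
      ((fun s => Φ (WW t₀ η σ s)) '' Icc 0 (2 * Real.sin η)) (Φ (WW t₀ η σ (2 * Real.sin η))) := by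
  have hσ2 : σ ^ 2 = 1 := by rcases hσ with rfl | rfl <;> norm_num
  have hsin : 0 < Real.sin η := Real.sin_pos_of_pos_of_lt_pi hη (by linarith [Real.pi_pos])
  have hcont : Continuous fun s => Φ (WW t₀ η σ s) := Φ.continuous.comp (WW_cont _ _ _)
  set E := (fun s => Φ (WW t₀ η σ s)) '' Icc 0 (2 * Real.sin η) with hE
  have hEc : IsCompact E := isCompact_Icc.image hcont
  set J : Set ℝ := Icc 0 a ∪ Icc b (2 * Real.pi) with hJ
  have hJc : IsCompact ((fun t => Φ (Final.circ t)) '' J) :=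
    (isCompact_Icc.union isCompact_Icc).image circFcont
  have hdis : Disjoint E ((fun t => Φ (Final.circ t)) '' J) := by
    rw [Set.disjoint_left]
    rintro _ ⟨s, hs, rfl⟩ ⟨t, ht, h⟩
    have h1 := Φ.injective h
    have ht2 : t ∈ Icc 0 (2 * Real.pi) := by
      rcases ht with ht | ht
      · exact ⟨ht.1, by linarith [ht.2, hab.1, hab.2]⟩
      · exact ⟨by linarith [ht.1, hab.1, hab.2], ht.2⟩
    have h2 := WW_eq_circ hσ hs.1 hsin (by linarith [hab.1]) (by linarith [hab.2]) ht2 h1.symm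
    rw [← h2] at hab
    rcases ht with ht | ht
    · linarith [ht.2, hab.1]
    · linarith [ht.1, hab.2]
  obtain ⟨d, hd, hdist⟩ := exists_dist hEc hJc.isClosed hdis
  refine ⟨d, hd, (isPreconnected_Icc).image _ hcont.continuousOn,
    ⟨0, ⟨le_rfl, by linarith⟩, rfl⟩, ⟨_, ⟨by linarith, le_rfl⟩, rfl⟩, ?_, ?_, ?_⟩
  · rw [closure_dom]
    rintro ⟨x, hx, h⟩
    have h1 := Φ.injective h
    rw [h1, mem_ofPred_eq, WW_sq hσ2] at hx
    nlinarith [Real.sin_sq_add_cos_sq η]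
  · rintro _ ⟨s, hs, rfl⟩
    exact hnear s hs
  · intro e he t ht hdt
    by_contra hcon
    have : t ∈ J := by
      rw [mem_Ioo, not_and_or, not_lt, not_lt] at hcon
      rcases hcon with h | h
      · exact Or.inl ⟨ht.1, h⟩
      · exact Or.inr ⟨h, ht.2⟩
    linarith [hdist e he _ ⟨t, this, rfl⟩]

theorem Hc.mono {z : ℝ × ℝ} {ρ d d' a b : ℝ} {x₀ : ℝ × ℝ} {E : Set (ℝ × ℝ)} {x₁ : ℝ × ℝ}
    (h : Hc Φ z ρ d a b x₀ E x₁) (hd : d' ≤ d) : Hc Φ z ρ d' a b x₀ E x₁ :=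
  ⟨h.conn, h.mem0, h.mem1, h.out, h.near, fun e he t ht hdt => h.par e he t ht (hdt.trans_le hd)⟩

theorem LL_cont (t₀ : ℝ) : Continuous (LL t₀) := by
  unfold LL
  fun_prop

theorem LL_abs (t₀ : ℝ) (x : ℝ × ℝ) : |LL t₀ x| ≤ 2 * ‖x‖ := by
  unfold LL
  have h1 := Real.abs_cos_le_one t₀
  have h2 := Real.abs_sin_le_one t₀
  have h3 : |x.1| ≤ ‖x‖ := by rw [Prod.norm_def]; exact le_max_left _ _
  have h4 : |x.2| ≤ ‖x‖ := by rw [Prod.norm_def]; exact le_max_right _ _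
  calc |x.1 * Real.cos t₀ + x.2 * Real.sin t₀| ≤ |x.1 * Real.cos t₀| + |x.2 * Real.sin t₀| :=
        abs_add_le _ _
    _ = |x.1| * |Real.cos t₀| + |x.2| * |Real.sin t₀| := by rw [abs_mul, abs_mul]
    _ ≤ ‖x‖ * 1 + ‖x‖ * 1 := by gcongr
    _ = 2 * ‖x‖ := by ring

theorem half_convex (t₀ m : ℝ) : Convex ℝ {x | m ≤ LL t₀ x} := by
  intro x hx y hy a b ha hb hab
  simp only [mem_ofPred_eq] at hx hy ⊢
  have e : LL t₀ (a • x + b • y) = a * LL t₀ x + b * LL t₀ y := by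
    unfold LL
    simp only [Prod.fst_add, Prod.snd_add, Prod.smul_fst, Prod.smul_snd, smul_eq_mul]
    ring
  rw [e]
  calc m = a * m + b * m := by rw [← add_mul, hab, one_mul]
    _ ≤ a * LL t₀ x + b * LL t₀ y := by gcongr

/-- The image of a half plane is unbounded. -/
theorem half_unbdd (Φ : (ℝ × ℝ) ≃ₜ (ℝ × ℝ)) (t₀ m : ℝ) :
    ¬ Bornology.IsBounded (Φ '' {x | m ≤ LL t₀ x}) := by
  intro hb
  have h1 : IsCompact (closure (Φ '' {x | m ≤ LL t₀ x})) := hb.isCompact_closure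
  have h2 : IsCompact (Φ.symm '' closure (Φ '' {x | m ≤ LL t₀ x})) := h1.image Φ.symm.continuous
  obtain ⟨R, hR⟩ := h2.isBounded.subset_closedBall 0
  have h3 : ∀ x, m ≤ LL t₀ x → ‖x‖ ≤ R := by
    intro x hx
    have : x ∈ Φ.symm '' closure (Φ '' {x | m ≤ LL t₀ x}) :=
      ⟨Φ x, subset_closure ⟨x, hx, rfl⟩, Φ.symm_apply_apply x⟩
    have := hR this
    rwa [Metric.mem_closedBall, dist_zero_right] at this
  set s : ℝ := max m (2 * R + 1) with hs
  have h4 : LL t₀ (s • Final.circ t₀) = s := by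
    unfold LL Final.circ
    simp only [Prod.smul_mk, smul_eq_mul]
    linear_combination s * Real.sin_sq_add_cos_sq t₀
  have h5 := h3 (s • Final.circ t₀) (by rw [h4]; exact le_max_left _ _)
  have h6 := LL_abs t₀ (s • Final.circ t₀)
  rw [h4] at h6
  have h7 : 2 * R + 1 ≤ s := le_max_right _ _
  linarith [le_abs_self s]

/-- **The crosscut.** -/
theorem exists_crosscut (Φ : (ℝ × ℝ) ≃ₜ (ℝ × ℝ)) {t₀ : ℝ} (ht₀ : t₀ ∈ Ioo 0 (2 * Real.pi)) {ρ : ℝ}
    (hρ : 0 < ρ) : ∃ (t₁ t₂ t₃ t₄ d r : ℝ) (x₀ x₁ x₂ : ℝ × ℝ) (E F Y : Set (ℝ × ℝ)),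
      t₂ < t₃ ∧ 0 < d ∧ 0 < r ∧ x₀ ∈ Final.dom Φ ∧
      Hc Φ (Φ (Final.circ t₀)) ρ d t₁ t₂ x₀ E x₁ ∧ Hc Φ (Φ (Final.circ t₀)) ρ d t₃ t₄ x₀ F x₂ ∧
      (∀ t ∈ Icc t₁ t₄, dist (Φ (Final.circ t)) (Φ (Final.circ t₀)) < ρ) ∧
      IsPreconnected Y ∧ (∀ x, dist x (Φ (Final.circ t₀)) < r → x ∈ Y) ∧
      ¬ Bornology.IsBounded Y ∧ (∀ y ∈ Y, ∀ e ∈ E ∪ F, d ≤ dist y e) ∧
      ∀ y ∈ Y, ∀ t ∈ Icc 0 t₂ ∪ Icc t₃ (2 * Real.pi), d ≤ dist y (Φ (Final.circ t)) := by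
  obtain ⟨h0, h1⟩ := ht₀
  have hpi := Real.pi_pos
  have hg : ∀ σ : ℝ, ∃ τ : ℝ, 0 < τ ∧ ∀ η s : ℝ, |η| < τ → |s| < τ →
      dist (Φ (WW t₀ η σ s)) (Φ (Final.circ t₀)) < ρ := by
    intro σ
    have hc : Continuous fun x : ℝ × ℝ => Φ (WW t₀ x.1 σ x.2) := by
      apply Φ.continuous.comp
      unfold WW
      fun_prop
    obtain ⟨τ, hτ, h⟩ := Metric.continuousAt_iff.1 (hc.continuousAt (x := (0, 0))) ρ hρ
    refine ⟨τ, hτ, fun η s hη hs => ?_⟩
    have h2 : dist ((η, s) : ℝ × ℝ) (0, 0) < τ := by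
      rw [Prod.dist_eq, max_lt_iff, Real.dist_eq, Real.dist_eq, sub_zero, sub_zero]
      exact ⟨hη, hs⟩
    have h3 := h h2
    have e : WW t₀ 0 σ 0 = Final.circ t₀ := by
      unfold WW Final.circ
      simp
    simp only [e] at h3
    exact h3
  obtain ⟨τ₁, hτ₁, hg₁⟩ := hg 1
  obtain ⟨τ₂, hτ₂, hg₂⟩ := hg (-1)
  obtain ⟨τ₃, hτ₃, hg₃⟩ := Metric.continuousAt_iff.1 ((circFcont (Φ := Φ)).continuousAt (x := t₀)) ρ hρ
  obtain ⟨η, hη, hη'⟩ : ∃ η : ℝ, 0 < η ∧ 4 * η < min τ₁ (min τ₂ (min τ₃ (min t₀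
      (min (2 * Real.pi - t₀) Real.pi)))) := by
    have : 0 < min τ₁ (min τ₂ (min τ₃ (min t₀ (min (2 * Real.pi - t₀) Real.pi)))) := by
      refine lt_min hτ₁ (lt_min hτ₂ (lt_min hτ₃ (lt_min h0 (lt_min (by linarith) hpi))))
    refine ⟨min τ₁ (min τ₂ (min τ₃ (min t₀ (min (2 * Real.pi - t₀) Real.pi)))) / 8, by linarith,
      by linarith⟩
  rw [lt_min_iff, lt_min_iff, lt_min_iff, lt_min_iff, lt_min_iff] at hη'
  obtain ⟨e1, e2, e3, e4, e5, e6⟩ := hη'
  have hsin : Real.sin η ≤ η := Real.sin_le hη.le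
  have hsin0 : 0 < Real.sin η := Real.sin_pos_of_pos_of_lt_pi hη (by linarith)
  obtain ⟨d₁, hd₁, hE⟩ := exists_hc (Φ := Φ) (t₀ := t₀) (η := η) (σ := -1) (z := Φ (Final.circ t₀))
    (ρ := ρ) (Or.inr rfl) hη (by linarith) (a := t₀ - 2 * η) (b := t₀ - η / 2) (by linarith)
    ⟨by linarith, by linarith⟩ (by linarith) (fun s hs => hg₂ η s
      (by rw [abs_of_pos hη]; linarith) (by rw [abs_of_nonneg hs.1]; linarith [hs.2]))
  obtain ⟨d₂, hd₂, hF⟩ := exists_hc (Φ := Φ) (t₀ := t₀) (η := η) (σ := 1) (z := Φ (Final.circ t₀))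
    (ρ := ρ) (Or.inl rfl) hη (by linarith) (a := t₀ + η / 2) (b := t₀ + 2 * η) (by linarith)
    ⟨by linarith, by linarith⟩ (by linarith) (fun s hs => hg₁ η s
      (by rw [abs_of_pos hη]; linarith) (by rw [abs_of_nonneg hs.1]; linarith [hs.2]))
  have hx0 : WW t₀ η (-1) 0 = WW t₀ η 1 0 := by unfold WW; simp
  rw [hx0] at hE
  set E := (fun s => Φ (WW t₀ η (-1) s)) '' Icc 0 (2 * Real.sin η) with hEd
  set F := (fun s => Φ (WW t₀ η 1 s)) '' Icc 0 (2 * Real.sin η) with hFd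
  set c := Real.cos (η / 2) with hc
  have hc1 : c < 1 := by
    have := Real.cos_lt_cos_of_nonneg_of_le_pi (x := 0) (y := η / 2) le_rfl (by linarith)
      (by linarith)
    rwa [Real.cos_zero] at this
  have hc2 : Real.cos η ≤ c := Real.cos_le_cos_of_nonneg_of_le_pi (by linarith) (by linarith)
    (by linarith)
  set m := (1 + c) / 2 with hm
  set Y := Φ '' {x | m ≤ LL t₀ x} with hY
  have hYc : IsClosed Y := by
    rw [hY, Φ.isClosed_image]
    exact isClosed_le continuous_const (LL_cont t₀)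
  set K := E ∪ F ∪ (fun t => Φ (Final.circ t)) '' (Icc 0 (t₀ - η / 2) ∪ Icc (t₀ + η / 2) (2 * Real.pi))
    with hK
  have hKc : IsCompact K := by
    refine IsCompact.union (IsCompact.union ?_ ?_) ?_
    · exact isCompact_Icc.image (Φ.continuous.comp (WW_cont _ _ _))
    · exact isCompact_Icc.image (Φ.continuous.comp (WW_cont _ _ _))
    · exact (isCompact_Icc.union isCompact_Icc).image circFcont
  have hdis : Disjoint K Y := by
    rw [Set.disjoint_left]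
    rintro y hy ⟨x, hx, rfl⟩
    simp only [mem_ofPred_eq] at hx
    have hlt : c < m := by linarith
    rcases hy with (⟨s, hs, h⟩ | ⟨s, hs, h⟩) | ⟨t, ht, h⟩
    · have := Φ.injective h
      rw [← this, LL_WW] at hx
      linarith
    · have := Φ.injective h
      rw [← this, LL_WW] at hx
      linarith
    · have := Φ.injective h
      rw [← this, LL_circ] at hx
      have h5 : Real.cos (t - t₀) ≤ c := by
        rcases ht with ht | ht
        · rw [← Real.cos_neg, neg_sub]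
          rcases le_or_gt (t₀ - t) Real.pi with h6 | h6
          · exact Real.cos_le_cos_of_nonneg_of_le_pi (by linarith) h6 (by linarith [ht.2])
          · rw [← Real.cos_two_pi_sub]
            exact Real.cos_le_cos_of_nonneg_of_le_pi (by linarith) (by linarith)
              (by linarith [ht.1])
        · rcases le_or_gt (t - t₀) Real.pi with h6 | h6
          · exact Real.cos_le_cos_of_nonneg_of_le_pi (by linarith) h6 (by linarith [ht.1])
          · rw [← Real.cos_two_pi_sub]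
            exact Real.cos_le_cos_of_nonneg_of_le_pi (by linarith) (by linarith)
              (by linarith [ht.2])
      linarith
  obtain ⟨d₃, hd₃, hdist⟩ := exists_dist hKc hYc hdis
  have hYo : IsOpen (Φ '' {x | m < LL t₀ x}) := by
    rw [Φ.isOpen_image]
    exact isOpen_lt continuous_const (LL_cont t₀)
  obtain ⟨r, hr, hball⟩ := Metric.isOpen_iff.1 hYo (Φ (Final.circ t₀))
    ⟨_, by rw [mem_ofPred_eq, LL_circ, sub_self, Real.cos_zero]; linarith, rfl⟩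
  have hdm : 0 < min d₁ (min d₂ d₃) := lt_min hd₁ (lt_min hd₂ hd₃)
  refine ⟨t₀ - 2 * η, t₀ - η / 2, t₀ + η / 2, t₀ + 2 * η, min d₁ (min d₂ d₃), r,
    Φ (WW t₀ η 1 0), _, _, E, F, Y, by linarith, hdm, hr, ?_,
    hE.mono (min_le_left _ _), hF.mono ((min_le_right _ _).trans (min_le_left _ _)), ?_, ?_, ?_, ?_,
    ?_, ?_⟩
  · refine ⟨_, ?_, rfl⟩
    rw [mem_ofPred_eq, WW_sq (by norm_num)]
    nlinarith [Real.sin_sq_add_cos_sq η]
  · intro t ht
    refine hg₃ ?_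
    rw [Real.dist_eq, abs_lt]
    constructor <;> linarith [ht.1, ht.2]
  · exact (half_convex t₀ m).isPreconnected.image _ Φ.continuous.continuousOn
  · intro x hx
    obtain ⟨y, hy, hyx⟩ := hball hx
    have hy' : m < LL t₀ y := hy
    exact ⟨y, hy'.le, hyx⟩
  · exact half_unbdd Φ t₀ m
  · intro y hy e he
    rw [dist_comm]
    exact ((min_le_right _ _).trans (min_le_right _ _)).trans (hdist e (Or.inl he) y hy)
  · intro y hy t ht
    rw [dist_comm]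
    exact ((min_le_right _ _).trans (min_le_right _ _)).trans
      (hdist _ (Or.inr ⟨t, ht, rfl⟩) y hy)

end Vale.Agent.P153.R2.FLDI
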