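import Vale.Agent.P153.R2.FLDI.Conn3
import Vale.Agent.P153.R2.FLDI.Conn4
import Vale.Agent.P153.R2.PLAN.Poly

/-!
P153, two-arc boundary values, block FLDI, input S_conn, part 5: the lattice crosscut.
-/

set_option autoImplicit false

namespace Vale.Agent.P153.R2.FLDI

open Filter Topology Set
open Vale.Agent.P145.PT Vale.Agent.P153 Vale.Agent.P153.F.Top
open Vale.Agent.P153.Topo (Conn)
open Vale.Agent.P153.R2.POLY (rp NN NN_PP NN_segment DC)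
open Vale.Agent.P153.R2.INTF (PP)
open Vale.Agent.P153.R2.Final (toC)

/-- The complement of a ball of the plane is connected. -/
theorem far_preconn (z : ℝ × ℝ) (r : ℝ) (hr : 0 ≤ r) : IsPreconnected {x : ℝ × ℝ | r < dist x z} := by
  have hrank : 1 < Module.rank ℝ (ℝ × ℝ) := by
    rw [rank_prod']
    simp
    norm_num
  have h1 : IsPreconnected (Ioi r ×ˢ Metric.sphere (0 : ℝ × ℝ) 1) :=
    isPreconnected_Ioi.prod (isPreconnected_sphere hrank 0 1)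
  have h2 := h1.image (fun x : ℝ × (ℝ × ℝ) => z + x.1 • x.2) (by fun_prop)
  convert h2 using 1
  ext x
  simp only [mem_image, mem_prod, mem_Ioi, mem_sphere_iff_norm, sub_zero, Prod.exists,
    Set.mem_ofPred_eq]
  constructor
  · intro hx
    have h0 : 0 < dist x z := lt_of_le_of_lt hr hx
    rw [dist_eq_norm] at h0 hx
    refine ⟨‖x - z‖, ((‖x - z‖)⁻¹ • (x - z)).1, ((‖x - z‖)⁻¹ • (x - z)).2, ⟨hx, ?_⟩, ?_⟩
    · rw [Prod.mk.eta, norm_smul, norm_inv, norm_norm, inv_mul_cancel₀ h0.ne']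
    · rw [Prod.mk.eta, smul_smul, mul_inv_cancel₀ h0.ne', one_smul, add_sub_cancel]
  · rintro ⟨a, b, c, ⟨ha, hb⟩, rfl⟩
    rw [dist_eq_norm, add_sub_cancel_left, norm_smul, hb, mul_one, Real.norm_eq_abs]
    exact lt_of_lt_of_le ha (le_abs_self a)

theorem toC_inj {x y : ℝ × ℝ} (h : toC x = toC y) : x = y := by
  unfold toC at h
  rw [Complex.mk.injEq] at h
  exact Prod.ext h.1 h.2

theorem toC_cont : Continuous toC := by
  rw [← POLY.toCH_eq]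
  exact POLY.toCH.continuous

section N

variable {n : ℕ} {p : ZMod n → ℤ × ℤ} {S : Finset ((ℤ × ℤ) × Bool)} {δ : ℝ}

theorem val_succ [NeZero n] (i : ZMod n) : (i + 1).val = i.val + 1 ∨ (i + 1).val = 0 ∧ i.val + 1 = n := by
  have h1 := i.val_lt
  have e : i + 1 = ((i.val + 1 : ℕ) : ZMod n) := by
    push_cast
    rw [ZMod.natCast_zmod_val]
  by_cases h : i.val + 1 = n
  · right
    rw [e, h]
    simp
  · left
    rw [e, ZMod.val_natCast_of_lt (by omega)]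

theorem inn_out (hS : Final.Encloses p S) {v w : Pt} (hv : v ∈ inn p S) (hvw : Adj v w)
    (hw : w ∉ inn p S) : ∃ i, p i = w := by
  rcases PLAN.nbr_inner (enclF hS) (Finset.mem_coe.1 hv) hvw with h | h
  · exact (hw (Finset.mem_coe.2 h)).elim
  · exact h

/-- The exit through a half of a crosscut. -/
theorem hc_exit {Φ : (ℝ × ℝ) ≃ₜ (ℝ × ℝ)} (hδ : 0 < δ) (hp : Final.IsPolygon p)
    (hS : Final.Encloses p S) {s : ℕ → ℝ} (hs : Monotone s) (hs0 : s 0 = 0)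
    (hsn : s n = 2 * Real.pi) {ε d ρ a b : ℝ}
    (hε : ∀ i : ZMod n, dist (dp δ (p i)) (Φ (Final.circ (s i.val))) < ε) {z x₀ x₁ : ℝ × ℝ}
    {E : Set (ℝ × ℝ)} (hd : ε + 4 * δ < d) (hE : Hc Φ z ρ d a b x₀ E x₁)
    (h1 : ∀ v ∈ ng (lc δ x₁), v ∉ inn p S) {m : Pt} (hm : m ∈ ng (lc δ x₀)) (hmi : m ∈ inn p S) :
    ∃ (q : Pt) (i : ZMod n), Conn (nrd δ E ∩ inn p S) m q ∧ Adj q (p i) ∧ s i.val ∈ Ioo a b := by
  have : NeZero n := ⟨by have := hp.1; omega⟩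
  obtain ⟨v, hv⟩ := ng_nonempty (lc δ x₁)
  have hmE : m ∈ nrd δ E := ⟨_, ⟨x₀, hE.mem0, rfl⟩, hm⟩
  have hvE : v ∈ nrd δ E := ⟨_, ⟨x₁, hE.mem1, rfl⟩, hv⟩
  obtain ⟨q, o, g1, g2, g3, g4⟩ := first_exit (conn_nrd hE.conn hmE hvE) hmi (h1 v hv)
  obtain ⟨i, rfl⟩ := inn_out hS g1.right_mem.2 g2 g4
  refine ⟨q, i, g1, g2, ?_⟩
  obtain ⟨e, he, h2⟩ := nrd_near hδ g3
  refine hE.par e he _ ⟨by rw [← hs0]; exact hs (Nat.zero_le _),
    by rw [← hsn]; exact hs i.val_lt.le⟩ ?_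
  have h3 := hε i
  have h4 := dist_triangle_left e (Φ (Final.circ (s i.val))) (dp δ (p i))
  linarith

/-- **The lattice crosscut.** -/
theorem cross_n {Φ : (ℝ × ℝ) ≃ₜ (ℝ × ℝ)} (hδ : 0 < δ) (hp : Final.IsPolygon p)
    (hS : Final.Encloses p S) {s : ℕ → ℝ} (hs : Monotone s) (hs0 : s 0 = 0)
    (hsn : s n = 2 * Real.pi) {ε d ρ r t₁ t₂ t₃ t₄ : ℝ}
    (hε : ∀ i : ZMod n, dist (dp δ (p i)) (Φ (Final.circ (s i.val))) < ε)
    {z x₀ x₁ x₂ : ℝ × ℝ} {E F Y : Set (ℝ × ℝ)} (h23 : t₂ < t₃) (hd : ε + 4 * δ < d)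
    (hE : Hc Φ z (ρ / 2) d t₁ t₂ x₀ E x₁) (hF : Hc Φ z (ρ / 2) d t₃ t₄ x₀ F x₂)
    (harc : ∀ t ∈ Icc t₁ t₄, dist (Φ (Final.circ t)) z < ρ / 2) (hY : IsPreconnected Y)
    (hYr : ∀ x, dist x z < r → x ∈ Y) (hYb : ¬ Bornology.IsBounded Y)
    (hYE : ∀ y ∈ Y, ∀ e ∈ E ∪ F, d ≤ dist y e)
    (hYc : ∀ y ∈ Y, ∀ t ∈ Icc 0 t₂ ∪ Icc t₃ (2 * Real.pi), d ≤ dist y (Φ (Final.circ t)))
    (hρ : ε + 4 * δ < ρ / 4) (h0 : ∀ v ∈ ng (lc δ x₀), v ∈ inn p S)
    (h1 : ∀ v ∈ ng (lc δ x₁), v ∉ inn p S) (h2 : ∀ v ∈ ng (lc δ x₂), v ∉ inn p S) :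
    ∃ (Q : Set Pt) (q : Pt), q ∈ Q ∧ Q ⊆ inn p S ∧ (∃ o, Adj q o ∧ o ∉ inn p S) ∧
      (∀ v ∈ Q, Conn Q q v) ∧ (∀ v ∈ Q, ∃ e ∈ E ∪ F, dist (dp δ v) e ≤ 2 * δ) ∧
      ∀ a b : Pt, a ∈ inn p S → dist (dp δ a) z < r → ρ ≤ dist (dp δ b) z →
        ¬ Conn (inn p S \ Q) a b := by
  have : NeZero n := ⟨by have := hp.1; omega⟩
  obtain ⟨m, hm⟩ := ng_nonempty (lc δ x₀)
  have hmi := h0 m hm
  obtain ⟨q₁, i₁, c₁, a₁, s₁⟩ := hc_exit hδ hp hS hs hs0 hsn hε hd hE h1 hm hmi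
  obtain ⟨q₂, i₂, c₂, a₂, s₂⟩ := hc_exit hδ hp hS hs hs0 hsn hε hd hF h2 hm hmi
  have hε0 : 0 < ε := lt_of_le_of_lt dist_nonneg (hε i₁)
  have hij : i₁.val < i₂.val := by
    by_contra hcon
    have := hs (not_lt.1 hcon)
    linarith [s₁.2, s₂.1]
  set V := inn p S with hV
  set Q : Set Pt := {v | Conn (nrd δ E ∩ V) m v} ∪ {v | Conn (nrd δ F ∩ V) m v} with hQ
  have hQV : Q ⊆ V := by
    rintro v (hv | hv)
    · exact hv.right_mem.2
    · exact hv.right_mem.2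
  have hQe : ∀ v ∈ Q, ∃ e ∈ E ∪ F, dist (dp δ v) e ≤ 2 * δ := by
    rintro v (hv | hv)
    · obtain ⟨e, he, h⟩ := nrd_near hδ hv.right_mem.1
      exact ⟨e, Or.inl he, h⟩
    · obtain ⟨e, he, h⟩ := nrd_near hδ hv.right_mem.1
      exact ⟨e, Or.inr he, h⟩
  have hmQ : m ∈ Q := Or.inl (Conn.refl ⟨⟨_, ⟨x₀, hE.mem0, rfl⟩, hm⟩, hmi⟩)
  have hcQ : ∀ v ∈ Q, Conn Q m v := by
    rintro v (hv | hv)
    · refine Conn.ind (S := nrd δ E ∩ V) (fun v => Conn Q m v) (Conn.refl hmQ) ?_ hv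
      intro u w hu huw hw ih
      exact ih.tail huw (Or.inl (hu.tail huw hw))
    · refine Conn.ind (S := nrd δ F ∩ V) (fun v => Conn Q m v) (Conn.refl hmQ) ?_ hv
      intro u w hu huw hw ih
      exact ih.tail huw (Or.inr (hu.tail huw hw))
  have hpV : ∀ i, p i ∉ V := fun i hi => (Vale.Agent.P153.F.Dom.dl_inner.1 (Finset.mem_coe.1 hi)).2 i rfl
  have hq₁ : q₁ ∈ Q := Or.inl c₁
  have hq₂ : q₂ ∈ Q := Or.inr c₂
  refine ⟨Q, q₁, hq₁, hQV, ⟨p i₁, a₁, hpV i₁⟩, fun v hv => (hcQ q₁ hq₁).symm.trans (hcQ v hv), hQe,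
    ?_⟩
  intro a b ha har hbρ hab
  have hinj := hp.2.1
  -- the two pieces
  set A1 : Set Pt := {v | ∃ i : ZMod n, i₁.val ≤ i.val ∧ i.val ≤ i₂.val ∧ p i = v} ∪ Q with hA1
  set A2 : Set Pt := {v | ∃ i : ZMod n, (i.val ≤ i₁.val ∨ i₂.val ≤ i.val) ∧ p i = v} ∪ Q with hA2
  have hQf : Q.Finite := (Finset.finite_toSet (Vale.Agent.P153.F.Dom.inner p S)).subset hQV
  have hA1f : A1.Finite := ((finite_range p).subset (by rintro v ⟨i, -, -, rfl⟩; exact ⟨i, rfl⟩)).union hQf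
  have hA2f : A2.Finite := ((finite_range p).subset (by rintro v ⟨i, -, rfl⟩; exact ⟨i, rfl⟩)).union hQf
  have hinter : ∀ v ∈ A1 ∩ A2, v ∈ Q ∨ v = p i₁ ∨ v = p i₂ := by
    rintro v ⟨⟨i, hi1, hi2, rfl⟩ | hv, hv2⟩
    · rcases hv2 with ⟨j, hj, hji⟩ | hv2
      · have := hinj hji
        subst this
        right
        rcases hj with hj | hj
        · left
          rw [ZMod.val_injective n (le_antisymm hj hi1)]
        · right
          rw [ZMod.val_injective n (le_antisymm hi2 hj)]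
      · exact Or.inl hv2
    · exact Or.inl hv
  have hm1 : p i₁ ∈ A1 ∩ A2 := ⟨Or.inl ⟨i₁, le_rfl, hij.le, rfl⟩, Or.inl ⟨i₁, Or.inl le_rfl, rfl⟩⟩
  have hm2 : p i₂ ∈ A1 ∩ A2 := ⟨Or.inl ⟨i₂, hij.le, le_rfl, rfl⟩, Or.inl ⟨i₂, Or.inr le_rfl, rfl⟩⟩
  have hQ12 : Q ⊆ A1 ∩ A2 := fun v hv => ⟨Or.inr hv, Or.inr hv⟩
  have hconn : ∀ v ∈ A1 ∩ A2, Conn (A1 ∩ A2) m v := by
    intro v hv
    rcases hinter v hv with h | rfl | rfl
    · exact (hcQ v h).mono hQ12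
    · exact ((hcQ _ hq₁).mono hQ12).tail a₁ hm1
    · exact ((hcQ _ hq₂).mono hQ12).tail a₂ hm2
  have hcov : ∀ i, (p i ∈ A1 ∧ p (i + 1) ∈ A1) ∨ (p i ∈ A2 ∧ p (i + 1) ∈ A2) := by
    intro i
    by_cases hi : i₁.val ≤ i.val ∧ i.val < i₂.val
    · left
      have h3 : (i + 1).val = i.val + 1 := by
        rcases val_succ i with h | ⟨-, h⟩
        · exact h
        · have := i₂.val_lt
          omega
      exact ⟨Or.inl ⟨i, hi.1, hi.2.le, rfl⟩, Or.inl ⟨i + 1, by omega, by omega, rfl⟩⟩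
    · right
      have h4 : i.val < i₁.val ∨ i₂.val ≤ i.val := by omega
      refine ⟨Or.inl ⟨i, by omega, rfl⟩, Or.inl ⟨i + 1, ?_, rfl⟩⟩
      rcases val_succ i with h | ⟨h, -⟩ <;> omega
  -- the path
  set G : Set Pt := {v | Conn (V \ Q) a v} with hG
  have hGc : ∀ v ∈ G, Conn G a v := by
    intro v hv
    refine Conn.ind (S := V \ Q) (fun v => Conn G a v) (Conn.refl (Conn.refl hab.left_mem)) ?_ hv
    intro u w hu huw hw ih
    exact ih.tail huw (hu.tail huw hw)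
  have hGd : Disjoint G A1 := by
    rw [Set.disjoint_left]
    rintro v hv (⟨i, -, -, rfl⟩ | hvQ)
    · exact hpV i (hv.right_mem.1)
    · exact hv.right_mem.2 hvQ
  -- distances
  have dA1 : ∀ v ∈ A1, dist (dp δ v) z < ρ / 2 + ε + 2 * δ := by
    rintro v (⟨i, hi1, hi2, rfl⟩ | hv)
    · have g1 := hε i
      have g2 := harc (s i.val) ⟨s₁.1.le.trans (hs hi1), (hs hi2).trans s₂.2.le⟩
      have g3 := dist_triangle (dp δ (p i)) (Φ (Final.circ (s i.val))) z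
      linarith
    · obtain ⟨e, he, g1⟩ := hQe v hv
      have g2 : dist e z < ρ / 2 := by
        rcases he with he | he
        · exact hE.near e he
        · exact hF.near e he
      have g3 := dist_triangle (dp δ v) e z
      linarith
  have dA2 : ∀ v ∈ A2, ∀ y ∈ Y, 2 * δ < dist (dp δ v) y := by
    rintro v (⟨i, hi, rfl⟩ | hv) y hy
    · have g1 := hε i
      have hmem : s i.val ∈ Icc 0 t₂ ∪ Icc t₃ (2 * Real.pi) := by
        rcases hi with hi | hi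
        · exact Or.inl ⟨by rw [← hs0]; exact hs (Nat.zero_le _), (hs hi).trans s₁.2.le⟩
        · exact Or.inr ⟨s₂.1.le.trans (hs hi), by rw [← hsn]; exact hs i.val_lt.le⟩
      have g2 := hYc y hy _ hmem
      have g3 := dist_triangle_left y (Φ (Final.circ (s i.val))) (dp δ (p i))
      linarith
    · obtain ⟨e, he, g1⟩ := hQe v hv
      have g2 := hYE y hy e he
      have g3 := dist_triangle_left y e (dp δ v)
      linarith
  -- the point outside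
  obtain ⟨w, hwY, hwS, hwz⟩ : ∃ w ∈ Y, w ∉ interior (Final.region δ S) ∧ 3 * ρ / 4 < dist w z := by
    by_contra hcon
    push Not at hcon
    apply hYb
    have b1 : Bornology.IsBounded (Final.region δ S) := by
      have h3 := (POLY.isCompact_region hδ S).isBounded
      have h4 : Final.region δ S ⊆ POLY.toCH.symm '' (toC '' Final.region δ S) := by
        rw [← POLY.toCH_eq]
        intro x hx
        exact ⟨_, ⟨x, hx, rfl⟩, POLY.toCH.symm_apply_apply x⟩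
      exact (((POLY.isCompact_region hδ S).image POLY.toCH.symm.continuous).isBounded).subset h4
    refine (b1.union (Metric.isBounded_closedBall (x := z) (r := 3 * ρ / 4))).subset ?_
    intro y hy
    by_cases h3 : y ∈ interior (Final.region δ S)
    · exact Or.inl (interior_subset h3)
    · exact Or.inr (Metric.mem_closedBall.2 (hcon y hy h3))
  have hwD : toC w ∉ DC δ S := by
    rintro ⟨x, hx, hxw⟩
    rw [toC_inj hxw] at hx
    exact hwS hx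
  have hbz : 3 * ρ / 4 < dist (dp δ b) z := by
    linarith [dist_nonneg (x := dp δ (p i₁)) (y := Φ (Final.circ (s i₁.val)))]
  refine cut hδ hp hS hA1f hA2f (fun x hx y hy => (hconn x hx).symm.trans (hconn y hy)) hcov
    (Finset.mem_coe.1 ha) hwD
    (X := (NN hδ ⁻¹' gr G) ∪ toC '' {x | 3 * ρ / 4 < dist x z}) (Y := toC '' Y) ?_ ?_ ?_ ?_ ?_ ?_
    ?_ ?_
  · refine IsPreconnected.union (PP δ b) ?_ ?_ ?_ ?_
    · rw [mem_preimage, NN_PP]
      exact rp_mem_gr hab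
    · exact ⟨dp δ b, hbz, toC_dp δ b⟩
    · rw [(NN hδ).isPreconnected_preimage]
      exact gr_preconn fun x hx y hy => (hGc x hx).symm.trans (hGc y hy)
    · refine (far_preconn z _ ?_).image _ toC_cont.continuousOn
      linarith
  · left
    rw [mem_preimage, NN_PP]
    exact rp_mem_gr (Conn.refl hab.left_mem)
  · exact Or.inr ⟨w, hwz, rfl⟩
  · rw [Set.disjoint_union_left]
    constructor
    · exact (gr_disj hGd).preimage _
    · rw [Set.disjoint_left]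
      rintro _ ⟨x, hx, rfl⟩ hx2
      obtain ⟨v, hv, g1⟩ := gr_near hδ hx2
      have g2 := dA1 v hv
      have g3 := dist_triangle_left x z (dp δ v)
      have hx' : 3 * ρ / 4 < dist x z := hx
      linarith
  · exact hY.image _ toC_cont.continuousOn
  · exact ⟨dp δ a, hYr _ har, toC_dp δ a⟩
  · exact ⟨w, hwY, rfl⟩
  · rw [Set.disjoint_left]
    rintro _ ⟨x, hx, rfl⟩ hx2
    obtain ⟨v, hv, g1⟩ := gr_near hδ hx2
    linarith [dA2 v hv x hx]

end N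

end Vale.Agent.P153.R2.FLDI
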