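import Vale.Agent.P153.R2.FLDI.Conn5

/-!
P153, two-arc boundary values, block FLDI, input S_conn, part 6: the lattice crosscuts of an
approximation.
-/

set_option autoImplicit false

namespace Vale.Agent.P153.R2.FLDI

open Filter Topology Set
open Vale.Agent.P145.PT Vale.Agent.P153 Vale.Agent.P153.F.Top
open Vale.Agent.P153.Topo (Conn)

variable {Φ : (ℝ × ℝ) ≃ₜ (ℝ × ℝ)} {δ : ℕ → ℝ} {N k : ℕ → ℕ}
  {p : ∀ n, ZMod (N n) → ℤ × ℤ} {S : ℕ → Finset ((ℤ × ℤ) × Bool)}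

/-- Lattice points near a point of the domain are inner vertices. -/
theorem ev_ng_in (h : Final.Approx Φ δ N k p S) {x : ℝ × ℝ} (hx : x ∈ Final.dom Φ) :
    ∀ᶠ n in atTop, ∀ v ∈ ng (lc (δ n) x), v ∈ inn (p n) (S n) := by
  have hA := approxF h
  obtain ⟨s, hs, hball⟩ := Metric.isOpen_iff.1 (domF_open (Φ := Φ)) x hx
  have h1 := ev_inner h (isCompact_closedBall x (s / 2))
    ((Metric.closedBall_subset_ball (half_lt_self hs)).trans hball)
  have h2 : ∀ᶠ n in atTop, δ n < s / 4 := hA.lim.eventually (gt_mem_nhds (by positivity))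
  filter_upwards [h1, h2] with n g1 g2 v hv
  have h3 := ng_near (hA.pos n) hv
  exact Finset.mem_coe.2 (g1 v (Metric.mem_closedBall.2 (by linarith)))

/-- Lattice points near a point outside the closure of the domain are not inner vertices. -/
theorem ev_ng_out (h : Final.Approx Φ δ N k p S) {x : ℝ × ℝ} (hx : x ∉ closure (Final.dom Φ)) :
    ∀ᶠ n in atTop, ∀ v ∈ ng (lc (δ n) x), v ∉ inn (p n) (S n) := by
  have hA := approxF h
  have hne : (closure (Final.dom Φ)).Nonempty := by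
    refine ⟨Φ (0, 0), subset_closure ⟨(0, 0), ?_, rfl⟩⟩
    simp
  set σ := Metric.infDist x (closure (Final.dom Φ)) with hσ
  have hσ0 : 0 < σ := (isClosed_closure.notMem_iff_infDist_pos hne).1 hx
  have hb : Bornology.IsBounded (Metric.thickening (σ / 2) (closure (Final.dom Φ))) :=
    (domF_bdd (Φ := Φ)).closure.thickening
  have h1 := F.Dom.s_out (Final.dom Φ) δ N p S jordF hA
    (Metric.thickening (σ / 2) (closure (Final.dom Φ))) Metric.isOpen_thickening hb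
    (Metric.self_subset_thickening (half_pos hσ0) _)
  have h2 : ∀ᶠ n in atTop, δ n < σ / 4 := hA.lim.eventually (gt_mem_nhds (by positivity))
  filter_upwards [h1, h2] with n g1 g2 v hv hin
  have h3 := g1 (Finset.mem_coe.1 hin)
  rw [mem_Vs (hA.pos n) hb] at h3
  have hδ := hA.pos n
  have h4 := h3 (Metric.mem_closedBall_self (by linarith))
  obtain ⟨y, hy, h5⟩ := Metric.mem_thickening_iff.1 h4
  have h6 := ng_near hδ hv
  have h7 := Metric.infDist_le_dist_of_mem hy (x := x)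
  have h8 := dist_triangle_left x y (dp (δ n) v)
  linarith

/-- The parameters of the vertices of the polygons. -/
theorem ev_par (h : Final.Approx Φ δ N k p S) {ε : ℝ} (hε : 0 < ε) :
    ∀ᶠ n in atTop, ∃ s : ℕ → ℝ, Monotone s ∧ s 0 = 0 ∧ s (N n) = 2 * Real.pi ∧
      (∀ i : ZMod (N n), dist (dp (δ n) (p n i)) (Φ (Final.circ (s i.val))) < ε) ∧
      ∀ i < N n, ∀ t ∈ Icc (s i) (s (i + 1)),
        dist (dp (δ n) (p n i)) (Φ (Final.circ t)) < ε := by
  filter_upwards [h.2.2.1 ε hε] with n hn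
  obtain ⟨s, hs, hs0, -, hsN, hdist⟩ := hn
  have hNn : 2 < N n := (h.1 n).2.2.2.1.1
  have : NeZero (N n) := ⟨by omega⟩
  refine ⟨s, hs, hs0, hsN, fun i => ?_, fun i hi t ht => ?_⟩
  · have h1 := hdist i.val i.val_lt (s i.val) ⟨le_rfl, hs (Nat.le_succ _)⟩
    rw [ZMod.natCast_zmod_val i, dp_pt] at h1
    exact h1
  · have h1 := hdist i hi t ht
    rwa [dp_pt] at h1

/-- **The lattice crosscuts of an approximation.** -/
theorem crosscut_ev (h : Final.Approx Φ δ N k p S) {t₀ : ℝ} (ht₀ : t₀ ∈ Ioo 0 (2 * Real.pi))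
    {ρ : ℝ} (hρ : 0 < ρ) : ∃ r : ℝ, 0 < r ∧ ∀ᶠ n in atTop, ∃ (Q : Set Pt) (q : Pt), q ∈ Q ∧
      Q ⊆ inn (p n) (S n) ∧ (∃ o, Adj q o ∧ o ∉ inn (p n) (S n)) ∧ (∀ v ∈ Q, Conn Q q v) ∧
      (∀ v ∈ Q, r ≤ dist (dp (δ n) v) (Φ (Final.circ t₀))) ∧
      ∀ a b : Pt, a ∈ inn (p n) (S n) → dist (dp (δ n) a) (Φ (Final.circ t₀)) < r →
        ρ ≤ dist (dp (δ n) b) (Φ (Final.circ t₀)) → ¬ Conn (inn (p n) (S n) \ Q) a b := by
  have hA := approxF h
  obtain ⟨t₁, t₂, t₃, t₄, d, r, x₀, x₁, x₂, E, F, Y, h23, hd, hr, hx₀, hE, hF, harc, hY, hYr, hYb,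
    hYE, hYc⟩ := exists_crosscut Φ ht₀ (ρ := ρ / 2) (half_pos hρ)
  set z := Φ (Final.circ t₀) with hz
  have hzY : z ∈ Y := hYr z (by rw [dist_self]; exact hr)
  refine ⟨min r (d / 2), lt_min hr (half_pos hd), ?_⟩
  have hε : 0 < min (d / 2) (ρ / 8) := lt_min (half_pos hd) (by positivity)
  have h2 : ∀ᶠ n in atTop, δ n < min (d / 16) (ρ / 64) :=
    hA.lim.eventually (gt_mem_nhds (lt_min (by positivity) (by positivity)))
  filter_upwards [ev_par h hε, h2, ev_ng_in h hx₀, ev_ng_out h hE.out, ev_ng_out h hF.out]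
    with n g1 g2 g3 g4 g5
  obtain ⟨s, hs, hs0, hsN, hdist, -⟩ := g1
  have hδ := hA.pos n
  obtain ⟨g2a, g2b⟩ := lt_min_iff.1 g2
  have e1 : min (d / 2) (ρ / 8) ≤ d / 2 := min_le_left _ _
  have e2 : min (d / 2) (ρ / 8) ≤ ρ / 8 := min_le_right _ _
  obtain ⟨Q, q, k1, k2, k3, k4, k5, k6⟩ := cross_n hδ (h.1 n).2.2.2.1 (h.1 n).2.2.2.2 hs hs0 hsN
    hdist h23 (by linarith) hE hF harc hY hYr hYb hYE hYc (by linarith) g3 g4 g5
  refine ⟨Q, q, k1, k2, k3, k4, fun v hv => ?_, fun a b ha har hb => ?_⟩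
  · obtain ⟨e, he, h3⟩ := k5 v hv
    have h4 := hYE z hzY e he
    have h5 := dist_triangle_left z e (dp (δ n) v)
    have h6 : min r (d / 2) ≤ d / 2 := min_le_right _ _
    linarith
  · exact k6 a b ha (har.trans_le (min_le_left _ _)) hb

end Vale.Agent.P153.R2.FLDI
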