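import Vale.Agent.P153.R2.FLDI.Conn6
import Vale.Agent.P153.R2.LOC.Mir
import Vale.Agent.P153.R2.LOC.Link

/-!
P153, two-arc boundary values, block FLDI, input S_conn, part 7: S_conn from MULT.
-/

set_option autoImplicit false

namespace Vale.Agent.P153.R2.FLDI

open Filter Topology Set
open Vale.Agent.P145.PT Vale.Agent.P153 Vale.Agent.P153.F.Top
open Vale.Agent.P153.Topo (Conn)
open Vale.Agent.P153.R2.LOC (NO Co Co_subset TW ds mem_bx_iff ds_adj multW_ne S_land)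
open Vale.Agent.P153.R2.POLY (rp)

variable {Φ : (ℝ × ℝ) ≃ₜ (ℝ × ℝ)} {δ : ℕ → ℝ} {N k : ℕ → ℕ}
  {p : ∀ n, ZMod (N n) → ℤ × ℤ} {S : ℕ → Finset ((ℤ × ℤ) × Bool)}

/-- From the sup distance to the distance. -/
theorem dist_le_ds {δ : ℝ} (hδ : 0 < δ) {v w : Pt} {r : ℤ} (h : ds v w ≤ r) :
    dist (dp δ w) (dp δ v) ≤ 3 / 2 * δ * r := by
  unfold ds at h
  rw [max_le_iff] at h
  refine dist_le_lc hδ ?_ ?_
  · rw [lc_dp hδ, lc_dp hδ]
    have : |((w.1 - v.1 : ℤ) : ℝ)| ≤ r := by exact_mod_cast h.1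
    push_cast at this
    exact this
  · rw [lc_dp hδ, lc_dp hδ]
    have : |((w.2 - v.2 : ℤ) : ℝ)| ≤ r := by exact_mod_cast h.2
    push_cast at this
    exact this

/-- From the distance to the sup distance. -/
theorem ds_le_of_dist {δ : ℝ} (hδ : 0 < δ) {v w : Pt} {r : ℤ}
    (h : 2 * dist (dp δ w) (dp δ v) / δ ≤ r) : ds v w ≤ r := by
  obtain ⟨h1, h2⟩ := lc_le_dist hδ (dp δ w) (dp δ v)
  rw [lc_dp hδ, lc_dp hδ] at h1 h2
  have g1 : |((w.1 - v.1 : ℤ) : ℝ)| ≤ r := by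
    push_cast
    exact h1.trans h
  have g2 : |((w.2 - v.2 : ℤ) : ℝ)| ≤ r := by
    push_cast
    exact h2.trans h
  unfold ds
  exact max_le (by exact_mod_cast g1) (by exact_mod_cast g2)

/-- A vertex of the polygon near a boundary point. -/
theorem exists_seg {n : ℕ} {s : ℕ → ℝ} (hs : Monotone s) (hs0 : s 0 = 0)
    (hsn : s n = 2 * Real.pi) {t₀ : ℝ} (ht₀ : t₀ ∈ Ioo 0 (2 * Real.pi)) :
    ∃ i < n, t₀ ∈ Icc (s i) (s (i + 1)) := by
  classical
  have hex : ∃ i, t₀ < s i := ⟨n, by rw [hsn]; exact ht₀.2⟩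
  have h1 := Nat.find_spec hex
  have h2 : Nat.find hex ≠ 0 := by
    intro h0
    rw [h0, hs0] at h1
    linarith [ht₀.1]
  obtain ⟨i, hi⟩ := Nat.exists_eq_succ_of_ne_zero h2
  have h3 : ¬ t₀ < s i := Nat.find_min hex (by omega)
  refine ⟨i, ?_, not_lt.1 h3, ?_⟩
  · by_contra hcon
    have := hs (not_lt.1 hcon)
    rw [hsn] at this
    linarith [ht₀.2, not_lt.1 h3]
  · rw [hi] at h1
    exact h1.le

/-- Points of one component of `W` are joined inside the component. -/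
theorem conn_comp {W : Set Pt} {a x y : Pt} (hx : Conn W a x) (hy : Conn W a y) :
    Conn {v | Conn W a v} x y := by
  have key : ∀ y, Conn W a y → Conn {v | Conn W a v} a y := by
    intro y hy
    refine Conn.ind (S := W) (fun v => Conn {v | Conn W a v} a v)
      (Conn.refl (Conn.refl hy.left_mem)) ?_ hy
    intro u w hu huw hw ih
    exact ih.tail huw (hu.tail huw hw)
  exact (key x hx).symm.trans (key y hy)

/-- **S_conn** from the landing statement. -/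
theorem s_conn_of (hL : S_land (0 + 2)) : S_conn := by
  intro Φ δ N k p S h c z hz ρ ε hρ hε
  have hA := approxF h
  obtain ⟨t, ht, ρ₀, hρ₀, H⟩ := multW_ne 0 hL ε hε
  -- the boundary point
  obtain ⟨t₀, ht₀, rfl⟩ : ∃ t₀ ∈ Ioo 0 (2 * Real.pi), Φ (Final.circ t₀) = z := by
    have hpi := Real.pi_pos
    rcases hz with ⟨-, t₀, ht₀, rfl⟩ | ⟨-, t₀, ht₀, rfl⟩
    · exact ⟨t₀, ⟨ht₀.1, by linarith [ht₀.2]⟩, rfl⟩
    · exact ⟨t₀, ⟨by linarith [ht₀.1], ht₀.2⟩, rfl⟩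
  set z := Φ (Final.circ t₀) with hzd
  have hc : c = 1 ∨ c = -1 := by
    rcases hz with h | h
    · exact Or.inl h.1
    · exact Or.inr h.1
  obtain ⟨r₁, hr₁, hcross⟩ := crosscut_ev h ht₀ hρ
  obtain ⟨ρ₂, hρ₂, hdat⟩ := data_near h hz
  have ht' : (1 : ℝ) ≤ t := by exact_mod_cast ht
  -- the radii
  set r₃ : ℝ := min r₁ ρ₂ / 4 with hr₃
  have hr₃0 : 0 < r₃ := by
    rw [hr₃]
    exact div_pos (lt_min hr₁ hρ₂) (by norm_num)
  have hr₃1 : 4 * r₃ ≤ r₁ := by
    rw [hr₃]; linarith [min_le_left r₁ ρ₂]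
  have hr₃2 : 4 * r₃ ≤ ρ₂ := by
    rw [hr₃]; linarith [min_le_right r₁ ρ₂]
  set r : ℝ := r₃ / (16 * t) with hr
  have hr0 : 0 < r := by positivity
  have hrt : 16 * t * r = r₃ := by
    rw [hr]
    field_simp
  have hrr : 16 * r ≤ r₃ := by
    rw [← hrt]
    nlinarith
  refine ⟨r, hr0, fun x hx hxz => ?_⟩
  have hdx : 0 < dd (Final.dom Φ) x := (dd_pos domF_open domF_bdd).2 hx
  have hdz : dd (Final.dom Φ) x ≤ dist x z :=
    Metric.infDist_le_dist_of_mem (circ_not_mem (Φ := Φ) t₀)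
  have hball : Metric.closedBall x (3 / 4 * dd (Final.dom Φ) x) ⊆ Final.dom Φ := by
    intro y hy
    by_contra hcon
    have h1 : dd (Final.dom Φ) x ≤ dist x y := Metric.infDist_le_dist_of_mem hcon
    rw [Metric.mem_closedBall, dist_comm] at hy
    linarith
  set m := min (dd (Final.dom Φ) x / 16) (min (r₃ / (2 * (t + 2))) (4 * r / (ρ₀ + 1))) with hm
  have hρ₀' : (1 : ℝ) ≤ ρ₀ := by exact_mod_cast hρ₀
  have hm0 : 0 < m := by
    refine lt_min (by positivity) (lt_min (by positivity) (by positivity))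
  have hδm : ∀ᶠ n in atTop, δ n < m := hA.lim.eventually (gt_mem_nhds hm0)
  filter_upwards [hcross, hdat, ev_par h hr0, hδm,
    ev_inner h (isCompact_closedBall x (3 / 4 * dd (Final.dom Φ) x)) hball] with n g1 g2 g3 g4 g5
  have hδ := hA.pos n
  obtain ⟨g4a, g4b⟩ := lt_min_iff.1 g4
  obtain ⟨g4b, g4c⟩ := lt_min_iff.1 g4b
  have hp := (h.1 n).2.2.2.1
  have hS := (h.1 n).2.2.2.2
  have : NeZero (N n) := ⟨by have := hp.1; omega⟩
  have e1 : δ n * (t + 2) ≤ r₃ / 2 := by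
    rw [lt_div_iff₀ (by positivity)] at g4b
    linarith
  have e2 : δ n * (ρ₀ + 1) ≤ 4 * r := by
    rw [lt_div_iff₀ (by positivity)] at g4c
    linarith
  have e3 : 3 * δ n ≤ r₃ / 2 := by
    nlinarith
  obtain ⟨Q, q, hqQ, hQV, hqo, hQc, hQz, hQcut⟩ := g1
  obtain ⟨s, hs, hs0, hsN, -, hdist⟩ := g3
  obtain ⟨i, hi, hit⟩ := exists_seg hs hs0 hsN ht₀
  have hx₀z : dist (dp (δ n) (p n i)) z < r := hdist i hi t₀ hit
  set V := inn (p n) (S n) with hV
  set x₀ : Pt := p n i with hx₀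
  have hx₀V : x₀ ∉ V := fun hin => (F.Dom.dl_inner.1 (Finset.mem_coe.1 hin)).2 _ rfl
  -- the lattice radii
  set ρL : ℤ := ⌈8 * r / δ n⌉ with hρL
  set R : ℤ := ⌊r₃ / δ n⌋ with hR
  have hρL1 : 8 * r / δ n ≤ ρL := Int.le_ceil _
  have hρL2 : (ρL : ℝ) < 8 * r / δ n + 1 := Int.ceil_lt_add_one _
  have hR1 : (R : ℝ) ≤ r₃ / δ n := Int.floor_le _
  have hR2 : r₃ / δ n < R + 1 := Int.lt_floor_add_one _
  have k1 : ρ₀ ≤ ρL := by
    have h1 : (ρ₀ : ℝ) ≤ ρL := by
      refine le_trans ?_ hρL1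
      rw [le_div_iff₀ hδ]
      nlinarith
    exact_mod_cast h1
  have k2 : t * ρL ≤ R := by
    have h1 : (t * ρL : ℝ) < R + 1 := by
      refine lt_of_le_of_lt ?_ hR2
      rw [le_div_iff₀ hδ]
      have h2 : (ρL : ℝ) * δ n ≤ 8 * r + δ n := by
        have h3 : (ρL : ℝ) * δ n ≤ (8 * r / δ n + 1) * δ n :=
          mul_le_mul_of_nonneg_right hρL2.le hδ.le
        rw [add_mul, div_mul_cancel₀ _ hδ.ne', one_mul] at h3
        exact h3
      calc (t : ℝ) * ρL * δ n = t * (ρL * δ n) := by ring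
        _ ≤ t * (8 * r + δ n) := mul_le_mul_of_nonneg_left h2 (by linarith)
        _ = r₃ / 2 + t * δ n := by rw [← hrt]; ring
        _ ≤ r₃ := by nlinarith
    have h2 : t * ρL < R + 1 := by exact_mod_cast h1
    omega
  have hRδ : 3 / 2 * δ n * (R + 1 : ℤ) ≤ 2 * r₃ := by
    have h1 : (R : ℝ) * δ n ≤ r₃ := by rwa [le_div_iff₀ hδ] at hR1
    push_cast
    nlinarith
  -- vertices in the box of radius `R + 1`
  have hbox : ∀ v, ds x₀ v ≤ R + 1 → dist (dp (δ n) v) z < 4 * r₃ := by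
    intro v hv
    have h1 := dist_le_ds hδ hv
    have h2 := dist_triangle (dp (δ n) v) (dp (δ n) x₀) z
    linarith
  -- the set `N`
  set E : Set (ℝ × ℝ) := Metric.closedBall x (dd (Final.dom Φ) x / 2) with hE
  have hEc : IsPreconnected E := (convex_closedBall x _).isPreconnected
  have hxE : x ∈ E := Metric.mem_closedBall_self (by positivity)
  have hEV : nrd (δ n) E ⊆ V ∩ bx x₀ ρL := by
    intro v hv
    obtain ⟨e, he, h1⟩ := nrd_near hδ hv
    have he' : dist e x ≤ dd (Final.dom Φ) x / 2 := Metric.mem_closedBall.1 he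
    have h2 := dist_triangle (dp (δ n) v) e x
    refine ⟨Finset.mem_coe.2 (g5 v (Metric.mem_closedBall.2 ?_)), ?_⟩
    · linarith
    · rw [mem_bx_iff]
      refine ds_le_of_dist hδ (le_trans ?_ hρL1)
      refine div_le_div_of_nonneg_right ?_ hδ.le
      have h3 := dist_triangle (dp (δ n) v) x z
      have h4 := dist_triangle_right (dp (δ n) v) (dp (δ n) x₀) z
      linarith
  obtain ⟨a₀, -, ha₀⟩ := exists_nrd (δ := δ n) hxE
  set NN : Set Pt := {v | Conn (V ∩ bx x₀ ρL) a₀ v} with hNN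
  have hρL0 : 0 ≤ ρL := by omega
  have hx₀b : x₀ ∈ bx x₀ ρL := by
    rw [mem_bx_iff]
    unfold ds
    simpa using hρL0
  obtain ⟨p₀, o, c1, c2, c3, c4⟩ := first_exit (V := V)
    (PLAN.cn_bx x₀ ρL a₀ (hEV ha₀).2 x₀ hx₀b) (hEV ha₀).1 hx₀V
  have hp₀N : p₀ ∈ NN := by
    show Conn (V ∩ bx x₀ ρL) a₀ p₀
    rw [inter_comm]
    exact c1
  have hp₀ : NO V p₀ := ⟨hp₀N.right_mem.1, o, c2, c4⟩
  -- the walls
  have hcfg : (Cfg V (exa V (dat (p n) (k n)))).Nonempty := ca_ne (polyF hp) (enclF hS) (k n)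
  have key := H c V V x₀ ρL R p₀ (dat (p n) (k n)) NN Q
    (by rcases hc with rfl | rfl <;> decide)
    ⟨Finset.finite_toSet _, PLAN.CC_inner (polyF hp) (enclF hS), Subset.rfl, hcfg,
      fun v hv _ => (Co_subset hv).1⟩
    (fun v _ => by
      rcases dat_pm (p := p n) (k n) v with h1 | h1 <;> rcases hc with rfl | rfl <;>
        rw [h1] <;> norm_num)
    (fun v hv w hw hwv _ => by
      obtain ⟨j, rfl⟩ := inn_out hS (Co_subset hw).1 hwv hv
      refine g2 j ?_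
      have h1 := (Co_subset hw).2
      rw [mem_bx_iff] at h1
      have h2 := ds_adj (x₀ := x₀) hwv
      rw [abs_le] at h2
      linarith [hbox (p n j) (by omega)])
    hx₀V k1 k2 hp₀ hp₀N (fun v hv => hv.right_mem.1) (fun v hv => hv.right_mem.2)
    (fun v hv => conn_comp hp₀N hv) hQV
    (by
      rw [Set.disjoint_left]
      intro v hv hvC
      have h1 := (Co_subset hvC).2
      rw [mem_bx_iff] at h1
      linarith [hQz v hv, hbox v (by omega)])
    (fun v hv w hw => (hQc v hv).symm.trans (hQc w hw))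
  refine (Pr_mono fun g hg hfar => ?_).trans key
  obtain ⟨a, b, ha, hb, hab⟩ := hfar
  have haE : a ∈ nrd (δ n) E := mem_nrd_self hδ (Metric.mem_closedBall.2 ha)
  have haN : a ∈ NN := (conn_nrd hEc ha₀ haE).mono hEV
  rcases conn_meet (Q := Q) hab with h1 | ⟨y, hy, h1⟩
  · exfalso
    have h3 : Conn (V \ Q) a b := by
      refine Conn.mono ?_ h1
      intro v hv
      exact ⟨hv.1.1, hv.2⟩
    refine hQcut a b (hEV haE).1 ?_ hb h3
    have h2 := dist_triangle (dp (δ n) a) x z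
    linarith
  · refine ⟨a, haN, y, hy, Conn.mono ?_ h1⟩
    intro v hv
    exact Or.inl ⟨hv.1, hv.2⟩

/-- **S_conn** from the landing statement of block LAND. -/
theorem s_conn (hL : LAND.S_land 2) : S_conn := s_conn_of (LOC.s_land_of (by norm_num) hL)

end Vale.Agent.P153.R2.FLDI
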