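import Vale.Agent.P153.Bd5.B18

/-!
P153, two-arc boundary values, block FLDI: the interface between the lattice blocks and the
identification of the limit, for heights with exact boundary values.
-/

set_option autoImplicit false

namespace Vale.Agent.P153.R2.FLDI

open Filter Topology Set MeasureTheory
open Vale.Agent.P145.PT Vale.Agent.P153 Vale.Agent.P153.F.Top

/-- `u` is smooth and harmonic in the open set `D`. -/
structure Harm (D : Set (ℝ × ℝ)) (u : ℝ × ℝ → ℝ) : Prop where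
  smooth : ContDiffOn ℝ ((⊤ : ℕ∞) : WithTop ℕ∞) u D
  lapz : ∀ z ∈ D, lap u z = 0

/-- `u` is bounded and harmonic in `D`, with the boundary values `s` off the finite set `E` of
exceptional points. -/
structure Dirichlet (D : Set (ℝ × ℝ)) (E : Finset (ℝ × ℝ)) (s : ℝ × ℝ → ℝ) (u : ℝ × ℝ → ℝ) :
    Prop where
  harm : Harm D u
  bdd : ∃ K : ℝ, ∀ z ∈ D, |u z| ≤ K
  bv : ∀ z ∈ frontier D, z ∉ E → Tendsto u (𝓝[D] z) (𝓝 (s z))

/-- The facts about the lattice laws `μ n` (of the heights at the inner vertices) which identify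
the limit along the ultrafilter `U`. `E` are the marked points, `s` the boundary values. -/
structure Arc (κ : ℝ) (δ : ℕ → ℝ) (B : ℕ → Finset (ℤ × ℤ)) (μ : ℕ → Measure Om)
    (D : Set (ℝ × ℝ)) (E : Finset (ℝ × ℝ)) (s : ℝ × ℝ → ℝ) (U : Ultrafilter ℕ) : Prop where
  κpos : 0 < κ
  op : IsOpen D
  bdd : Bornology.IsBounded D
  out : ∀ e ∈ E, e ∉ D
  mom : ∀ n, Mom (μ n)
  /-- Boundedness of the moments (from the coupling with the free boundary values). -/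
  mb : ∀ f, TestOn D f → ∀ k : ℕ, ∃ C : ℝ, ∀ᶠ n in (U : Filter ℕ),
    ∫ ω, hB (B n) (δ n) f ω ^ (2 * k) ∂(μ n) ≤ C
  /-- `L²` bound (coupling). -/
  l2 : ∃ C : ℝ, 0 ≤ C ∧ ∀ f, TestOn D f → ∀ ε : ℝ, 0 < ε → ∀ᶠ n in (U : Filter ℕ),
    ∫ ω, hB (B n) (δ n) f ω ^ 2 ∂(μ n) ≤ C * (∫ z, f z ^ 2) + ε
  /-- Second moments of the averages over Whitney balls (coupling). -/
  vb : ∃ K : ℝ, 0 ≤ K ∧ ∀ x ∈ D, ∀ᶠ n in (U : Filter ℕ),
    ∫ ω, hB (B n) (δ n) (bump (dd D x / 2) x) ω ^ 2 ∂(μ n) ≤ K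
  /-- The mean is harmonic. -/
  sd0 : ∀ ψ, TestOn D ψ → Tendsto (fun n => ∫ ω, hB (B n) (δ n) (lap ψ) ω ∂(μ n)) U (𝓝 0)
  /-- The Schwinger-Dyson equations. -/
  sd : ∀ ψ f, TestOn D ψ → TestOn D f → ∀ k : ℕ,
    Tendsto (fun n => sdE κ (B n) (δ n) (μ n) ψ f k) U (𝓝 0)
  /-- Boundary values: near the boundary point `z` the field is close to `s z`. -/
  bv : ∀ z ∈ frontier D, z ∉ E → ∀ f, TestOn D f → ∀ (k : ℕ) (ε : ℝ), 0 < ε → ∃ r : ℝ, 0 < r ∧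
    ∀ x ∈ D, dist x z < r → ∀ᶠ n in (U : Filter ℕ),
      |∫ ω, (hB (B n) (δ n) (bump (dd D x / 2) x) ω - s z) * hB (B n) (δ n) f ω ^ k ∂(μ n)| ≤ ε

/-- The output of the block: the limit of the mean is the solution of the Dirichlet problem, and
the centred moments are Gaussian in the limit. -/
def S_field : Prop := ∀ (κ : ℝ) (δ : ℕ → ℝ) (B : ℕ → Finset (ℤ × ℤ)) (μ : ℕ → Measure Om)
  (D : Set (ℝ × ℝ)) (E : Finset (ℝ × ℝ)) (s : ℝ × ℝ → ℝ) (U : Ultrafilter ℕ),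
  Arc κ δ B μ D E s U → ∃ u : ℝ × ℝ → ℝ, Dirichlet D E s u ∧ ∀ f, TestOn D f →
    Tendsto (fun n => ∫ ω, hB (B n) (δ n) f ω ∂(μ n)) U (𝓝 (∫ z, u z * f z)) ∧
    ∀ k : ℕ, Tendsto (fun n => ∫ ω, (hB (B n) (δ n) f ω - ∫ z, u z * f z) ^ k ∂(μ n)) U
      (𝓝 (gm (κ * V D f) k))

/-- Uniqueness for the Dirichlet problem with finitely many exceptional points. -/
def S_uniq : Prop := ∀ (D : Set (ℝ × ℝ)) (E : Finset (ℝ × ℝ)) (s : ℝ × ℝ → ℝ)
  (u v : ℝ × ℝ → ℝ), IsOpen D → Bornology.IsBounded D → (∀ e ∈ E, e ∉ D) →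
  Dirichlet D E s u → Dirichlet D E s v → ∀ z ∈ D, u z = v z

/-- The capacity bound for the averages over Whitney balls. -/
def S_whit : Prop := ∃ K : ℝ, 0 ≤ K ∧ ∀ D : Set (ℝ × ℝ), IsOpen D → Bornology.IsBounded D →
  IsConnected Dᶜ → ∀ x ∈ D, V D (bump (dd D x / 2) x) ≤ K

end Vale.Agent.P153.R2.FLDI
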