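import Vale.Agent.P153.R2.FLDI.Max
import Vale.Agent.P153.R2.FLDI.Bd

/-!
The Dirichlet problem with smooth boundary values, for domains with connected complement
(Dirichlet's principle; the boundary values come from the capacity bound of Whitney balls).
-/

set_option autoImplicit false

namespace Vale.Agent.P153.R2.FLDI

open Filter Topology Set MeasureTheory
open Vale.Agent.P145.PT Vale.Agent.P153 Vale.Agent.P153.F.Top

/-- The energy of a sum. -/
theorem energy_comb {D : Set (ℝ × ℝ)} {f g : ℝ × ℝ → ℝ} (hf : TestOn D f) (hg : TestOn D g)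
    (t : ℝ) : energy (fun z => f z + t * g z) =
      energy f - 2 * t * (∫ z, f z * lap g z) + t ^ 2 * energy g := by
  rw [energy_eq (hf.add (hg.smul t)), energy_eq hf, energy_eq hg]
  have hl : ∀ z, lap (fun z => f z + t * g z) z = lap f z + t * lap g z := by
    intro z
    rw [lap_add hf.sm (hg.smul t).sm, lap_smul hg.sm]
  have e1 : ∫ z, (f z + t * g z) * lap (fun z => f z + t * g z) z =
      (∫ z, f z * lap f z) + t * (∫ z, f z * lap g z) + t * (∫ z, g z * lap f z) +
        t ^ 2 * ∫ z, g z * lap g z := by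
    have i1 : Integrable fun z => f z * lap f z := hf.intMul hf.lap.cont
    have i2 : Integrable fun z => t * (f z * lap g z) := (hf.intMul hg.lap.cont).const_mul t
    have i3 : Integrable fun z => t * (g z * lap f z) := (hg.intMul hf.lap.cont).const_mul t
    have i4 : Integrable fun z => t ^ 2 * (g z * lap g z) :=
      (hg.intMul hg.lap.cont).const_mul (t ^ 2)
    have i12 : Integrable fun z => f z * lap f z + t * (f z * lap g z) := i1.add i2
    have i123 : Integrable fun z => f z * lap f z + t * (f z * lap g z) + t * (g z * lap f z) :=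
      i12.add i3
    rw [← integral_const_mul, ← integral_const_mul, ← integral_const_mul,
      ← integral_add i1 i2, ← integral_add i12 i3, ← integral_add i123 i4]
    congr 1
    funext z
    rw [hl]
    ring
  rw [e1, lap_swap hg hf]
  ring

/-- Near-maximisers of the functional in the definition of `V`. -/
structure NM (D : Set (ℝ × ℝ)) (g : ℝ × ℝ → ℝ) (η : ℝ) (φ : ℝ × ℝ → ℝ) : Prop where
  test : TestOn D φ
  near : V D g ≤ (2 * ∫ z, g z * φ z) - energy φ + η

section

variable {D : Set (ℝ × ℝ)} {g φ φ' ψ : ℝ × ℝ → ℝ} {η η' : ℝ}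

theorem exists_NM (g : ℝ × ℝ → ℝ) (hη : 0 < η) : ∃ φ, NM D g η φ := by
  have : Nonempty {ψ : ℝ × ℝ → ℝ // TestOn D ψ} := ⟨⟨_, TestOn.zero D⟩⟩
  obtain ⟨ψ, hψ⟩ := exists_lt_of_lt_ciSup (show V D g - η < V D g by linarith)
  exact ⟨ψ.1, ψ.2, by linarith⟩

theorem NM.orth (h : NM D g η φ) (hb : Bornology.IsBounded D) (hg : TestOn univ g)
    (hψ : TestOn D ψ) :
    ((∫ z, g z * ψ z) + ∫ z, φ z * lap ψ z) ^ 2 ≤ η * energy ψ := by
  set c := (∫ z, g z * ψ z) + ∫ z, φ z * lap ψ z with hc
  have key : ∀ t : ℝ, 0 ≤ energy ψ * (t * t) + (-(2 * c)) * t + η := by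
    intro t
    have h1 := le_V hb hg (h.test.add (hψ.smul t))
    have h2 := energy_comb h.test hψ t
    have h3 : ∫ z, g z * (φ z + t * ψ z) = (∫ z, g z * φ z) + t * ∫ z, g z * ψ z := by
      have i1 : Integrable fun z => g z * φ z := hg.intMul h.test.cont
      have i2 : Integrable fun z => t * (g z * ψ z) := (hg.intMul hψ.cont).const_mul t
      rw [← integral_const_mul, ← integral_add i1 i2]
      congr 1
      funext z
      ring
    rw [h2, h3] at h1
    have h4 := h.near
    rw [hc]
    nlinarith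
  have h5 := discrim_le_zero key
  unfold discrim at h5
  nlinarith

theorem NM.energy_sub (h : NM D g η φ) (h' : NM D g η' φ') (hb : Bornology.IsBounded D)
    (hg : TestOn univ g) (hη : 0 ≤ η) (hη' : 0 ≤ η') :
    energy (fun z => φ z - φ' z) ≤ 2 * (η + η') := by
  have hψ : TestOn D fun z => φ z - φ' z := h.test.sub h'.test
  have h1 := h.orth hb hg hψ
  have h2 := h'.orth hb hg hψ
  set ψ : ℝ × ℝ → ℝ := fun z => φ z - φ' z with hψd
  have e1 : energy ψ = -((∫ z, φ z * lap ψ z) - ∫ z, φ' z * lap ψ z) := by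
    rw [energy_eq hψ, ← integral_sub (h.test.intMul hψ.lap.cont) (h'.test.intMul hψ.lap.cont)]
    congr 2
    funext z
    rw [hψd]
    ring
  set c1 := (∫ z, g z * ψ z) + ∫ z, φ z * lap ψ z with hc1
  set c2 := (∫ z, g z * ψ z) + ∫ z, φ' z * lap ψ z with hc2
  have e2 : energy ψ = c2 - c1 := by
    rw [e1, hc1, hc2]
    ring
  have h0 := energy_nonneg ψ
  rcases h0.eq_or_lt with h0 | h0
  · rw [← h0]
    positivity
  · have h3 : energy ψ ^ 2 ≤ 2 * (η + η') * energy ψ := by
      have : energy ψ ^ 2 = (c2 - c1) ^ 2 := by rw [← e2]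
      rw [this]
      nlinarith [sq_nonneg (c1 + c2)]
    nlinarith

theorem NM.energy_le (h : NM D g η φ) (hb : Bornology.IsBounded D) (hg : TestOn univ g) :
    energy φ ≤ 4 * V D g + 2 * η := by
  have h1 := pair_le hb hg h.test
  have hV := V_nonneg hb hg
  have he := energy_nonneg φ
  have h2 : 2 * (∫ z, g z * φ z) ≤ energy φ / 2 + 2 * V D g := by
    refine le_of_abs_le (abs_le_of_sq_le_sq ?_ (by positivity))
    nlinarith [sq_nonneg (energy φ / 2 - 2 * V D g)]
  have h3 := h.near
  linarith

end

/-- **The Dirichlet problem** with smooth boundary values. -/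
theorem dir_smooth {D : Set (ℝ × ℝ)} (hD : IsOpen D) (hb : Bornology.IsBounded D)
    (hc : IsConnected Dᶜ) {G : ℝ × ℝ → ℝ} (hG : TestOn univ G) : ∃ u, Dirichlet D ∅ G u := by
  obtain ⟨K, hK0, hK⟩ := s_whit
  have hg : TestOn univ (lap G) := hG.lap
  choose φ hφ using fun n : ℕ => exists_NM (D := D) (lap G) (η := 1 / ((n : ℝ) + 1)) (by positivity)
  set M : ℝ := 4 * V D (lap G) + 2 with hM
  have hV0 := V_nonneg hb hg
  have hM0 : 0 ≤ M := by positivity
  have hη1 : ∀ n : ℕ, 1 / ((n : ℝ) + 1) ≤ 1 := fun n => by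
    rw [div_le_one (by positivity)]
    have : (0 : ℝ) ≤ n := Nat.cast_nonneg n
    linarith
  have hen : ∀ n, energy (φ n) ≤ M := fun n => by
    have h1 := (hφ n).energy_le hb hg
    have h2 := hη1 n
    rw [hM]
    linarith
  obtain ⟨B, hB⟩ := hG.cont.bounded_above_of_compact_support hG.cs
  have hB0 : 0 ≤ B := (norm_nonneg _).trans (hB 0)
  have hGf : ∀ f, TestOn D f → |∫ z, G z * f z| ≤ B * ∫ z, |f z| := fun f hf => by
    refine (abs_integral_le_integral_abs).trans ?_
    rw [← integral_const_mul]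
    refine integral_mono (hG.intMul hf.cont).abs (hf.int.abs.const_mul B) fun z => ?_
    simp only
    rw [abs_mul]
    exact mul_le_mul_of_nonneg_right (hB z) (abs_nonneg _)
  have hφf : ∀ n f, TestOn D f → |∫ z, φ n z * f z| ≤ Real.sqrt (V D f * M) := fun n f hf => by
    refine Real.abs_le_sqrt ?_
    have h1 := pair_le hb hf (hφ n).test
    have e1 : ∫ z, φ n z * f z = ∫ z, f z * φ n z := by
      congr 1
      funext z
      ring
    rw [e1]
    exact h1.trans (mul_le_mul_of_nonneg_left (hen n) (V_nonneg hb hf))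
  have hsplit : ∀ n f, TestOn D f →
      ∫ z, (G z + φ n z) * f z = (∫ z, G z * f z) + ∫ z, φ n z * f z := fun n f hf => by
    have i1 : Integrable fun z => G z * f z := hG.intMul hf.cont
    have i2 : Integrable fun z => φ n z * f z := (hφ n).test.intMul hf.cont
    rw [← integral_add i1 i2]
    congr 1
    funext z
    ring
  have hbd : ∀ n f, TestOn D f →
      |∫ z, (G z + φ n z) * f z| ≤ B * (∫ z, |f z|) + Real.sqrt (V D f * M) := fun n f hf => by
    rw [hsplit n f hf]
    exact (abs_add_le _ _).trans (add_le_add (hGf f hf) (hφf n f hf))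
  let U : Ultrafilter ℕ := hyperfilter ℕ
  have hUt : (U : Filter ℕ) ≤ atTop := by
    rw [← Nat.cofinite_eq_atTop]
    exact hyperfilter_le_cofinite
  set T : (ℝ × ℝ → ℝ) → ℝ := fun f => lm U fun n => ∫ z, (G z + φ n z) * f z with hT
  have ht : ∀ f, TestOn D f → Tendsto (fun n => ∫ z, (G z + φ n z) * f z) U (𝓝 (T f)) :=
    fun f hf => tend_lm (Eventually.of_forall fun n => hbd n f hf)
  obtain ⟨C1, hC1, hV1⟩ := V_le_sq hb
  obtain ⟨C2, hC2, hL1⟩ := l1_le_sq hb
  have hTL : L2Fn D T (B * Real.sqrt C2 + Real.sqrt (C1 * M)) := by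
    refine ⟨fun f g hf hg => ?_, fun c f hf => ?_, fun f hf => ?_⟩
    · refine lm_eq (((ht f hf).add (ht g hg)).congr fun n => ?_)
      have i1 : Integrable fun z => (G z + φ n z) * f z :=
        ((hG.intMul hf.cont).add ((hφ n).test.intMul hf.cont)).congr
          (ae_of_all _ fun z => by simp only [Pi.add_apply]; ring)
      have i2 : Integrable fun z => (G z + φ n z) * g z :=
        ((hG.intMul hg.cont).add ((hφ n).test.intMul hg.cont)).congr
          (ae_of_all _ fun z => by simp only [Pi.add_apply]; ring)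
      rw [← integral_add i1 i2]
      congr 1
      funext z
      ring
    · refine lm_eq (((ht f hf).const_mul c).congr fun n => ?_)
      rw [← integral_const_mul]
      congr 1
      funext z
      ring
    · refine le_of_tendsto (ht f hf).abs (Eventually.of_forall fun n => (hbd n f hf).trans ?_)
      have h1 : ∫ z, |f z| ≤ Real.sqrt C2 * Real.sqrt (∫ z, f z ^ 2) := by
        rw [← Real.sqrt_mul hC2]
        exact Real.le_sqrt_of_sq_le (hL1 f hf)
      have h2 : Real.sqrt (V D f * M) ≤ Real.sqrt (C1 * M) * Real.sqrt (∫ z, f z ^ 2) := by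
        rw [← Real.sqrt_mul (by positivity)]
        refine Real.sqrt_le_sqrt ?_
        have := mul_le_mul_of_nonneg_right (hV1 f hf) hM0
        linarith
      have h3 := mul_le_mul_of_nonneg_left h1 hB0
      rw [add_mul]
      linarith
  have hweak : ∀ ψ, TestOn D ψ → T (lap ψ) = 0 := by
    intro ψ hψ
    refine lm_eq (Tendsto.mono_left ?_ hUt)
    have h1 : ∀ n, ‖∫ z, (G z + φ n z) * lap ψ z‖ ≤
        Real.sqrt (1 / ((n : ℝ) + 1) * energy ψ) := fun n => by
      rw [Real.norm_eq_abs]
      refine Real.abs_le_sqrt ?_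
      have h2 := (hφ n).orth hb hg hψ
      have h3 : ∫ z, lap G z * ψ z = ∫ z, G z * lap ψ z := by
        rw [lap_swap hG (hψ.mono (subset_univ _))]
        congr 1
        funext z
        ring
      rw [h3] at h2
      rw [hsplit n _ hψ.lap]
      exact h2
    refine squeeze_zero_norm h1 ?_
    have h4 := ((tendsto_one_div_add_atTop_nhds_zero_nat (𝕜 := ℝ)).mul_const (energy ψ)).sqrt
    rw [zero_mul, Real.sqrt_zero] at h4
    exact h4
  obtain ⟨hH, hrep⟩ := uT_spec hD hb hTL hweak
  refine ⟨uT D T, hH, ⟨B + Real.sqrt (K * M), fun x hx => ?_⟩, fun z hz _ => ?_⟩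
  · have hbt := bump_test' hD hb hx
    have hx0 : 0 < dd D x := (dd_pos hD hb).2 hx
    refine le_of_tendsto (ht _ hbt).abs (Eventually.of_forall fun n => (hbd n _ hbt).trans ?_)
    rw [vol_bump (by positivity), mul_one]
    have := Real.sqrt_le_sqrt (mul_le_mul_of_nonneg_right (hK D hD hb hc x hx) hM0)
    linarith
  · rw [Metric.tendsto_nhds]
    intro ε hε
    -- continuity of `G`
    obtain ⟨r1, hr1, hGr⟩ := Metric.continuousAt_iff.1 (hG.cont.continuousAt (x := z)) (ε / 4)
      (by positivity)
    -- choice of `m`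
    obtain ⟨m, hm⟩ : ∃ m : ℕ, Real.sqrt (K * (4 * (1 / ((m : ℝ) + 1)))) < ε / 4 := by
      have h4 : Tendsto (fun m : ℕ => Real.sqrt (K * (4 * (1 / ((m : ℝ) + 1))))) atTop (𝓝 0) := by
        have h5 := (((tendsto_one_div_add_atTop_nhds_zero_nat (𝕜 := ℝ)).const_mul 4).const_mul
          K).sqrt
        simpa using h5
      exact (h4.eventually (gt_mem_nhds (by positivity))).exists
    -- distance to the support of `φ m`
    have hzD : z ∉ D := by
      rw [hD.frontier_eq] at hz
      exact hz.2
    obtain ⟨r2, hr2, hφr⟩ : ∃ r2 : ℝ, 0 < r2 ∧ ∀ y, dist y z < r2 → φ m y = 0 := by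
      have hzn : z ∈ (tsupport (φ m))ᶜ := fun h => hzD ((hφ m).test.2.2 h)
      obtain ⟨r2, h3, h4⟩ := Metric.isOpen_iff.1 (isClosed_tsupport (φ m)).isOpen_compl z hzn
      refine ⟨r2, h3, fun y hy => ?_⟩
      by_contra hne
      exact h4 hy (subset_tsupport _ hne)
    rw [eventually_nhdsWithin_iff, Metric.eventually_nhds_iff]
    refine ⟨min r1 r2 / 2, by positivity, fun x hxz hx => ?_⟩
    have hx0 : 0 < dd D x := (dd_pos hD hb).2 hx
    have hbt := bump_test' hD hb hx
    have hdx : dd D x ≤ dist x z := Metric.infDist_le_dist_of_mem hzD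
    have hnear : ∀ y, bump (dd D x / 2) x y ≠ 0 → dist y z < min r1 r2 := fun y hy => by
      have h1 := (bump_mem hD hb hx hy).2
      have h2 := dist_triangle y x z
      linarith
    have hGavg : |(∫ y, G y * bump (dd D x / 2) x y) - G z| ≤ ε / 4 := by
      refine bump_avg hD hb hG.1.contDiffOn hx fun y hy hyx => ?_
      have h2 := dist_triangle y x z
      have h3 := hGr (x := y) (by
        have := min_le_left r1 r2
        linarith)
      rw [Real.dist_eq] at h3
      exact h3.le
    have hφ0 : ∫ y, φ m y * bump (dd D x / 2) x y = 0 := by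
      rw [← integral_zero (ℝ × ℝ) ℝ]
      congr 1
      funext y
      by_cases hy : bump (dd D x / 2) x y = 0
      · rw [hy, mul_zero]
      · rw [hφr y (lt_of_lt_of_le (hnear y hy) (min_le_right _ _)), zero_mul]
    have hlim := ht _ hbt
    have hfin : |T (bump (dd D x / 2) x) - G z| ≤ ε / 2 := by
      refine le_of_tendsto (hlim.sub_const (G z)).abs ?_
      filter_upwards [hUt (eventually_ge_atTop m)] with n hn
      rw [hsplit n _ hbt]
      have h5 : |∫ y, φ n y * bump (dd D x / 2) x y| ≤
          Real.sqrt (K * (4 * (1 / ((m : ℝ) + 1)))) := by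
        have e1 : ∫ y, φ n y * bump (dd D x / 2) x y =
            ∫ y, bump (dd D x / 2) x y * (φ n y - φ m y) := by
          have e2 : ∀ y, bump (dd D x / 2) x y * (φ n y - φ m y) =
            φ n y * bump (dd D x / 2) x y - φ m y * bump (dd D x / 2) x y := fun y => by ring
          simp_rw [e2]
          rw [integral_sub ((hφ n).test.intMul hbt.cont) ((hφ m).test.intMul hbt.cont), hφ0,
            sub_zero]
        rw [e1]
        refine Real.abs_le_sqrt ?_
        refine (pair_le hb hbt ((hφ n).test.sub (hφ m).test)).trans ?_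
        have h6 := (hφ n).energy_sub (hφ m) hb hg (by positivity) (by positivity)
        have h7 : 1 / ((n : ℝ) + 1) ≤ 1 / ((m : ℝ) + 1) := by
          refine one_div_le_one_div_of_le (by positivity) ?_
          have : (m : ℝ) ≤ n := by exact_mod_cast hn
          linarith
        exact mul_le_mul (hK D hD hb hc x hx) (by linarith) (energy_nonneg _) hK0
      have h8 : |(∫ y, G y * bump (dd D x / 2) x y) + (∫ y, φ n y * bump (dd D x / 2) x y) - G z| ≤
          |(∫ y, G y * bump (dd D x / 2) x y) - G z| + |∫ y, φ n y * bump (dd D x / 2) x y| := by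
        have e3 : (∫ y, G y * bump (dd D x / 2) x y) + (∫ y, φ n y * bump (dd D x / 2) x y) - G z =
          ((∫ y, G y * bump (dd D x / 2) x y) - G z) + ∫ y, φ n y * bump (dd D x / 2) x y := by ring
        rw [e3]
        exact abs_add_le _ _
      linarith
    rw [Real.dist_eq]
    exact lt_of_le_of_lt hfin (by linarith)

end Vale.Agent.P153.R2.FLDI
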