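import Vale.Agent.P153.R2.FLDI.Dir
import Vale.Agent.P153.R2.FLDI.ArcOf

/-!
The Dirichlet problem with the boundary values of the two arcs.
-/

set_option autoImplicit false

namespace Vale.Agent.P153.R2.FLDI

open Filter Topology Set MeasureTheory
open Vale.Agent.P145.PT Vale.Agent.P153 Vale.Agent.P153.F.Top

section Gen

variable {D : Set (ℝ × ℝ)} {E : Finset (ℝ × ℝ)} {s t u v : ℝ × ℝ → ℝ}

theorem Harm.const (D : Set (ℝ × ℝ)) (c : ℝ) : Harm D fun _ => c where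
  smooth := contDiffOn_const
  lapz z _ := by
    have h1 := lap_smul (f := fun _ : ℝ × ℝ => (1 : ℝ)) contDiff_const c z
    have h2 : lap (fun _ : ℝ × ℝ => (1 : ℝ)) z = 0 := by
      unfold lap dx dy
      simp
    rw [h2, mul_zero] at h1
    simpa using h1

theorem Dirichlet.const (D : Set (ℝ × ℝ)) (E : Finset (ℝ × ℝ)) (c : ℝ) :
    Dirichlet D E (fun _ => c) fun _ => c where
  harm := Harm.const D c
  bdd := ⟨|c|, fun _ _ => le_rfl⟩
  bv _ _ _ := tendsto_const_nhds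

theorem Dirichlet.comb (hD : IsOpen D) (hb : Bornology.IsBounded D) (hu : Dirichlet D E s u)
    (hv : Dirichlet D E t v) (c : ℝ) :
    Dirichlet D E (fun z => s z + c * t z) fun z => u z + c * v z where
  harm := hu.harm.comb hD hb hv.harm c
  bdd := by
    obtain ⟨K1, h1⟩ := hu.bdd
    obtain ⟨K2, h2⟩ := hv.bdd
    refine ⟨K1 + |c| * K2, fun z hz => (abs_add_le _ _).trans ?_⟩
    rw [abs_mul]
    exact add_le_add (h1 z hz) (mul_le_mul_of_nonneg_left (h2 z hz) (abs_nonneg c))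
  bv z hz hE := (hu.bv z hz hE).add ((hv.bv z hz hE).const_mul c)

/-- Comparison. -/
theorem Dirichlet.le (hD : IsOpen D) (hb : Bornology.IsBounded D) (hE : ∀ e ∈ E, e ∉ D)
    (hu : Dirichlet D E s u) (hv : Dirichlet D E t v)
    (h : ∀ z ∈ frontier D, z ∉ E → s z ≤ t z) : ∀ x ∈ D, u x ≤ v x := by
  have hw := hu.comb hD hb hv (-1)
  obtain ⟨K, hK⟩ := hw.bdd
  intro x hx
  have h1 := max_prin hD hb hE hw.harm hK (fun z hz hzE ε hε => by
    obtain ⟨r, hr, h2⟩ := hw.near hz hzE hε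
    refine ⟨r, hr, fun y hy hyz => ?_⟩
    have h3 := (abs_le.1 (h2 y hy hyz)).2
    have h4 := h z hz hzE
    linarith) x hx
  linarith

end Gen

/-- A cutoff. -/
theorem exists_box (R : ℝ) : ∃ χ : ℝ × ℝ → ℝ, TestOn univ χ ∧ (∀ z, 0 ≤ χ z ∧ χ z ≤ 1) ∧
    ∀ z ∈ Metric.ball (0 : ℝ × ℝ) R, χ z = 1 := by
  obtain ⟨χ, h1, h2, h3, h4⟩ := exists_cutoff (Metric.ball (0 : ℝ × ℝ) (R + 2))
    (show (1 / 2 : ℝ) < 1 by norm_num)
  have hzero : ∀ z, z ∉ Metric.ball (0 : ℝ × ℝ) (R + 2) → χ z = 0 := fun z hz => by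
    refine h3 z ?_
    have : dd (Metric.ball (0 : ℝ × ℝ) (R + 2)) z ≤ dist z z :=
      Metric.infDist_le_dist_of_mem hz
    rw [dist_self] at this
    linarith
  refine ⟨χ, ⟨h1, ?_, subset_univ _⟩, h2, fun z hz => h4 z ?_⟩
  · refine HasCompactSupport.intro (K := Metric.closedBall (0 : ℝ × ℝ) (R + 2))
      (ProperSpace.isCompact_closedBall _ _) fun z hz => hzero z fun h => hz ?_
    exact Metric.ball_subset_closedBall h
  · have hne : (Metric.ball (0 : ℝ × ℝ) (R + 2))ᶜ.Nonempty := compl_ne Metric.isBounded_ball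
    unfold dd
    rw [Metric.le_infDist hne]
    intro y hy
    rw [mem_compl_iff, Metric.mem_ball, not_lt, dist_zero_right] at hy
    rw [Metric.mem_ball, dist_zero_right] at hz
    have h5 : ‖y‖ - ‖z‖ ≤ dist z y := by
      rw [dist_comm, dist_eq_norm]
      exact norm_sub_norm_le y z
    linarith

/-- Smooth Urysohn functions with values `1` and `-1`. -/
theorem exists_pm {K1 K2 : Set (ℝ × ℝ)} (h1 : IsClosed K1) (h2 : IsClosed K2)
    (h12 : Disjoint K1 K2) {R : ℝ} (hR1 : K1 ⊆ Metric.ball 0 R) (hR2 : K2 ⊆ Metric.ball 0 R) :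
    ∃ G : ℝ × ℝ → ℝ, TestOn univ G ∧ (∀ z, |G z| ≤ 1) ∧ (∀ z ∈ K1, G z = 1) ∧
      ∀ z ∈ K2, G z = -1 := by
  obtain ⟨f, f0, f1, f2⟩ := exists_contMDiffMap_zero_one_of_isClosed (n := (⊤ : ℕ∞))
    (modelWithCornersSelf ℝ (ℝ × ℝ)) h2 h1 h12.symm
  obtain ⟨χ, hχ, hχ1, hχ2⟩ := exists_box R
  have hfs : Sm fun z => 2 * f z - 1 :=
    (contDiff_const.mul f.contMDiff.contDiff).sub contDiff_const
  refine ⟨fun z => (2 * f z - 1) * χ z, hχ.mulSm hfs, fun z => ?_, fun z hz => ?_, fun z hz => ?_⟩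
  · rw [abs_mul]
    have h3 : |2 * f z - 1| ≤ 1 := by
      rw [abs_le]
      constructor <;> linarith [(f2 z).1, (f2 z).2]
    have h4 : |χ z| ≤ 1 := by
      rw [abs_of_nonneg (hχ1 z).1]
      exact (hχ1 z).2
    calc |2 * f z - 1| * |χ z| ≤ 1 * 1 := mul_le_mul h3 h4 (abs_nonneg _) zero_le_one
      _ = 1 := one_mul 1
  · have h3 : f z = 1 := f1 hz
    show (2 * f z - 1) * χ z = 1
    rw [h3, hχ2 z (hR1 hz)]
    norm_num
  · have h3 : f z = 0 := f0 hz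
    show (2 * f z - 1) * χ z = -1
    rw [h3, hχ2 z (hR2 hz)]
    norm_num

/-- A barrier at a boundary point. -/
theorem exists_bar {D : Set (ℝ × ℝ)} (hD : IsOpen D) (hb : Bornology.IsBounded D)
    (hc : IsConnected Dᶜ) (z : ℝ × ℝ) {ρ : ℝ} (hρ : 0 < ρ) :
    ∃ g h : ℝ × ℝ → ℝ, Dirichlet D ∅ g h ∧ g z = 0 ∧ (∀ y, 0 ≤ g y) ∧
      ∀ y ∈ frontier D, ρ ≤ dist y z → 2 ≤ g y := by
  obtain ⟨R, hR⟩ := (hb.closure).subset_ball (0 : ℝ × ℝ)
  obtain ⟨χ, hχ, hχ1, hχ2⟩ := exists_box R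
  have hs : Sm fun y => 2 / ρ ^ 2 * sqn (y - z) := contDiff_const.mul (sqn_sub_smooth z)
  obtain ⟨h, hh⟩ := dir_smooth hD hb hc (hχ.mulSm hs)
  refine ⟨_, h, hh, ?_, fun y => ?_, fun y hy hd => ?_⟩
  · have : sqn (z - z) = 0 := by
      unfold sqn
      simp
    rw [this]
    ring
  · have h0 : 0 ≤ sqn (y - z) := by
      have := norm_le_sqn (y - z)
      have := sq_nonneg ‖y - z‖
      linarith
    have := (hχ1 y).1
    positivity
  · rw [hχ2 y (hR (frontier_subset_closure hy)), mul_one]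
    have h1 := norm_le_sqn (y - z)
    rw [dist_eq_norm] at hd
    have h2 : ρ ^ 2 ≤ ‖y - z‖ ^ 2 := pow_le_pow_left₀ hρ.le hd 2
    rw [div_mul_eq_mul_div, le_div_iff₀ (by positivity)]
    linarith

section Arcs

variable {Φ : (ℝ × ℝ) ≃ₜ (ℝ × ℝ)}

/-- The closed arc of the angles in `[a, b]`. -/
def carc (Φ : (ℝ × ℝ) ≃ₜ (ℝ × ℝ)) (a b : ℝ) : Set (ℝ × ℝ) :=
  (fun t => Φ (Final.circ t)) '' Icc a b

theorem carc_cpt (a b : ℝ) : IsCompact (carc Φ a b) :=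
  isCompact_Icc.image (Φ.continuous.comp circ_cont)

theorem circ_two_pi : Final.circ (2 * Real.pi) = Final.circ 0 := by
  unfold Final.circ
  rw [Real.cos_two_pi, Real.sin_two_pi, Real.cos_zero, Real.sin_zero]

/-- The two closed arcs meet in the marked points only. -/
theorem carc_inter {z : ℝ × ℝ} (h1 : z ∈ carc Φ 0 Real.pi) (h2 : z ∈ carc Φ Real.pi (2 * Real.pi)) :
    z = Φ (Final.circ 0) ∨ z = Φ (Final.circ Real.pi) := by
  have hpi := Real.pi_pos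
  obtain ⟨t, ht, rfl⟩ := h1
  obtain ⟨s, hs, hst⟩ := h2
  have hst' := Φ.injective hst
  rcases eq_or_lt_of_le hs.2 with h | h
  · left
    simp only
    rw [← hst', h, circ_two_pi]
  · right
    have := circ_inj (s := s) (t := t) ⟨by linarith [hs.1], h⟩ ⟨ht.1, by linarith [ht.2]⟩ hst'
    simp only
    have e : t = Real.pi := by linarith [ht.2, hs.1]
    rw [e]

theorem arcPlus_sub {z : ℝ × ℝ} (h : z ∈ Final.arcPlus Φ) : z ∈ carc Φ 0 Real.pi := by
  obtain ⟨t, ht, rfl⟩ := h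
  exact ⟨t, ⟨ht.1.le, ht.2.le⟩, rfl⟩

theorem arcMinus_sub {z : ℝ × ℝ} (h : z ∈ Final.arcMinus Φ) :
    z ∈ carc Φ Real.pi (2 * Real.pi) := by
  obtain ⟨t, ht, rfl⟩ := h
  exact ⟨t, ⟨ht.1.le, ht.2.le⟩, rfl⟩

theorem frontier_carc {z : ℝ × ℝ} (h : z ∈ frontier (Final.dom Φ)) :
    z ∈ carc Φ 0 Real.pi ∨ z ∈ carc Φ Real.pi (2 * Real.pi) := by
  have hpi := Real.pi_pos
  rcases frontier_cases h with h | h | h | h
  · exact Or.inl (arcPlus_sub h)
  · exact Or.inr (arcMinus_sub h)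
  · exact Or.inl ⟨0, ⟨le_rfl, hpi.le⟩, h.symm⟩
  · exact Or.inl ⟨Real.pi, ⟨hpi.le, le_rfl⟩, h.symm⟩

theorem arcPlus_ne {z : ℝ × ℝ} (h : z ∈ Final.arcPlus Φ) :
    z ≠ Φ (Final.circ 0) ∧ z ≠ Φ (Final.circ Real.pi) := by
  have hpi := Real.pi_pos
  obtain ⟨t, ht, rfl⟩ := h
  constructor
  · intro e
    have := circ_inj (s := t) (t := 0) ⟨ht.1.le, by linarith [ht.2]⟩ ⟨le_rfl, by linarith⟩
      (Φ.injective e)
    linarith [ht.1]
  · intro e
    have := circ_inj (s := t) (t := Real.pi) ⟨ht.1.le, by linarith [ht.2]⟩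
      ⟨hpi.le, by linarith⟩ (Φ.injective e)
    linarith [ht.2]

theorem arcMinus_ne {z : ℝ × ℝ} (h : z ∈ Final.arcMinus Φ) :
    z ≠ Φ (Final.circ 0) ∧ z ≠ Φ (Final.circ Real.pi) := by
  have hpi := Real.pi_pos
  obtain ⟨t, ht, rfl⟩ := h
  constructor
  · intro e
    have := circ_inj (s := t) (t := 0) ⟨by linarith [ht.1], ht.2⟩ ⟨le_rfl, by linarith⟩
      (Φ.injective e)
    linarith [ht.1]
  · intro e
    have := circ_inj (s := t) (t := Real.pi) ⟨by linarith [ht.1], ht.2⟩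
      ⟨hpi.le, by linarith⟩ (Φ.injective e)
    linarith [ht.1]

/-- The points at distance at least `r` from the marked points. -/
def awy (Φ : (ℝ × ℝ) ≃ₜ (ℝ × ℝ)) (r : ℝ) : Set (ℝ × ℝ) :=
  {z | r ≤ dist z (Φ (Final.circ 0)) ∧ r ≤ dist z (Φ (Final.circ Real.pi))}

theorem awy_closed (r : ℝ) : IsClosed (awy Φ r) := by
  have h1 : Continuous fun z : ℝ × ℝ => dist z (Φ (Final.circ 0)) := by fun_prop
  have h2 : Continuous fun z : ℝ × ℝ => dist z (Φ (Final.circ Real.pi)) := by fun_prop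
  exact (isClosed_le continuous_const h1).inter (isClosed_le continuous_const h2)

/-- Smooth approximations of the boundary values. -/
theorem exists_data {r : ℝ} (hr : 0 < r) : ∃ G : ℝ × ℝ → ℝ, TestOn univ G ∧ (∀ z, |G z| ≤ 1) ∧
    (∀ z ∈ carc Φ 0 Real.pi, z ∈ awy Φ r → G z = 1) ∧
    ∀ z ∈ carc Φ Real.pi (2 * Real.pi), z ∈ awy Φ r → G z = -1 := by
  obtain ⟨R1, hR1⟩ := (carc_cpt (Φ := Φ) 0 Real.pi).isBounded.subset_ball (0 : ℝ × ℝ)
  obtain ⟨R2, hR2⟩ := (carc_cpt (Φ := Φ) Real.pi (2 * Real.pi)).isBounded.subset_ball (0 : ℝ × ℝ)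
  obtain ⟨G, h1, h2, h3, h4⟩ := exists_pm (K1 := carc Φ 0 Real.pi ∩ awy Φ r)
    (K2 := carc Φ Real.pi (2 * Real.pi) ∩ awy Φ r) (R := max R1 R2)
    ((carc_cpt _ _).isClosed.inter (awy_closed r)) ((carc_cpt _ _).isClosed.inter (awy_closed r))
    (by
      rw [Set.disjoint_left]
      rintro z ⟨g1, g2⟩ ⟨g3, -⟩
      rcases carc_inter g1 g3 with e | e
      · have := g2.1
        rw [← e, dist_self] at this
        linarith
      · have := g2.2
        rw [← e, dist_self] at this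
        linarith)
    (inter_subset_left.trans (hR1.trans (Metric.ball_subset_ball (le_max_left _ _))))
    (inter_subset_left.trans (hR2.trans (Metric.ball_subset_ball (le_max_right _ _))))
  exact ⟨G, h1, h2, fun z hz hza => h3 z ⟨hz, hza⟩, fun z hz hza => h4 z ⟨hz, hza⟩⟩

end Arcs

end Vale.Agent.P153.R2.FLDI
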