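import Vale.Agent.P153.R2.FLDI.Dir2

/-!
Existence for the Dirichlet problem with the boundary values of the two arcs.
-/

set_option autoImplicit false

namespace Vale.Agent.P153.R2.FLDI

open Filter Topology Set MeasureTheory
open Vale.Agent.P145.PT Vale.Agent.P153 Vale.Agent.P153.F.Top

variable {Φ : (ℝ × ℝ) ≃ₜ (ℝ × ℝ)}

/-- Near a point of an open arc the approximate data are exact. -/
theorem data_exact {c : ℤ} {z : ℝ × ℝ}
    (hz : c = 1 ∧ z ∈ Final.arcPlus Φ ∨ c = -1 ∧ z ∈ Final.arcMinus Φ) : ∃ ρ : ℝ, 0 < ρ ∧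
    ∀ (r : ℝ) (G : ℝ × ℝ → ℝ), r ≤ ρ → (∀ z ∈ carc Φ 0 Real.pi, z ∈ awy Φ r → G z = 1) →
      (∀ z ∈ carc Φ Real.pi (2 * Real.pi), z ∈ awy Φ r → G z = -1) →
      ∀ y ∈ frontier (Final.dom Φ), dist y z < ρ → G y = c := by
  have hne : z ≠ Φ (Final.circ 0) ∧ z ≠ Φ (Final.circ Real.pi) := by
    rcases hz with ⟨-, h⟩ | ⟨-, h⟩
    · exact arcPlus_ne h
    · exact arcMinus_ne h
  have ha : 0 < dist z (Φ (Final.circ 0)) := dist_pos.2 hne.1
  have hb : 0 < dist z (Φ (Final.circ Real.pi)) := dist_pos.2 hne.2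
  -- the distance to the other arc
  have key : ∀ C : Set (ℝ × ℝ), IsCompact C → z ∉ C → ∃ d : ℝ, 0 < d ∧ ∀ y ∈ C, d ≤ dist y z := by
    intro C hC hzC
    obtain ⟨d, hd, h⟩ := Metric.isOpen_iff.1 hC.isClosed.isOpen_compl z hzC
    refine ⟨d, hd, fun y hy => ?_⟩
    by_contra hcon
    push Not at hcon
    exact h hcon hy
  rcases hz with ⟨rfl, h⟩ | ⟨rfl, h⟩
  · obtain ⟨d, hd, hdC⟩ := key _ (carc_cpt (Φ := Φ) Real.pi (2 * Real.pi)) (fun hc => by
      rcases carc_inter (arcPlus_sub h) hc with e | e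
      · exact hne.1 e
      · exact hne.2 e)
    refine ⟨min d (min (dist z (Φ (Final.circ 0)) / 2) (dist z (Φ (Final.circ Real.pi)) / 2)),
      by positivity, fun r G hr h1 h2 y hy hyz => ?_⟩
    have hr1 := min_le_left d (min (dist z (Φ (Final.circ 0)) / 2)
      (dist z (Φ (Final.circ Real.pi)) / 2))
    have hr2 := min_le_right d (min (dist z (Φ (Final.circ 0)) / 2)
      (dist z (Φ (Final.circ Real.pi)) / 2))
    have hr3 := min_le_left (dist z (Φ (Final.circ 0)) / 2) (dist z (Φ (Final.circ Real.pi)) / 2)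
    have hr4 := min_le_right (dist z (Φ (Final.circ 0)) / 2) (dist z (Φ (Final.circ Real.pi)) / 2)
    have hyC : y ∈ carc Φ 0 Real.pi := by
      rcases frontier_carc hy with g | g
      · exact g
      · have := hdC y g
        linarith
    have e := h1 y hyC ⟨by
      have := dist_triangle z y (Φ (Final.circ 0))
      rw [dist_comm z y] at this
      linarith, by
      have := dist_triangle z y (Φ (Final.circ Real.pi))
      rw [dist_comm z y] at this
      linarith⟩
    rw [e]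
    norm_num
  · obtain ⟨d, hd, hdC⟩ := key _ (carc_cpt (Φ := Φ) 0 Real.pi) (fun hc => by
      rcases carc_inter hc (arcMinus_sub h) with e | e
      · exact hne.1 e
      · exact hne.2 e)
    refine ⟨min d (min (dist z (Φ (Final.circ 0)) / 2) (dist z (Φ (Final.circ Real.pi)) / 2)),
      by positivity, fun r G hr h1 h2 y hy hyz => ?_⟩
    have hr1 := min_le_left d (min (dist z (Φ (Final.circ 0)) / 2)
      (dist z (Φ (Final.circ Real.pi)) / 2))
    have hr2 := min_le_right d (min (dist z (Φ (Final.circ 0)) / 2)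
      (dist z (Φ (Final.circ Real.pi)) / 2))
    have hr3 := min_le_left (dist z (Φ (Final.circ 0)) / 2) (dist z (Φ (Final.circ Real.pi)) / 2)
    have hr4 := min_le_right (dist z (Φ (Final.circ 0)) / 2) (dist z (Φ (Final.circ Real.pi)) / 2)
    have hyC : y ∈ carc Φ Real.pi (2 * Real.pi) := by
      rcases frontier_carc hy with g | g
      · have := hdC y g
        linarith
      · exact g
    have e := h2 y hyC ⟨by
      have := dist_triangle z y (Φ (Final.circ 0))
      rw [dist_comm z y] at this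
      linarith, by
      have := dist_triangle z y (Φ (Final.circ Real.pi))
      rw [dist_comm z y] at this
      linarith⟩
    rw [e]
    norm_num

/-- **Existence.** -/
theorem exists_sol (Φ : (ℝ × ℝ) ≃ₜ (ℝ × ℝ)) : ∃ u, Dirichlet (Final.dom Φ) (Em Φ) (sv Φ) u ∧
    ∀ z ∈ Final.dom Φ, |u z| ≤ 1 := by
  have hD := domF_open (Φ := Φ)
  have hb := domF_bdd (Φ := Φ)
  have hc := domF_compl_conn (Φ := Φ)
  choose G hG hG1 hGp hGm using fun m : ℕ => exists_data (Φ := Φ) (r := 1 / ((m : ℝ) + 1))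
    (by positivity)
  choose u hu using fun m => dir_smooth hD hb hc (hG m)
  have hE0 : ∀ e ∈ (∅ : Finset (ℝ × ℝ)), e ∉ Final.dom Φ := fun e he =>
    absurd he (Finset.notMem_empty e)
  have hu1 : ∀ m, ∀ x ∈ Final.dom Φ, |u m x| ≤ 1 := fun m x hx => by
    rw [abs_le]
    constructor
    · exact (Dirichlet.const _ ∅ (-1)).le hD hb hE0 (hu m)
        (fun z _ _ => (abs_le.1 (hG1 m z)).1) x hx
    · exact (hu m).le hD hb hE0 (Dirichlet.const _ ∅ 1)
        (fun z _ _ => (abs_le.1 (hG1 m z)).2) x hx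
  let U : Ultrafilter ℕ := hyperfilter ℕ
  have hUt : (U : Filter ℕ) ≤ atTop := by
    rw [← Nat.cofinite_eq_atTop]
    exact hyperfilter_le_cofinite
  set T : (ℝ × ℝ → ℝ) → ℝ := fun f => lm U fun m => ∫ z, u m z * f z with hT
  have hbd : ∀ m f, TestOn (Final.dom Φ) f → |∫ z, u m z * f z| ≤ ∫ z, |f z| := fun m f hf => by
    refine (abs_integral_le_integral_abs).trans ?_
    refine integral_mono (TestOn.locInt hD hb (hu m).harm.smooth hf).abs hf.int.abs fun z => ?_
    simp only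
    rw [abs_mul]
    by_cases hz : f z = 0
    · rw [hz, abs_zero, mul_zero]
    · have := mul_le_mul_of_nonneg_right (hu1 m z (hf.2.2 (subset_tsupport _ hz)))
        (abs_nonneg (f z))
      rwa [one_mul] at this
  have ht : ∀ f, TestOn (Final.dom Φ) f → Tendsto (fun m => ∫ z, u m z * f z) U (𝓝 (T f)) :=
    fun f hf => tend_lm (Eventually.of_forall fun m => hbd m f hf)
  obtain ⟨C2, hC2, hL1⟩ := l1_le_sq hb
  have hTL : L2Fn (Final.dom Φ) T (Real.sqrt C2) := by
    refine ⟨fun f g hf hg => ?_, fun c f hf => ?_, fun f hf => ?_⟩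
    · refine lm_eq (((ht f hf).add (ht g hg)).congr fun m => ?_)
      rw [← integral_add (TestOn.locInt hD hb (hu m).harm.smooth hf)
        (TestOn.locInt hD hb (hu m).harm.smooth hg)]
      congr 1
      funext z
      ring
    · refine lm_eq (((ht f hf).const_mul c).congr fun m => ?_)
      rw [← integral_const_mul]
      congr 1
      funext z
      ring
    · refine le_of_tendsto (ht f hf).abs (Eventually.of_forall fun m => (hbd m f hf).trans ?_)
      rw [← Real.sqrt_mul hC2]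
      exact Real.le_sqrt_of_sq_le (hL1 f hf)
  have hweak : ∀ ψ, TestOn (Final.dom Φ) ψ → T (lap ψ) = 0 := fun ψ hψ =>
    lm_eq (tendsto_const_nhds.congr fun m => ((hu m).harm.weak hD hb hψ).symm)
  obtain ⟨hH, hrep⟩ := uT_spec hD hb hTL hweak
  have hpt : ∀ x ∈ Final.dom Φ, Tendsto (fun m => u m x) U (𝓝 (uT (Final.dom Φ) T x)) :=
    fun x hx => (ht _ (bump_test' hD hb hx)).congr fun m =>
      (hu m).harm.mv hD hb (hu1 m) hx
  have hle : ∀ x ∈ Final.dom Φ, |uT (Final.dom Φ) T x| ≤ 1 := fun x hx =>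
    le_of_tendsto (hpt x hx).abs (Eventually.of_forall fun m => hu1 m x hx)
  refine ⟨uT (Final.dom Φ) T, ⟨hH, ⟨1, hle⟩, fun z hz hzE => ?_⟩, hle⟩
  obtain ⟨c, hcv, hcz⟩ := bd_cases hz hzE
  have hc1 : (-1 : ℝ) ≤ c ∧ (c : ℝ) ≤ 1 := by
    rcases hcz with ⟨rfl, -⟩ | ⟨rfl, -⟩ <;> norm_num
  obtain ⟨ρ, hρ, hex⟩ := data_exact hcz
  obtain ⟨g, h, hgh, hgz, hg0, hg2⟩ := exists_bar hD hb hc z hρ
  -- comparison with the barrier
  have hcmp : ∀ x ∈ Final.dom Φ, |uT (Final.dom Φ) T x - c| ≤ h x := by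
    intro x hx
    refine le_of_tendsto ((hpt x hx).sub_const (c : ℝ)).abs ?_
    have h1 : ∀ᶠ m : ℕ in atTop, 1 / ((m : ℝ) + 1) < ρ :=
      (tendsto_one_div_add_atTop_nhds_zero_nat (𝕜 := ℝ)).eventually (gt_mem_nhds hρ)
    filter_upwards [hUt h1] with m hm
    have h2 : ∀ y ∈ frontier (Final.dom Φ), |G m y - c| ≤ g y := by
      intro y hy
      by_cases hyz : dist y z < ρ
      · rw [hex _ (G m) hm.le (hGp m) (hGm m) y hy hyz, sub_self, abs_zero]
        exact hg0 y
      · push Not at hyz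
        refine le_trans ?_ (hg2 y hy hyz)
        have h3 := abs_le.1 (hG1 m y)
        rw [abs_le]
        constructor <;> linarith [h3.1, h3.2, hc1.1, hc1.2]
    have h4 := (hu m).comb hD hb (Dirichlet.const _ ∅ (1 : ℝ)) (-(c : ℝ))
    have h5 : u m x + -(c : ℝ) * 1 ≤ h x := h4.le hD hb hE0 hgh (fun y hy _ => by
      have := (abs_le.1 (h2 y hy)).2
      linarith) x hx
    have h6 := (Dirichlet.const (Final.dom Φ) ∅ (c : ℝ)).comb hD hb (hu m) (-1)
    have h7 : (c : ℝ) + (-1) * u m x ≤ h x := h6.le hD hb hE0 hgh (fun y hy _ => by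
      have := (abs_le.1 (h2 y hy)).1
      linarith) x hx
    rw [abs_le]
    constructor <;> linarith
  rw [hcv, tendsto_iff_norm_sub_tendsto_zero]
  have h8 : Tendsto h (𝓝[Final.dom Φ] z) (𝓝 0) := by
    have := hgh.bv z hz (Finset.notMem_empty z)
    rwa [hgz] at this
  refine squeeze_zero' (Eventually.of_forall fun x => norm_nonneg _) ?_ h8
  filter_upwards [self_mem_nhdsWithin] with x hx
  rw [Real.norm_eq_abs]
  exact hcmp x hx

end Vale.Agent.P153.R2.FLDI
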