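import Vale.Agent.P153.R2.FLDI.ArcOf

/-!
The limit of the moments and of the field.
-/

set_option autoImplicit false

namespace Vale.Agent.P153.R2.FLDI

open Filter Topology Set MeasureTheory ProbabilityTheory
open Vale.Agent.P145.PT Vale.Agent.P153 Vale.Agent.P153.F.Top
open Vale.Agent.P153.F.Dom.Arcs (HeightsB)
open Vale.Agent.P153.F.Dom (inner)

variable {Φ : (ℝ × ℝ) ≃ₜ (ℝ × ℝ)} {δ : ℕ → ℝ} {N k : ℕ → ℕ}
  {p : ∀ n, ZMod (N n) → ℤ × ℤ} {S : ℕ → Finset ((ℤ × ℤ) × Bool)} {κ : ℝ}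

theorem int_congr {D : Set (ℝ × ℝ)} {u v f : ℝ × ℝ → ℝ} (hf : TestOn D f)
    (h : ∀ z ∈ D, u z = v z) : ∫ z, u z * f z = ∫ z, v z * f z := by
  congr 1
  funext z
  by_cases hz : f z = 0
  · rw [hz, mul_zero, mul_zero]
  · rw [h z (hf.2.2 (subset_tsupport _ hz))]

/-- The limits of the mean and of the centred moments. -/
theorem mom_lim (h : Final.Approx Φ δ N k p S) (hκ : 0 < κ) (hfree : S_free κ) (hsd : S_sdar κ)
    (hconn : S_conn) {u : ℝ × ℝ → ℝ} (hu : Dirichlet (Final.dom Φ) (Em Φ) (sv Φ) u)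
    {f : ℝ × ℝ → ℝ} (hf : TestOn (Final.dom Φ) f) :
    Tendsto (fun n => Ex (CA (p n) (k n) (S n)) fun g => hh (p n) (S n) (δ n) f g) atTop
      (𝓝 (∫ z, u z * f z)) ∧ ∀ j : ℕ,
    Tendsto (fun n => Ex (CA (p n) (k n) (S n)) fun g =>
      (hh (p n) (S n) (δ n) f g - ∫ z, u z * f z) ^ j) atTop
      (𝓝 (gm (κ * V (Final.dom Φ) f) j)) := by
  obtain ⟨R, hR⟩ := (domF_bdd (Φ := Φ)).subset_ball (0 : ℝ × ℝ)
  obtain ⟨μ, hμ⟩ := exists_mu h
  have hA := approxF h
  have e : ∀ n ω, hB (Bx (δ n) R) (δ n) f ω = hv (δ n) f ω :=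
    fun n ω => (hv_Bx (hA.pos n) (supp_ball hR hf) ω).symm
  have key : ∀ U : Ultrafilter ℕ, (U : Filter ℕ) ≤ atTop →
      Tendsto (fun n => ∫ ω, hB (Bx (δ n) R) (δ n) f ω ∂(μ n)) U (𝓝 (∫ z, u z * f z)) ∧
      ∀ j : ℕ, Tendsto (fun n => ∫ ω, (hB (Bx (δ n) R) (δ n) f ω - ∫ z, u z * f z) ^ j ∂(μ n)) U
        (𝓝 (gm (κ * V (Final.dom Φ) f) j)) := by
    intro U hU
    have A := arc_of h hκ hfree hsd hconn hR hμ hU
    obtain ⟨v, hv, hlim⟩ := s_field κ δ _ μ _ _ _ U A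
    have huv := s_uniq _ (Em Φ) (sv Φ) u v domF_open domF_bdd A.out hu hv
    rw [int_congr hf huv]
    exact hlim f hf
  constructor
  · rw [tendsto_iff_ultrafilter]
    intro U hU
    refine (key U hU).1.congr fun n => ?_
    rw [(hμ n).2]
    simp_rw [e n]
    rfl
  · intro j
    rw [tendsto_iff_ultrafilter]
    intro U hU
    refine ((key U hU).2 j).congr fun n => ?_
    rw [(hμ n).2]
    simp_rw [e n]
    rfl

/-! ### Comparison of the field with the Riemann sums -/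

/-- The second moment of a linear form for exact boundary values. -/
theorem arcs_lf {n : ℕ} {p : ZMod n → ℤ × ℤ} {S : Finset ((ℤ × ℤ) × Bool)} {ξ : ZMod n → ℤ}
    (hp : F.Dom.IsPolygon p) (hS : F.Dom.Encloses p S) (hξ : ∀ i, ξ i = 1 ∨ ξ i = -1)
    {d c : ℤ × ℤ → ℝ} {e : ℝ} (hd : ∀ v ∈ inner p S, |d v| ≤ e * c v) :
    Ex (HeightsB p S ξ) (fun h => lf (inner p S) d (vh (inner p S) h) ^ 2) ≤
      4 * (e ^ 2 * ze (inner p S) (fun ω => lf (inner p S) c ω ^ 2) +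
        (2 * e * ∑ v ∈ inner p S, c v) ^ 2) := by
  obtain ⟨hfin, hne, hprob, hint, hze⟩ := F.Dom.s_law p S hp hS
  set I := inner p S with hI
  set s : ℝ := e * ∑ v ∈ I, c v with hs
  have hm1 : Measurable fun h : ℤ × ℤ → ℤ => lf I d (vh I h) := by
    unfold lf
    exact Finset.measurable_sum _ fun v _ => (vh_meas I v).const_mul _
  have hs0 : ∑ v ∈ I, |d v| ≤ s := by
    rw [hs, Finset.mul_sum]
    exact Finset.sum_le_sum hd
  have hss : 0 ≤ s := (Finset.sum_nonneg fun _ _ => abs_nonneg _).trans hs0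
  have h1 := arcs_le hp hS hξ (F := fun h => lf I d (vh I h) ^ 2)
    (G := fun h => 4 ^ 1 * (lf I d (vh I h) ^ (2 * 1) + (2 * s) ^ (2 * 1)))
    (hm1.pow_const _) (((hm1.pow_const _).add_const _).const_mul _)
    (fun a b hab => by
      refine pow_close (k := 1) (c := 2 * s) (by positivity) ?_
      unfold lf
      rw [← Finset.sum_sub_distrib]
      refine (Finset.abs_sum_le_sum_abs _ _).trans ?_
      calc ∑ v ∈ I, |d v * vh I a v - d v * vh I b v| ≤ ∑ v ∈ I, 2 * |d v| := by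
            refine Finset.sum_le_sum fun v _ => ?_
            rw [← mul_sub, abs_mul, mul_comm]
            exact mul_le_mul_of_nonneg_right (vh_close I hab v) (abs_nonneg _)
        _ = 2 * ∑ v ∈ I, |d v| := by rw [Finset.mul_sum]
        _ ≤ 2 * s := by linarith)
  refine h1.trans ?_
  have h2 := unif_spec hfin hne
  have hpr := h2.1
  rw [← h2.2.2, integral_const_mul, integral_add (h2.2.1 _) (integrable_const _)]
  have h3 : ∫ h, lf I d (vh I h) ^ (2 * 1) ∂(uniformOn (F.Dom.Heights p S)) =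
      ze I (fun ω => lf I d ω ^ 2) := by
    rw [← hze (fun ω => lf I d ω ^ 2), JG.law_eq hp hS]
    rfl
  rw [h3]
  have h4 : |ze I (fun ω => lf I d ω ^ 2)| ≤ ze I (fun ω => lf I (fun v => e * c v) ω ^ 2) :=
    ((dm_lf hd).pow 2).ze_abs s_mono I
  have h5 : ze I (fun ω => lf I (fun v => e * c v) ω ^ 2) =
      e ^ 2 * ze I (fun ω => lf I c ω ^ 2) := by
    rw [← ze_smul']
    congr 1
    funext ω
    rw [← mul_pow]
    congr 1
    unfold lf
    rw [Finset.mul_sum]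
    exact Finset.sum_congr rfl fun v _ => by ring
  have h6 := le_of_abs_le h4
  rw [h5] at h6
  simp only [integral_const, probReal_univ, smul_eq_mul, one_mul]
  have h7 : 2 * e * ∑ v ∈ I, c v = 2 * s := by rw [hs]; ring
  rw [h7]
  norm_num
  linarith

end Vale.Agent.P153.R2.FLDI
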