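import Vale.Agent.P153.R2.FLDI.Fin1

/-!
The field and its Riemann sums have the same limit.
-/

set_option autoImplicit false

namespace Vale.Agent.P153.R2.FLDI

open Filter Topology Set MeasureTheory ProbabilityTheory
open Vale.Agent.P145.PT Vale.Agent.P153 Vale.Agent.P153.F.Top
open Vale.Agent.P153.F.Dom.Arcs (HeightsB)
open Vale.Agent.P153.F.Dom (inner)

variable {Φ : (ℝ × ℝ) ≃ₜ (ℝ × ℝ)} {δ : ℕ → ℝ} {N k : ℕ → ℕ}
  {p : ∀ n, ZMod (N n) → ℤ × ℤ} {S : ℕ → Finset ((ℤ × ℤ) × Bool)} {κ : ℝ}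

/-- The weights of the field. -/
theorem fld_wts (h : Final.Approx Φ δ N k p S) {φ : ℝ × ℝ → ℝ} (hφ : TestOn (Final.dom Φ) φ) :
    ∃ (ψ : ℝ × ℝ → ℝ) (d : ℕ → ℤ × ℤ → ℝ), TestOn (Final.dom Φ) ψ ∧ (∀ z, 0 ≤ ψ z) ∧
      ∀ᶠ n in atTop, (∀ v, |d n v| ≤ δ n * (δ n ^ 2 * tl ψ (δ n * v.1, δ n * v.2))) ∧
        ∀ g : ℤ × ℤ → ℤ, F.Dom.fld (S n) (δ n) φ g - hv (δ n) φ (vh (inner (p n) (S n)) g) =
          lf (inner (p n) (S n)) (d n) (vh (inner (p n) (S n)) g) := by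
  have hA := approxF h
  obtain ⟨C, K, w, hK, hKD, hw⟩ := F.Dom.s_fldO _ (domF_open (Φ := Φ)) δ N p S hA φ hφ
  obtain ⟨χ, hχ, hχ0, hχ1⟩ := exists_one (domF_open (Φ := Φ)) domF_bdd (hK.union hφ.2.1)
    (union_subset hKD hφ.2.2)
  have h3 : (0 : ℝ) < √3 := by positivity
  refine ⟨fun z => 2 / √3 * |C| * χ z, fun n v => w n v - δ n ^ 2 * tl φ (δ n * v.1, δ n * v.2),
    hχ.smul _, fun z => mul_nonneg (by positivity) (hχ0 z), ?_⟩
  filter_upwards [hw] with n hn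
  have hδ := hA.pos n
  obtain ⟨hn1, hn2, hn3, hn4⟩ := hn
  constructor
  · intro v
    rw [tl_dp (fun z => 2 / √3 * |C| * χ z)]
    by_cases hmem : dp (δ n) v ∈ K ∪ tsupport φ
    · rw [hχ1 _ hmem]
      refine (hn2 v).trans ?_
      have h1 := mul_le_mul_of_nonneg_right (le_abs_self C) (pow_pos hδ 3).le
      refine h1.trans (le_of_eq ?_)
      field_simp
    · have h1 : w n v = 0 := by
        by_contra hne
        exact hmem (Or.inl (hn1 v hne).2)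
      have h2 : φ (dp (δ n) v) = 0 := by
        by_contra hne
        exact hmem (Or.inr (subset_tsupport _ hne))
      rw [h1, tl_dp, h2, mul_zero, mul_zero, sub_zero, abs_zero]
      have := hχ0 (dp (δ n) v)
      positivity
  · intro g
    have e1 : hv (δ n) φ (vh (inner (p n) (S n)) g) = lf (inner (p n) (S n))
        (fun v => δ n ^ 2 * tl φ (δ n * v.1, δ n * v.2)) (vh (inner (p n) (S n)) g) :=
      hv_eq_lf (δ n) φ fun v hv => by
        unfold vh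
        rw [if_neg hv]
    rw [e1, hn4 g]
    unfold lf
    rw [← Finset.sum_sub_distrib]
    refine Finset.sum_congr rfl fun v hv => ?_
    have e2 : vh (inner (p n) (S n)) g v = g v := by
      unfold vh
      rw [if_pos hv]
    rw [e2]
    ring

/-- The difference of the field and its Riemann sums tends to zero in `L²`. -/
theorem fld_close (h : Final.Approx Φ δ N k p S) (hfree : S_free κ) {φ : ℝ × ℝ → ℝ}
    (hφ : TestOn (Final.dom Φ) φ) :
    Tendsto (fun n => Ex (HeightsB (p n) (S n) (xi (k n))) fun g =>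
      (F.Dom.fld (S n) (δ n) φ g - hv (δ n) φ (vh (inner (p n) (S n)) g)) ^ 2) atTop (𝓝 0) := by
  have hA := approxF h
  obtain ⟨R, hR⟩ := (domF_bdd (Φ := Φ)).subset_ball (0 : ℝ × ℝ)
  obtain ⟨ψ, d, hψ, hψ0, hd⟩ := fld_wts h hφ
  have h1 := hfree _ jordF δ N p S hA ψ hψ 2
  have h2 := riem_ab hψ.cont hψ.cs (supp_ball hR hψ) hA.pos hA.lim
  have h3 : Tendsto (fun n => 4 * (δ n ^ 2 * ze (inner (p n) (S n)) (fun ω => hv (δ n) ψ ω ^ 2) +
      (2 * δ n * ab (Bx (δ n) R) (δ n) ψ) ^ 2)) atTop (𝓝 0) := by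
    have h4 := (((hA.lim.pow 2).mul h1).add (((hA.lim.const_mul 2).mul h2).pow 2)).const_mul 4
    simpa using h4
  refine tendsto_of_tendsto_of_tendsto_of_le_of_le' tendsto_const_nhds h3
    (Eventually.of_forall fun n => Ex_nonneg fun _ _ => sq_nonneg _) ?_
  filter_upwards [hd] with n hn
  obtain ⟨hn1, hn2⟩ := hn
  have hδ := hA.pos n
  simp_rw [hn2]
  refine (arcs_lf (hA.poly n) (hA.encl n) (xi_pm (k n)) (e := δ n)
    (c := fun v => δ n ^ 2 * tl ψ (δ n * v.1, δ n * v.2)) (fun v _ => hn1 v)).trans ?_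
  have e1 : ze (inner (p n) (S n)) (fun ω => hv (δ n) ψ ω ^ 2) = ze (inner (p n) (S n))
      (fun ω => lf (inner (p n) (S n)) (fun v => δ n ^ 2 * tl ψ (δ n * v.1, δ n * v.2)) ω ^ 2) :=
    ze_congr fun ω hω => by rw [hv_eq_lf (δ n) ψ hω]
  rw [e1]
  have hc0 : ∀ v : ℤ × ℤ, 0 ≤ δ n ^ 2 * tl ψ (δ n * v.1, δ n * v.2) := fun v =>
    mul_nonneg (sq_nonneg _) (tl_nonneg hψ0 _)
  have h5 : ∑ v ∈ inner (p n) (S n), δ n ^ 2 * tl ψ (δ n * v.1, δ n * v.2) ≤
      ab (Bx (δ n) R) (δ n) ψ := by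
    classical
    have h6 : ∑ v ∈ inner (p n) (S n), δ n ^ 2 * tl ψ (δ n * v.1, δ n * v.2) ≤
        ∑ v ∈ Bx (δ n) R, δ n ^ 2 * tl ψ (δ n * v.1, δ n * v.2) := by
      rw [← Finset.sum_filter_ne_zero]
      refine Finset.sum_le_sum_of_subset_of_nonneg (fun v hv => ?_) fun v _ _ => hc0 v
      rw [Finset.mem_filter] at hv
      rw [mem_Bx hδ]
      refine supp_ball hR hψ _ fun h0 => hv.2 ?_
      rw [tl_dp, h0, mul_zero, mul_zero]
    refine h6.trans (le_of_eq ?_)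
    unfold ab
    rw [Finset.mul_sum]
    refine Finset.sum_congr rfl fun v _ => ?_
    rw [abs_of_nonneg (tl_nonneg hψ0 _)]
  have h7 : 0 ≤ 2 * δ n * ∑ v ∈ inner (p n) (S n), δ n ^ 2 * tl ψ (δ n * v.1, δ n * v.2) :=
    mul_nonneg (by positivity) (Finset.sum_nonneg fun v _ => hc0 v)
  have h8 : 2 * δ n * ∑ v ∈ inner (p n) (S n), δ n ^ 2 * tl ψ (δ n * v.1, δ n * v.2) ≤
      2 * δ n * ab (Bx (δ n) R) (δ n) ψ := mul_le_mul_of_nonneg_left h5 (by positivity)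
  have h9 := pow_le_pow_left₀ h7 h8 2
  linarith

/-! ### Convergence in law -/

theorem gm_scale (t v : ℝ) (k : ℕ) :
    gm (t ^ 2 * v) k = t ^ k * gm v k ∧ gm (t ^ 2 * v) (k + 1) = t ^ (k + 1) * gm v (k + 1) := by
  induction k with
  | zero =>
    refine ⟨?_, ?_⟩
    · have h0 : ∀ w : ℝ, gm w 0 = 1 := fun _ => rfl
      rw [h0, h0, pow_zero, mul_one]
    · have h0 : ∀ w : ℝ, gm w 1 = 0 := fun _ => rfl
      rw [zero_add, h0, h0, mul_zero]
  | succ k ih =>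
    refine ⟨ih.2, ?_⟩
    have h0 : ∀ w : ℝ, gm w (k + 1 + 1) = ((k : ℝ) + 1) * w * gm w k := fun _ => rfl
    rw [h0, h0, ih.1]
    ring

/-- Averages are integrals for the law. -/
theorem law_int (h : Final.Approx Φ δ N k p S) (n : ℕ) (G : (ℤ × ℤ → ℤ) → ℝ) :
    ∫ g, G g ∂(Final.law (p n) (k n) (S n)) = Ex (HeightsB (p n) (S n) (xi (k n))) G :=
  (lawF_spec (h.1 n).2.2.2.1 (h.1 n).2.2.2.2 (k n)).2.2 G

theorem law_prob (h : Final.Approx Φ δ N k p S) (n : ℕ) :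
    IsProbabilityMeasure (Final.law (p n) (k n) (S n)) :=
  (lawF_spec (h.1 n).2.2.2.1 (h.1 n).2.2.2.2 (k n)).1

theorem law_integrable (h : Final.Approx Φ δ N k p S) (n : ℕ) (G : (ℤ × ℤ → ℤ) → ℝ) :
    Integrable G (Final.law (p n) (k n) (S n)) :=
  (lawF_spec (h.1 n).2.2.2.1 (h.1 n).2.2.2.2 (k n)).2.1 G

/-- `(E |X|)² ≤ E X²`. -/
theorem Ex_abs_sq {T : Set (ℤ × ℤ → ℤ)} (hf : T.Finite) (hn : T.Nonempty)
    (X : (ℤ × ℤ → ℤ) → ℝ) : (Ex T fun g => |X g|) ^ 2 ≤ Ex T fun g => X g ^ 2 := by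
  have h := Ex_mul_sq_le hf (fun _ => 1) fun g => |X g|
  simp only [one_mul, one_pow, sq_abs] at h
  rwa [Ex_const hf hn, one_mul] at h

theorem fld_close1 (h : Final.Approx Φ δ N k p S) (hfree : S_free κ) {φ : ℝ × ℝ → ℝ}
    (hφ : TestOn (Final.dom Φ) φ) :
    Tendsto (fun n => Ex (HeightsB (p n) (S n) (xi (k n))) fun g =>
      |F.Dom.fld (S n) (δ n) φ g - hv (δ n) φ (vh (inner (p n) (S n)) g)|) atTop (𝓝 0) := by
  have hA := approxF h
  have h1 := fld_close h hfree hφ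
  have h2 := h1.sqrt
  rw [Real.sqrt_zero] at h2
  refine squeeze_zero (fun n => Ex_nonneg fun _ _ => abs_nonneg _) (fun n => ?_) h2
  exact Real.le_sqrt_of_sq_le (Ex_abs_sq (hB_fin (hA.poly n) (hA.encl n))
    (F.Dom.Arcs.heightsB_ne (hA.poly n) (hA.encl n) (xi_pm (k n))) _)

/-- The limit of the mean of the field. -/
theorem mean_lim (h : Final.Approx Φ δ N k p S) (hκ : 0 < κ) (hfree : S_free κ) (hsd : S_sdar κ)
    (hconn : S_conn) {u : ℝ × ℝ → ℝ} (hu : Dirichlet (Final.dom Φ) (Em Φ) (sv Φ) u)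
    {f : ℝ × ℝ → ℝ} (hf : TestOn (Final.dom Φ) f) :
    Tendsto (fun n => Final.mean (Final.law (p n) (k n) (S n)) (Final.fld (S n) (δ n) f)) atTop
      (𝓝 (∫ z, u z * f z)) := by
  have hA := approxF h
  have h1 := (mom_lim h hκ hfree hsd hconn hu hf).1
  have h2 := fld_close1 h hfree hf
  have h3 : Tendsto (fun n => Ex (HeightsB (p n) (S n) (xi (k n))) (fun g =>
      F.Dom.fld (S n) (δ n) f g - hv (δ n) f (vh (inner (p n) (S n)) g))) atTop (𝓝 0) := by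
    refine squeeze_zero_norm (fun n => ?_) h2
    rw [Real.norm_eq_abs, abs_le]
    constructor
    · rw [← Ex_neg]
      exact Ex_mono fun g _ => neg_abs_le _
    · exact Ex_mono fun g _ => le_abs_self _
  have h4 := h3.add h1
  rw [zero_add] at h4
  refine h4.congr fun n => ?_
  have e1 : Ex (CA (p n) (k n) (S n)) (fun g => hh (p n) (S n) (δ n) f g) =
      Ex (HeightsB (p n) (S n) (xi (k n))) fun g => hv (δ n) f (vh (inner (p n) (S n)) g) :=
    (ca_law (hA.poly n) (hA.encl n) (k n) (fun ω => hv (δ n) f ω)).symm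
  rw [e1, ← Ex_add]
  unfold Final.mean
  rw [law_int h]
  exact Ex_congr fun g _ => by rw [fldF]; ring

end Vale.Agent.P153.R2.FLDI
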