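import Vale.Agent.P153.R2.FLDI.Fin2

/-!
Convergence in law of the field.
-/

set_option autoImplicit false

namespace Vale.Agent.P153.R2.FLDI

open Filter Topology Set MeasureTheory ProbabilityTheory
open Vale.Agent.P145.PT Vale.Agent.P153 Vale.Agent.P153.F.Top
open Vale.Agent.P153.F.Dom.Arcs (HeightsB)
open Vale.Agent.P153.F.Dom (inner)

variable {Φ : (ℝ × ℝ) ≃ₜ (ℝ × ℝ)} {δ : ℕ → ℝ} {N k : ℕ → ℕ}
  {p : ∀ n, ZMod (N n) → ℤ × ℤ} {S : ℕ → Finset ((ℤ × ℤ) × Bool)} {κ : ℝ}

theorem exp_lip (a b : ℝ) :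
    ‖Complex.exp (Complex.I * (a : ℂ)) - Complex.exp (Complex.I * (b : ℂ))‖ ≤ |a - b| := by
  have e : Complex.exp (Complex.I * (a : ℂ)) - Complex.exp (Complex.I * (b : ℂ)) =
      Complex.exp (Complex.I * (b : ℂ)) * (Complex.exp (Complex.I * ((a - b : ℝ) : ℂ)) - 1) := by
    rw [mul_sub, mul_one, ← Complex.exp_add]
    congr 2
    push_cast
    ring
  rw [e, norm_mul, Complex.norm_exp_I_mul_ofReal, one_mul]
  exact Real.norm_exp_I_mul_ofReal_sub_one_le

/-- Convergence of the characteristic functions. -/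
theorem char_lim (h : Final.Approx Φ δ N k p S) (hκ : 0 < κ) (hfree : S_free κ) (hsd : S_sdar κ)
    (hconn : S_conn) {u : ℝ × ℝ → ℝ} (hu : Dirichlet (Final.dom Φ) (Em Φ) (sv Φ) u)
    {f : ℝ × ℝ → ℝ} (hf : TestOn (Final.dom Φ) f) (t : ℝ) :
    Tendsto (fun n => ∫ g, Complex.exp (Complex.I * ((t * Final.fld (S n) (δ n) f g : ℝ) : ℂ))
      ∂(Final.law (p n) (k n) (S n))) atTop
      (𝓝 (Complex.exp (Complex.I * ((t * ∫ z, u z * f z : ℝ) : ℂ)) *
        Complex.exp ((-(t ^ 2 * (κ * V (Final.dom Φ) f) / 2) : ℝ) : ℂ))) := by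
  have hA := approxF h
  set m : ℝ := ∫ z, u z * f z with hm
  set v : ℝ := κ * V (Final.dom Φ) f with hv
  have hprob := law_prob h
  set X : ℕ → (ℤ × ℤ → ℤ) → ℝ := fun n g => F.Top.hv (δ n) f (vh (inner (p n) (S n)) g) with hX
  have hmom : ∀ j : ℕ, Tendsto (fun n => ∫ g, (t * (X n g - m)) ^ j
      ∂(Final.law (p n) (k n) (S n))) atTop (𝓝 (gm (t ^ 2 * v) j)) := by
    intro j
    have h1 := ((mom_lim h hκ hfree hsd hconn hu hf).2 j).const_mul (t ^ j)
    rw [(gm_scale t v j).1]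
    refine h1.congr fun n => ?_
    rw [law_int h]
    have e1 : Ex (CA (p n) (k n) (S n)) (fun g => (hh (p n) (S n) (δ n) f g - m) ^ j) =
        Ex (HeightsB (p n) (S n) (xi (k n))) fun g => (X n g - m) ^ j :=
      (ca_law (hA.poly n) (hA.encl n) (k n) (fun ω => (F.Top.hv (δ n) f ω - m) ^ j)).symm
    rw [e1, ← Ex_const_mul]
    exact Ex_congr fun g _ => by rw [mul_pow]
  have h1 := charfun_of_moments (l := atTop) (fun n => Final.law (p n) (k n) (S n))
    (fun n g => t * (X n g - m)) (fun n j => law_integrable h n _) hmom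
  -- the shift
  have h2 : Tendsto (fun n => ∫ g, Complex.exp (Complex.I * ((t * X n g : ℝ) : ℂ))
      ∂(Final.law (p n) (k n) (S n))) atTop
      (𝓝 (Complex.exp (Complex.I * ((t * m : ℝ) : ℂ)) *
        Complex.exp ((-(t ^ 2 * v / 2) : ℝ) : ℂ))) := by
    refine (h1.const_mul (Complex.exp (Complex.I * ((t * m : ℝ) : ℂ)))).congr fun n => ?_
    rw [← integral_const_mul]
    congr 1
    funext g
    rw [← Complex.exp_add]
    congr 1
    push_cast
    ring
  -- the field
  have h3 : Tendsto (fun n => (∫ g, Complex.exp (Complex.I *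
      ((t * Final.fld (S n) (δ n) f g : ℝ) : ℂ)) ∂(Final.law (p n) (k n) (S n))) -
      ∫ g, Complex.exp (Complex.I * ((t * X n g : ℝ) : ℂ)) ∂(Final.law (p n) (k n) (S n)))
      atTop (𝓝 0) := by
    have h4 := (fld_close1 h hfree hf).const_mul |t|
    rw [mul_zero] at h4
    refine squeeze_zero_norm (fun n => ?_) h4
    have hi : ∀ Y : (ℤ × ℤ → ℤ) → ℝ, Integrable (fun g => Complex.exp (Complex.I * (Y g : ℂ)))
        (Final.law (p n) (k n) (S n)) := by
      intro Y
      have hYm : AEStronglyMeasurable Y (Final.law (p n) (k n) (S n)) :=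
        (law_integrable h n Y).aestronglyMeasurable
      refine Integrable.of_bound (C := 1) ?_ (ae_of_all _ fun g => ?_)
      · exact Complex.continuous_exp.comp_aestronglyMeasurable
          ((Complex.continuous_ofReal.comp_aestronglyMeasurable hYm).const_mul _)
      · rw [Complex.norm_exp_I_mul_ofReal]
    rw [← integral_sub (hi _) (hi _)]
    refine (norm_integral_le_integral_norm _).trans ?_
    rw [← Ex_const_mul, ← law_int h]
    refine integral_mono ((hi _).sub (hi _)).norm (law_integrable h n _) fun g => ?_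
    refine (exp_lip _ _).trans ?_
    rw [← mul_sub, abs_mul, fldF]
  have h5 := h3.add h2
  rw [zero_add] at h5
  exact h5.congr fun n => by ring

/-- Convergence in law to the Gaussian. -/
theorem to_gauss (h : Final.Approx Φ δ N k p S) (hκ : 0 < κ) (hfree : S_free κ) (hsd : S_sdar κ)
    (hconn : S_conn) {u : ℝ × ℝ → ℝ} (hu : Dirichlet (Final.dom Φ) (Em Φ) (sv Φ) u)
    {f : ℝ × ℝ → ℝ} (hf : TestOn (Final.dom Φ) f)
    (hprob : ∀ n, Final.Prob (Final.law (p n) (k n) (S n))) :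
    Final.ToGauss atTop (fun n => Final.law (p n) (k n) (S n)) hprob
      (fun n => Final.fld (S n) (δ n) f) (∫ z, u z * f z) (κ * Final.V (Final.dom Φ) f) := by
  have hv0 : 0 ≤ κ * V (Final.dom Φ) f := mul_nonneg hκ.le (V_nonneg domF_bdd hf)
  refine ⟨hv0, ?_⟩
  have hX : ∀ n, AEMeasurable (Final.fld (S n) (δ n) f) (Final.law (p n) (k n) (S n)) := fun n =>
    (law_integrable h n _).aestronglyMeasurable.aemeasurable
  refine ⟨hX, by fun_prop, ?_⟩
  refine ProbabilityMeasure.tendsto_of_tendsto_charFun fun t => ?_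
  simp only [ProbabilityMeasure.coe_mk, Measure.map_id]
  rw [charFun_gaussianReal]
  have h1 := char_lim h hκ hfree hsd hconn hu hf t
  rw [← Complex.exp_add] at h1
  have e1 : Complex.I * ((t * ∫ z, u z * f z : ℝ) : ℂ) +
      ((-(t ^ 2 * (κ * V (Final.dom Φ) f) / 2) : ℝ) : ℂ) =
      (t : ℂ) * ((∫ z, u z * f z : ℝ) : ℂ) * Complex.I -
        (((κ * Final.V (Final.dom Φ) f).toNNReal : ℝ) : ℂ) * (t : ℂ) ^ 2 / 2 := by
    rw [vF, Real.coe_toNNReal _ hv0]
    push_cast
    ring
  rw [e1] at h1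
  refine h1.congr fun n => ?_
  rw [charFun_apply_real, integral_map (hX n) (by fun_prop)]
  refine integral_congr_ae (ae_of_all _ fun g => ?_)
  simp only
  congr 1
  push_cast
  ring

end Vale.Agent.P153.R2.FLDI
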