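import Vale.Agent.P153.R2.FLDI.Fin3
import Vale.Agent.P153.R2.FLDI.Dir3
import Vale.Agent.P153.R2.FLDI.C2

/-!
The field theorem, from the Schwinger-Dyson equations and the boundary behaviour.
-/

set_option autoImplicit false

namespace Vale.Agent.P153.R2.FLDI

open Filter Topology Set MeasureTheory
open Vale.Agent.P145.PT Vale.Agent.P153 Vale.Agent.P153.F.Top

variable {Φ : (ℝ × ℝ) ≃ₜ (ℝ × ℝ)}

/-- The harmonic functions of the final statement solve the Dirichlet problem. -/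
theorem dir_of_isHarm {u : ℝ × ℝ → ℝ} (hu : Final.IsHarm Φ u) :
    Dirichlet (Final.dom Φ) (Em Φ) (sv Φ) u := by
  obtain ⟨h1, h2, h3, h4, h5⟩ := hu
  refine ⟨harm_of_c2 domF_open domF_bdd h1 h2 h3, ⟨1, h3⟩, fun z hz hzE => ?_⟩
  obtain ⟨c, hc, hcz⟩ := bd_cases hz hzE
  rw [hc]
  rcases hcz with ⟨rfl, h⟩ | ⟨rfl, h⟩
  · have := h4 z h
    norm_num
    exact this
  · have := h5 z h
    norm_num
    exact this

theorem isHarm_of_dir {u : ℝ × ℝ → ℝ} (hu : Dirichlet (Final.dom Φ) (Em Φ) (sv Φ) u)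
    (h1 : ∀ z ∈ Final.dom Φ, |u z| ≤ 1) : Final.IsHarm Φ u := by
  have hfr : ∀ t : ℝ, Φ (Final.circ t) ∈ frontier (Final.dom Φ) := fun t => by
    rw [domF_frontier]
    exact ⟨_, circ_sq t, rfl⟩
  refine ⟨hu.harm.smooth.of_le (by norm_cast), hu.harm.lapz, h1, fun x hx => ?_,
    fun x hx => ?_⟩
  · have hxE : x ∉ Em Φ := fun hc => by
      have := arcPlus_ne hx
      rcases mem_Em.1 hc with e | e
      · exact this.1 e
      · exact this.2 e
    have h2 := hu.bv x (by
      obtain ⟨t, -, rfl⟩ := hx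
      exact hfr t) hxE
    have e : sv Φ x = 1 := by
      unfold sv
      rw [if_pos hx]
    rwa [e] at h2
  · have hxE : x ∉ Em Φ := fun hc => by
      have := arcMinus_ne hx
      rcases mem_Em.1 hc with e | e
      · exact this.1 e
      · exact this.2 e
    have h2 := hu.bv x (by
      obtain ⟨t, -, rfl⟩ := hx
      exact hfr t) hxE
    have e : sv Φ x = -1 := by
      unfold sv
      rw [if_neg fun hc => arcs_disj hc hx]
    rwa [e] at h2

/-- **The field theorem** from its inputs. -/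
theorem s_fieldLimit : S_fieldLimit := by
  intro κ hκ hfree hsd hconn Φ
  obtain ⟨u, hu, hu1⟩ := exists_sol Φ
  have hE : ∀ e ∈ Em Φ, e ∉ Final.dom Φ := fun x hx => by
    rcases mem_Em.1 hx with rfl | rfl <;> exact circ_not_mem _
  refine ⟨u, isHarm_of_dir hu hu1, fun u' hu' z hz => ?_, fun δ N k p S h => ?_⟩
  · exact s_uniq _ (Em Φ) (sv Φ) u' u domF_open domF_bdd hE (dir_of_isHarm hu') hu z hz
  · refine ⟨law_prob h, fun φ hφ => ⟨?_, ?_⟩⟩
    · exact mean_lim h hκ hfree hsd hconn hu hφ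
    · exact to_gauss h hκ hfree hsd hconn hu hφ (law_prob h)

end Vale.Agent.P153.R2.FLDI
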