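import Vale.Agent.P153.R2.FLDI.LatDefs

/-!
The moments of the heights with free boundary values in polygons.
-/

set_option autoImplicit false

namespace Vale.Agent.P153.R2.FLDI

open Filter Topology Set MeasureTheory
open Vale.Agent.P145.PT Vale.Agent.P153 Vale.Agent.P153.F.Top

variable {Q : Measure A.Om} {κ' : ℝ}

theorem s_free_of (hQ : A.IsQ Q) (hP : GFF.Plane (Q.map A.rc)) (hS : GFF.SpecOut (Q.map A.rc) κ')
    (hC : GFF.RowCLT (Q.map A.rc) κ') (hκ : 0 < κ') : S_free (4 * κ' / √3) := by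
  intro D hD δ N p S hA f hf k
  exact squeeze s_mono hA.pos
    (F.key_all hP hS hC hκ (F.lvl_of hQ hP hS hC hκ) hA.pos hA.lim) hD
    (fun D' _ hb hcl => F.Dom.s_in D δ N p S hA D' hb hcl)
    (fun D' ho hb hcl => F.Dom.s_out D δ N p S hD hA D' ho hb hcl) hf k

end Vale.Agent.P153.R2.FLDI
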