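import Vale.Agent.P153.R2.FLDI.LatDefs
import Vale.Agent.P153.R2.Base.Basic

/-!
The laws of the heights with exact boundary values, and the comparison with free boundary values.
-/

set_option autoImplicit false

namespace Vale.Agent.P153.R2.FLDI

open Filter Topology Set MeasureTheory ProbabilityTheory
open Vale.Agent.P145.PT Vale.Agent.P153 Vale.Agent.P153.F.Top
open Vale.Agent.P153.F.Dom
open Vale.Agent.P153.F.Dom.Arcs (HeightsB)

/-- Averages over a finite set are integrals for the uniform distribution. -/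
theorem unif_spec {T : Set (ℤ × ℤ → ℤ)} (hf : T.Finite) (hn : T.Nonempty) :
    IsProbabilityMeasure (uniformOn T) ∧
    (∀ G : (ℤ × ℤ → ℤ) → ℝ, Integrable G (uniformOn T)) ∧
    ∀ G : (ℤ × ℤ → ℤ) → ℝ, ∫ h, G h ∂(uniformOn T) = Ex T G := by
  classical
  have hT : (hf.toFinset).Nonempty := hf.toFinset_nonempty.2 hn
  have h := F.Dom.dl_unif (T := hf.toFinset) hT
  have e : (((hf.toFinset.card : ENNReal))⁻¹ • ∑ h ∈ hf.toFinset, Measure.dirac h) =
      uniformOn T := by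
    rw [← JG.sum_dirac_unif hf, Set.ncard_eq_toFinset_card T hf,
      finsum_mem_eq_finite_toFinset_sum _ hf]
  rw [e] at h
  refine ⟨h.1, h.2.1, fun G => ?_⟩
  rw [h.2.2 G, Ex_eq_ev hf]

/-- The law of the inner heights as a measure on `Om`. -/
theorem exists_law {T : Set (ℤ × ℤ → ℤ)} (hf : T.Finite) (hn : T.Nonempty)
    (I : Finset (ℤ × ℤ)) :
    ∃ μ : Measure Om, Mom μ ∧ ∀ A : Om → ℝ, ∫ ω, A ω ∂μ = Ex T fun h => A (vh I h) := by
  classical
  set W := hf.toFinset with hW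
  have hne : W.Nonempty := hf.toFinset_nonempty.2 hn
  set Z : ℝ := (W.card : ℝ) with hZd
  have hZ : 0 < Z := by
    have : 0 < W.card := hne.card_pos
    rw [hZd]
    exact_mod_cast this
  have hw : 0 ≤ 1 / Z := by positivity
  have hint : ∀ (A : Om → ℝ) (x : ℤ × ℤ → ℤ),
      Integrable A (ENNReal.ofReal (1 / Z) • Measure.dirac (vh I x)) :=
    fun A x => (integrable_dirac (by simp)).smul_measure ENNReal.ofReal_ne_top
  refine ⟨∑ x ∈ W, ENNReal.ofReal (1 / Z) • Measure.dirac (vh I x), ⟨⟨?_⟩, ?_⟩, ?_⟩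
  · rw [Measure.coe_finsetSum, Finset.sum_apply]
    simp only [Measure.smul_apply, measure_univ, smul_eq_mul, mul_one]
    rw [← ENNReal.ofReal_sum_of_nonneg (fun x _ => hw), Finset.sum_const, nsmul_eq_mul, ← hZd,
      mul_one_div_cancel hZ.ne', ENNReal.ofReal_one]
  · intro v
    exact integrable_finsetSum_measure.2 fun x _ => hint _ x
  · intro A
    rw [integral_finsetSum_measure fun x _ => hint A x]
    have h1 : ∀ x ∈ W, ∫ ω, A ω ∂(ENNReal.ofReal (1 / Z) • Measure.dirac (vh I x)) =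
        A (vh I x) / Z := by
      intro x _
      rw [integral_smul_measure, integral_dirac, ENNReal.toReal_ofReal hw, smul_eq_mul]
      ring
    rw [Finset.sum_congr rfl h1, ← Finset.sum_div, Ex, Set.ncard_eq_toFinset_card T hf, hZd,
      finsum_mem_eq_finite_toFinset_sum _ hf]

variable {n : ℕ} {p : ZMod n → ℤ × ℤ} {S : Finset ((ℤ × ℤ) × Bool)} {ξ : ZMod n → ℤ}

theorem hB_fin (hp : IsPolygon p) (hS : Encloses p S) : (HeightsB p S ξ).Finite :=
  (s_law p S hp hS).1.subset fun _ hh => hh.1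

/-- Comparison with free boundary values. -/
theorem arcs_le (hp : IsPolygon p) (hS : Encloses p S) (hξ : ∀ i, ξ i = 1 ∨ ξ i = -1)
    {F G : (ℤ × ℤ → ℤ) → ℝ} (hF : Measurable F) (hG : Measurable G)
    (h : ∀ a b : ℤ × ℤ → ℤ, (∀ v, |a v - b v| ≤ 2) → F a ≤ G b) :
    Ex (HeightsB p S ξ) F ≤ Ex (Heights p S) G := by
  obtain ⟨Q, hQ1, hQ2, hQ⟩ := Arcs.coupling p S hp hS ξ hξ
  obtain ⟨hfin, hne, -, -, -⟩ := s_law p S hp hS
  have h1 := unif_spec (hB_fin (ξ := ξ) hp hS) (Arcs.heightsB_ne hp hS hξ)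
  have h2 := unif_spec hfin hne
  rw [← h1.2.2 F, ← h2.2.2 G]
  change ∫ h, F h ∂(uniformOn {h | h ∈ Heights p S ∧ ∀ i, h (p i) = ξ i}) ≤ _
  have i1 := h1.2.1 F
  have i2 := h2.2.1 G
  change Integrable F (uniformOn {h | h ∈ Heights p S ∧ ∀ i, h (p i) = ξ i}) at i1
  rw [← hQ1] at i1 ⊢
  rw [← hQ2] at i2 ⊢
  rw [integral_map (by fun_prop) hF.aestronglyMeasurable,
    integral_map (by fun_prop) hG.aestronglyMeasurable]
  refine integral_mono_ae (i1.comp_measurable measurable_fst) (i2.comp_measurable measurable_snd) ?_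
  filter_upwards [hQ] with q hq using h q.1 q.2 hq

theorem vh_meas (I : Finset (ℤ × ℤ)) (v : ℤ × ℤ) : Measurable fun h : ℤ × ℤ → ℤ => vh I h v := by
  unfold vh
  by_cases hv : v ∈ I
  · simp only [if_pos hv]
    have h1 : Measurable fun h : ℤ × ℤ → ℤ => h v := measurable_pi_apply v
    have h2 : Measurable fun x : ℤ => (x : ℝ) := measurable_of_countable _
    exact h2.comp h1
  · simp only [if_neg hv]
    exact measurable_const

theorem hB_meas (B I : Finset (ℤ × ℤ)) (δ : ℝ) (f : ℝ × ℝ → ℝ) :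
    Measurable fun h : ℤ × ℤ → ℤ => hB B δ f (vh I h) := by
  unfold hB
  refine Measurable.const_mul ?_ _
  exact Finset.measurable_sum _ fun v _ => (vh_meas I v).mul_const _

theorem vh_close (I : Finset (ℤ × ℤ)) {a b : ℤ × ℤ → ℤ} (h : ∀ v, |a v - b v| ≤ 2)
    (v : ℤ × ℤ) : |vh I a v - vh I b v| ≤ 2 := by
  unfold vh
  by_cases hv : v ∈ I
  · rw [if_pos hv, if_pos hv]
    exact_mod_cast h v
  · rw [if_neg hv, if_neg hv]
    norm_num

/-- `√3/2 δ² ∑ |f(δ v)|`. -/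
noncomputable def ab (B : Finset (ℤ × ℤ)) (δ : ℝ) (f : ℝ × ℝ → ℝ) : ℝ :=
  δ ^ 2 * ∑ v ∈ B, |tl f (δ * v.1, δ * v.2)|

theorem ab_nonneg (B : Finset (ℤ × ℤ)) (δ : ℝ) (f : ℝ × ℝ → ℝ) : 0 ≤ ab B δ f :=
  mul_nonneg (sq_nonneg _) (Finset.sum_nonneg fun _ _ => abs_nonneg _)

theorem hB_close (B : Finset (ℤ × ℤ)) (δ : ℝ) (f : ℝ × ℝ → ℝ) {ω ω' : Om}
    (h : ∀ v, |ω v - ω' v| ≤ 2) : |hB B δ f ω - hB B δ f ω'| ≤ 2 * ab B δ f := by
  unfold hB ab
  rw [← mul_sub, ← Finset.sum_sub_distrib, abs_mul, abs_of_nonneg (sq_nonneg δ)]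
  have h1 : |∑ v ∈ B, (ω v * tl f (δ * v.1, δ * v.2) - ω' v * tl f (δ * v.1, δ * v.2))| ≤
      ∑ v ∈ B, 2 * |tl f (δ * v.1, δ * v.2)| := by
    refine (Finset.abs_sum_le_sum_abs _ _).trans (Finset.sum_le_sum fun v _ => ?_)
    rw [← sub_mul, abs_mul]
    exact mul_le_mul_of_nonneg_right (h v) (abs_nonneg _)
  have h2 := mul_le_mul_of_nonneg_left h1 (sq_nonneg δ)
  rw [← Finset.mul_sum] at h2
  linarith

theorem pow_close {a b c : ℝ} (_hc : 0 ≤ c) (h : |a - b| ≤ c) (k : ℕ) :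
    a ^ (2 * k) ≤ 4 ^ k * (b ^ (2 * k) + c ^ (2 * k)) := by
  have h1 : |a| ≤ |b| + c := by
    have h2 := abs_add_le (a - b) b
    rw [sub_add_cancel] at h2
    linarith
  have h2 : a ^ 2 ≤ (|b| + c) ^ 2 := by
    rw [← sq_abs a]
    exact pow_le_pow_left₀ (abs_nonneg _) h1 2
  have h3 : (|b| + c) ^ 2 ≤ 2 * b ^ 2 + 2 * c ^ 2 := by
    nlinarith [sq_nonneg (|b| - c), sq_abs b]
  rcases Nat.eq_zero_or_pos k with rfl | hk
  · norm_num
  calc a ^ (2 * k) = (a ^ 2) ^ k := pow_mul a 2 k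
    _ ≤ (2 * b ^ 2 + 2 * c ^ 2) ^ k := pow_le_pow_left₀ (sq_nonneg a) (h2.trans h3) k
    _ = 2 ^ k * (b ^ 2 + c ^ 2) ^ k := by rw [← mul_pow]; ring
    _ ≤ 2 ^ k * (2 ^ (k - 1) * ((b ^ 2) ^ k + (c ^ 2) ^ k)) :=
        mul_le_mul_of_nonneg_left (add_pow_le (sq_nonneg b) (sq_nonneg c) k) (by positivity)
    _ ≤ 2 ^ k * (2 ^ k * ((b ^ 2) ^ k + (c ^ 2) ^ k)) := by
        refine mul_le_mul_of_nonneg_left (mul_le_mul_of_nonneg_right ?_ (by positivity))
          (by positivity)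
        exact pow_le_pow_right₀ (by norm_num) (Nat.sub_le k 1)
    _ = 4 ^ k * (b ^ (2 * k) + c ^ (2 * k)) := by
        rw [pow_mul, pow_mul, ← mul_assoc, ← mul_pow]
        norm_num

/-- The moments for exact boundary values are bounded by those for free boundary values. -/
theorem arcs_mom (hp : IsPolygon p) (hS : Encloses p S) (hξ : ∀ i, ξ i = 1 ∨ ξ i = -1)
    (B : Finset (ℤ × ℤ)) (δ : ℝ) (f : ℝ × ℝ → ℝ) (k : ℕ) :
    Ex (HeightsB p S ξ) (fun h => hB B δ f (vh (inner p S) h) ^ (2 * k)) ≤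
      4 ^ k * (ze (inner p S) (fun ω => hB B δ f ω ^ (2 * k)) + (2 * ab B δ f) ^ (2 * k)) := by
  obtain ⟨hfin, hne, hprob, hint, hze⟩ := s_law p S hp hS
  have h1 := arcs_le hp hS hξ (F := fun h => hB B δ f (vh (inner p S) h) ^ (2 * k))
    (G := fun h => 4 ^ k * (hB B δ f (vh (inner p S) h) ^ (2 * k) + (2 * ab B δ f) ^ (2 * k)))
    ((hB_meas B _ δ f).pow_const _)
    ((((hB_meas B _ δ f).pow_const _).add_const _).const_mul _)
    (fun a b hab => pow_close (mul_nonneg (by norm_num) (ab_nonneg B δ f))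
      (hB_close B δ f (vh_close _ hab)) k)
  refine h1.trans (le_of_eq ?_)
  rw [← hze (fun ω => hB B δ f ω ^ (2 * k)), JG.law_eq hp hS]
  have h2 := unif_spec hfin hne
  have hpr := h2.1
  rw [← h2.2.2, integral_const_mul, integral_add (h2.2.1 _) (integrable_const _)]
  simp
  rfl

/-- The values of the two arcs. -/
def xi (k : ℕ) : ZMod n → ℤ := fun i => if i.val < k then 1 else -1

theorem xi_pm (k : ℕ) (i : ZMod n) : xi k i = 1 ∨ xi k i = -1 := by
  unfold xi
  split_ifs <;> simp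

theorem dat_p (hp : IsPolygon p) (k : ℕ) (i : ZMod n) : dat p k (p i) = xi k i := by
  unfold dat xi
  by_cases h : i.val < k
  · rw [if_neg, if_pos h]
    rintro ⟨j, hj, hk⟩
    rw [hp.2.1 hj] at hk
    omega
  · rw [if_pos ⟨i, rfl, by omega⟩, if_neg h]

theorem dat_off {v : ℤ × ℤ} (k : ℕ) (hv : ∀ i, p i ≠ v) : dat p k v = 1 := by
  unfold dat
  rw [if_neg]
  rintro ⟨j, hj, -⟩
  exact hv j hj

theorem dat_pm (k : ℕ) (v : ℤ × ℤ) : dat p k v = 1 ∨ dat p k v = -1 := by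
  unfold dat
  split_ifs <;> simp

/-- The restriction to the domain, with the dummy value `0`. -/
noncomputable def cut0 (S : Finset ((ℤ × ℤ) × Bool)) (h : ℤ × ℤ → ℤ) : ℤ × ℤ → ℤ :=
  open Classical in fun v => if v ∈ F.Dom.verts S then h v else 0

theorem cut0_in {v : ℤ × ℤ} (hv : v ∈ F.Dom.verts S) (h : ℤ × ℤ → ℤ) : cut0 S h v = h v := by
  unfold cut0
  rw [if_pos hv]

theorem cut0_out {v : ℤ × ℤ} (hv : v ∉ F.Dom.verts S) (h : ℤ × ℤ → ℤ) : cut0 S h v = 0 := by
  unfold cut0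
  rw [if_neg hv]

theorem mem_inn {v : ℤ × ℤ} : v ∈ inn p S ↔ v ∈ F.Dom.verts S ∧ ∀ i, p i ≠ v := dl_inner

theorem ca_out {k : ℕ} {h : Hg} (hh : h ∈ CA p k S) {v : ℤ × ℤ} (hv : v ∉ inn p S) :
    h v = dat p k v := by
  have := hh.2.1 v
  unfold exa at this
  rw [if_neg hv] at this
  exact this

/-- The bijection between the two descriptions of the heights. -/
theorem ca_bij (hp : IsPolygon p) (hS : Encloses p S) (k : ℕ) :
    BijOn (cut0 S) (CA p k S) (HeightsB p S (xi k)) := by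
  classical
  refine ⟨?_, ?_, ?_⟩
  · intro h hh
    have hpi : ∀ i, cut0 S h (p i) = xi k i := fun i => by
      rw [cut0_in (dl_poly hp hS i), ca_out hh (fun hc => (mem_inn.1 hc).2 i rfl), dat_p hp]
    refine ⟨Arcs.mem_heights.2 ⟨⟨fun v hv => ?_, fun v hv w hw hvw => ?_, fun v hv => ?_⟩,
      fun i => ?_⟩, hpi⟩
    · rw [cut0_in hv]
      exact Cfg.odd hh v
    · rw [cut0_in hv, cut0_in hw]
      by_cases h1 : v ∈ inn p S
      · exact Cfg.lip hh h1 hvw
      · by_cases h2 : w ∈ inn p S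
        · exact Cfg.lip' hh h2 hvw
        · rw [ca_out hh h1, ca_out hh h2]
          rcases dat_pm (p := p) k v with e | e <;> rcases dat_pm (p := p) k w with e' | e' <;>
            rw [e, e'] <;> decide
    · exact cut0_out hv h
    · rw [hpi]
      exact xi_pm k i
  · intro h hh g hg hhg
    funext v
    by_cases hv : v ∈ F.Dom.verts S
    · have := congrFun hhg v
      rwa [cut0_in hv, cut0_in hv] at this
    · have h1 : v ∉ inn p S := fun hc => hv (mem_inn.1 hc).1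
      rw [ca_out hh h1, ca_out hg h1]
  · rintro h ⟨h1, h2⟩
    obtain ⟨⟨a1, a2, a3⟩, a4⟩ := Arcs.mem_heights.1 h1
    have hnp : ∀ v, v ∈ F.Dom.verts S → v ∉ inn p S → ∃ i, p i = v := by
      intro v hv hv'
      by_contra hc
      push Not at hc
      exact hv' (mem_inn.2 ⟨hv, hc⟩)
    refine ⟨fun v => if v ∈ F.Dom.verts S then h v else 1, ⟨fun v => ?_, fun v => ?_,
      fun v hv w hvw => ?_⟩, ?_⟩
    · by_cases hv : v ∈ F.Dom.verts S
      · simp only [if_pos hv]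
        exact a1 v hv
      · simp only [if_neg hv]
        exact odd_one
    · unfold exa
      by_cases hi : v ∈ inn p S
      · rw [if_pos hi]
        exact mem_univ _
      · rw [if_neg hi, mem_singleton_iff]
        by_cases hv : v ∈ F.Dom.verts S
        · simp only [if_pos hv]
          obtain ⟨i, rfl⟩ := hnp v hv hi
          rw [h2 i, dat_p hp]
        · simp only [if_neg hv]
          rw [dat_off k]
          rintro i rfl
          exact hv (dl_poly hp hS i)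
    · have hw : w ∈ F.Dom.verts S := dl_nbr hS hv hvw
      simp only [if_pos (mem_inn.1 hv).1, if_pos hw]
      exact a2 v (mem_inn.1 hv).1 w hw hvw
    · funext v
      by_cases hv : v ∈ F.Dom.verts S
      · rw [cut0_in hv, if_pos hv]
      · rw [cut0_out hv, a3 v hv]

theorem Ex_bijOn {α β : Type*} {A : Set α} {B : Set β} {φ : α → β} (h : BijOn φ A B)
    (F : β → ℝ) : Ex B F = Ex A fun a => F (φ a) := by
  unfold Ex
  congr 1
  · rw [← h.image_eq, finsum_mem_image h.injOn]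
  · rw [← h.image_eq, h.injOn.ncard_image]

theorem vh_cut0 (h : ℤ × ℤ → ℤ) : vh (inner p S) (cut0 S h) = vh (inner p S) h := by
  funext v
  unfold vh
  by_cases hv : v ∈ inner p S
  · rw [if_pos hv, if_pos hv, cut0_in (dl_inner.1 hv).1]
  · rw [if_neg hv, if_neg hv]

/-- The two laws of the inner heights agree. -/
theorem ca_law (hp : IsPolygon p) (hS : Encloses p S) (k : ℕ) (A : Om → ℝ) :
    Ex (HeightsB p S (xi k)) (fun h => A (vh (inner p S) h)) =
      Ex (CA p k S) fun h => A (vh (inner p S) h) := by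
  rw [Ex_bijOn (ca_bij hp hS k)]
  simp only [vh_cut0]

theorem ca_fin (hp : IsPolygon p) (hS : Encloses p S) (k : ℕ) : (CA p k S).Finite :=
  Set.Finite.of_finite_image ((hB_fin (ξ := xi k) hp hS).subset (ca_bij hp hS k).mapsTo.image_subset)
    (ca_bij hp hS k).injOn

theorem ca_ne (hp : IsPolygon p) (hS : Encloses p S) (k : ℕ) : (CA p k S).Nonempty := by
  obtain ⟨g, hg⟩ := Arcs.heightsB_ne (ξ := xi k) hp hS (xi_pm k)
  obtain ⟨h, hh, -⟩ := (ca_bij hp hS k).surjOn hg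
  exact ⟨h, hh⟩

end Vale.Agent.P153.R2.FLDI
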