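import Vale.Agent.P153.R2.FLDI.Log

/-!
The truncation argument and the uniqueness theorem with finitely many exceptional points.
-/

set_option autoImplicit false

namespace Vale.Agent.P153.R2.FLDI

open Filter Topology Set MeasureTheory
open Vale.Agent.P145.PT

/-- The barrier: a nonnegative square integrable harmonic function which is large near the
exceptional points. -/
theorem exists_barrier {D : Set (ℝ × ℝ)} (hD : IsOpen D) (hb : Bornology.IsBounded D)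
    (E : Finset (ℝ × ℝ)) (hE : ∀ e ∈ E, e ∉ D) : ∃ W : ℝ × ℝ → ℝ, Measurable W ∧ Harm D W ∧
      (∀ z ∈ D, 0 ≤ W z) ∧ IntegrableOn (fun z => W z ^ 2) D ∧
      ∀ A : ℝ, ∃ ρ : ℝ, 0 < ρ ∧ ∀ z ∈ D, ∀ e ∈ E, dist z e ≤ ρ → A ≤ W z := by
  classical
  obtain ⟨r, hr⟩ := hb.subset_ball (0 : ℝ × ℝ)
  have hR : ∀ e : ℝ × ℝ, ∃ R : ℝ, 0 < R ∧ ∀ z ∈ D, sqn (z - e) ≤ R ^ 2 := by
    intro e
    refine ⟨2 * (|r| + ‖e‖ + 1), by positivity, fun z hz => ?_⟩
    have h1 := sqn_le_norm (z - e)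
    have h2 : ‖z‖ < r := mem_ball_zero_iff.1 (hr hz)
    have h3 : ‖z - e‖ ≤ |r| + ‖e‖ + 1 := by
      have := norm_sub_le z e
      have := le_abs_self r
      linarith
    have h4 := pow_le_pow_left₀ (norm_nonneg _) h3 2
    nlinarith
  choose R hR0 hRD using hR
  have hlm : ∀ e ∈ E, MemLp (lw (R e) e) 2 (volume.restrict D) := fun e he => by
    rw [memLp_two_iff_integrable_sq (lw_meas _ _).aestronglyMeasurable]
    exact lw_sq_int hD hb (hR0 e) (hE e he) (hRD e)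
  have hW2 : MemLp (fun z => ∑ e ∈ E, lw (R e) e z) 2 (volume.restrict D) :=
    memLp_finsetSum E hlm
  have hWm : Measurable fun z => ∑ e ∈ E, lw (R e) e z :=
    Finset.measurable_sum _ fun e _ => lw_meas _ _
  have hnn : ∀ z ∈ D, ∀ e ∈ E, 0 ≤ lw (R e) e z := fun z hz e he =>
    lw_nonneg (fun h => hE e he (h ▸ hz)) (hRD e z hz)
  refine ⟨fun z => ∑ e ∈ E, lw (R e) e z, hWm,
    Harm.sum hD hb E _ fun e he => lw_harm (R e) (hE e he), fun z hz =>
    Finset.sum_nonneg fun e he => hnn z hz e he, ?_, fun A => ?_⟩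
  · rw [memLp_two_iff_integrable_sq hWm.aestronglyMeasurable] at hW2
    exact hW2
  · choose ρ hρ0 hρ using fun e => lw_large (hR0 e) A
    rcases E.eq_empty_or_nonempty with hEe | hEn
    · refine ⟨1, one_pos, fun z _ e he => ?_⟩
      rw [hEe] at he
      exact absurd he (Finset.notMem_empty _)
    · refine ⟨E.inf' hEn ρ, (Finset.lt_inf'_iff hEn).2 fun e _ => hρ0 e, fun z hz e he hd => ?_⟩
      have h1 := hρ e e z (fun h => hE e he (h ▸ hz)) (hd.trans (Finset.inf'_le _ he))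
      exact h1.trans (Finset.single_le_sum (f := fun e => lw (R e) e z)
        (fun e' he' => hnn z hz e' he') he)

/-- `lemB` with exceptional points. -/
theorem lemBE {D : Set (ℝ × ℝ)} (hD : IsOpen D) (hb : Bornology.IsBounded D)
    {E : Finset (ℝ × ℝ)} (hE : ∀ e ∈ E, e ∉ D)
    {T : (ℝ × ℝ → ℝ) → ℝ} {C : ℝ} (hT : L2Fn D T C) {f : ℝ × ℝ → ℝ} (hf : TestOn D f)
    (heq : ∀ ψ, TestOn D ψ → T (lap ψ) = - ∫ z, ψ z * f z)
    (hdec : ∀ ε ρ : ℝ, 0 < ε → 0 < ρ → ∃ r : ℝ, 0 < r ∧ ∀ x ∈ D, dd D x < r →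
      (∀ e ∈ E, ρ ≤ dist x e) → T (bump (dd D x / 2) x) ≤ ε)
    (hbd : ∃ K r : ℝ, 0 < r ∧ ∀ x ∈ D, dd D x < r → T (bump (dd D x / 2) x) ≤ K)
    {θ : ℝ × ℝ → ℝ} (hθ : TestOn D θ) (hθ0 : ∀ z, 0 ≤ θ z) {η : ℝ} (hη : 0 < η) :
    ∃ ψ, TestOn D ψ ∧ energy ψ ≤ (∫ z, f z * ψ z) + η ∧ T θ ≤ (∫ z, θ z * ψ z) + η := by
  obtain ⟨W, hWm, hWh, hW0, hW2, hWl⟩ := exists_barrier hD hb E hE
  obtain ⟨K, r0, hr0, hK⟩ := hbd
  have hWθ : 0 ≤ ∫ z, W z * θ z := integral_nonneg fun z => by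
    by_cases hz : z ∈ D
    · exact mul_nonneg (hW0 z hz) (hθ0 z)
    · have : θ z = 0 := by
        by_contra h
        exact hz (hθ.2.2 (subset_tsupport _ h))
      simp [this]
  set τ : ℝ := η / (2 * ((∫ z, W z * θ z) + 1)) with hτ
  have hτ0 : 0 < τ := by positivity
  have hτθ : τ * ∫ z, W z * θ z ≤ η / 2 := by
    rw [hτ, div_mul_eq_mul_div, div_le_iff₀ (by positivity)]
    nlinarith
  have hS := l2fn_int hWm.aestronglyMeasurable hW2
  have hT' := hT.comb hS (-τ)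
  have h1 := lemB hD hb hT' hf (fun ψ hψ => by
      rw [heq ψ hψ, hWh.weak hD hb hψ]
      ring) (fun ε hε => ?_) hθ hθ0 (half_pos hη)
  · obtain ⟨ψ, hψ, h2, h3⟩ := h1
    refine ⟨ψ, hψ, by linarith, ?_⟩
    linarith
  · -- decay
    obtain ⟨ρ, hρ, hWρ⟩ := hWl ((|K| + 1) / τ)
    obtain ⟨r, hr, hd⟩ := hdec ε (ρ / 2) hε (half_pos hρ)
    refine ⟨min (min r r0) ρ, lt_min (lt_min hr hr0) hρ, fun x hx hxr => ?_⟩
    have hx0 : 0 < dd D x := (dd_pos hD hb).2 hx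
    have hbx : TestOn D (bump (dd D x / 2) x) := bump_test (by linarith) (ball_sub (by linarith))
    have hWi : Integrable fun z => W z * bump (dd D x / 2) x z :=
      TestOn.locInt hD hb hWh.smooth hbx
    have hsupp : ∀ z, bump (dd D x / 2) x z ≠ 0 → z ∈ D ∧ dist z x ≤ dd D x / 2 := fun z hz => by
      have h3 : dist z x ≤ dd D x / 2 := by
        by_contra h4
        exact hz (bump_zero (by linarith) (not_le.1 h4))
      exact ⟨ball_sub (show dd D x / 2 < dd D x by linarith) h3, h3⟩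
    by_cases hcase : ∀ e ∈ E, ρ / 2 ≤ dist x e
    · have h2 := hd x hx (lt_of_lt_of_le hxr ((min_le_left _ _).trans (min_le_left _ _))) hcase
      have h3 : 0 ≤ ∫ z, W z * bump (dd D x / 2) x z := integral_nonneg fun z => by
        by_cases hz : bump (dd D x / 2) x z = 0
        · simp [hz]
        · exact mul_nonneg (hW0 z (hsupp z hz).1) (bump_nonneg _ _ _)
      nlinarith
    · push Not at hcase
      obtain ⟨e, he, hde⟩ := hcase
      have h2 := hK x hx (lt_of_lt_of_le hxr ((min_le_left _ _).trans (min_le_right _ _)))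
      have h3 : (|K| + 1) / τ ≤ ∫ z, W z * bump (dd D x / 2) x z := by
        have e1 : (|K| + 1) / τ = ∫ z, (|K| + 1) / τ * bump (dd D x / 2) x z := by
          rw [integral_const_mul, bump_int (by linarith), mul_one]
        rw [e1]
        refine integral_mono (hbx.int.const_mul _) hWi fun z => ?_
        simp only
        by_cases hz : bump (dd D x / 2) x z = 0
        · simp [hz]
        · obtain ⟨h5, h6⟩ := hsupp z hz
          refine mul_le_mul_of_nonneg_right (hWρ z h5 e he ?_) (bump_nonneg _ _ _)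
          have h7 : dd D x < ρ := lt_of_lt_of_le hxr (min_le_right _ _)
          have h8 := dist_triangle z x e
          linarith
      have h4 : |K| + 1 ≤ τ * ∫ z, W z * bump (dd D x / 2) x z := by
        rw [div_le_iff₀ hτ0] at h3
        linarith
      have h5 := le_abs_self K
      linarith

theorem le_zero_ofE {D : Set (ℝ × ℝ)} (hD : IsOpen D) (hb : Bornology.IsBounded D)
    {E : Finset (ℝ × ℝ)} (hE : ∀ e ∈ E, e ∉ D)
    {T : (ℝ × ℝ → ℝ) → ℝ} {C : ℝ} (hT : L2Fn D T C)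
    (heq : ∀ ψ, TestOn D ψ → T (lap ψ) = 0)
    (hdec : ∀ ε ρ : ℝ, 0 < ε → 0 < ρ → ∃ r : ℝ, 0 < r ∧ ∀ x ∈ D, dd D x < r →
      (∀ e ∈ E, ρ ≤ dist x e) → T (bump (dd D x / 2) x) ≤ ε)
    (hbd : ∃ K r : ℝ, 0 < r ∧ ∀ x ∈ D, dd D x < r → T (bump (dd D x / 2) x) ≤ K)
    {θ : ℝ × ℝ → ℝ} (hθ : TestOn D θ) (hθ0 : ∀ z, 0 ≤ θ z) : T θ ≤ 0 := by
  have hV := V_nonneg hb hθ
  have h : ∀ η : ℝ, 0 < η → T θ ≤ Real.sqrt (V D θ * η) + η := by
    intro η hη
    obtain ⟨ψ, hψ, hE', hTψ⟩ := lemBE hD hb hE hT (TestOn.zero D)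
      (fun ψ hψ => by rw [heq ψ hψ]; simp) hdec hbd hθ hθ0 hη
    have hE' : energy ψ ≤ η := by simpa using hE'
    have h1 := pair_le hb hθ hψ
    have h2 : ∫ z, θ z * ψ z ≤ Real.sqrt (V D θ * η) := by
      refine Real.le_sqrt_of_sq_le (h1.trans ?_)
      exact mul_le_mul_of_nonneg_left hE' hV
    linarith
  have ht : Tendsto (fun η : ℝ => Real.sqrt (V D θ * η) + η) (𝓝[>] 0) (𝓝 0) := by
    have : Continuous (fun η : ℝ => Real.sqrt (V D θ * η) + η) := by fun_prop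
    have h0 := this.tendsto 0
    simp only [mul_zero, Real.sqrt_zero, add_zero] at h0
    exact h0.mono_left nhdsWithin_le_nhds
  exact ge_of_tendsto ht (by
    filter_upwards [self_mem_nhdsWithin] with η hη using h η hη)

/-- Decay at the boundary, uniformly away from the exceptional points, and boundedness. -/
structure DecE (D : Set (ℝ × ℝ)) (E : Finset (ℝ × ℝ)) (T : (ℝ × ℝ → ℝ) → ℝ) : Prop where
  dec : ∀ ε ρ : ℝ, 0 < ε → 0 < ρ → ∃ r : ℝ, 0 < r ∧ ∀ x ∈ D, dd D x < r →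
      (∀ e ∈ E, ρ ≤ dist x e) → |T (bump (dd D x / 2) x)| ≤ ε
  bd : ∃ K r : ℝ, 0 < r ∧ ∀ x ∈ D, dd D x < r → |T (bump (dd D x / 2) x)| ≤ K

theorem DecE.comb {D : Set (ℝ × ℝ)} {E : Finset (ℝ × ℝ)} {T S : (ℝ × ℝ → ℝ) → ℝ}
    (hT : DecE D E T) (hS : DecE D E S) (c : ℝ) : DecE D E fun f => T f + c * S f where
  dec := fun ε ρ hε hρ => by
    obtain ⟨r1, hr1, hd1⟩ := hT.dec (ε / 2) ρ (by positivity) hρ
    obtain ⟨r2, hr2, hd2⟩ := hS.dec (ε / (2 * (|c| + 1))) ρ (by positivity) hρ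
    refine ⟨min r1 r2, lt_min hr1 hr2, fun x hx hxr hxe => ?_⟩
    have e1 := hd1 x hx (lt_of_lt_of_le hxr (min_le_left _ _)) hxe
    have e2 := hd2 x hx (lt_of_lt_of_le hxr (min_le_right _ _)) hxe
    calc |T (bump (dd D x / 2) x) + c * S (bump (dd D x / 2) x)|
        ≤ |T (bump (dd D x / 2) x)| + |c * S (bump (dd D x / 2) x)| := abs_add_le _ _
      _ ≤ ε / 2 + |c| * (ε / (2 * (|c| + 1))) := by
          rw [abs_mul]
          exact add_le_add e1 (mul_le_mul_of_nonneg_left e2 (abs_nonneg _))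
      _ ≤ ε := by
          have : |c| * (ε / (2 * (|c| + 1))) = ε / 2 * (|c| / (|c| + 1)) := by field_simp
          rw [this]
          have : |c| / (|c| + 1) ≤ 1 := by rw [div_le_one (by positivity)]; linarith
          nlinarith
  bd := by
    obtain ⟨K1, r1, hr1, hd1⟩ := hT.bd
    obtain ⟨K2, r2, hr2, hd2⟩ := hS.bd
    refine ⟨K1 + |c| * K2, min r1 r2, lt_min hr1 hr2, fun x hx hxr => ?_⟩
    have e1 := hd1 x hx (lt_of_lt_of_le hxr (min_le_left _ _))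
    have e2 := hd2 x hx (lt_of_lt_of_le hxr (min_le_right _ _))
    refine (abs_add_le _ _).trans ?_
    rw [abs_mul]
    exact add_le_add e1 (mul_le_mul_of_nonneg_left e2 (abs_nonneg _))

theorem DecE.neg {D : Set (ℝ × ℝ)} {E : Finset (ℝ × ℝ)} {T : (ℝ × ℝ → ℝ) → ℝ}
    (hT : DecE D E T) : DecE D E fun f => - T f where
  dec := fun ε ρ hε hρ => by
    simp only [abs_neg]
    exact hT.dec ε ρ hε hρ
  bd := by
    simp only [abs_neg]
    exact hT.bd

/-- Uniqueness with exceptional points. -/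
theorem uniqE {D : Set (ℝ × ℝ)} (hD : IsOpen D) (hb : Bornology.IsBounded D)
    {E : Finset (ℝ × ℝ)} (hE : ∀ e ∈ E, e ∉ D)
    {T : (ℝ × ℝ → ℝ) → ℝ} {C : ℝ} (hT : L2Fn D T C)
    (heq : ∀ ψ, TestOn D ψ → T (lap ψ) = 0) (hdec : DecE D E T)
    {θ : ℝ × ℝ → ℝ} (hθ : TestOn D θ) : T θ = 0 := by
  have hle : ∀ (T : (ℝ × ℝ → ℝ) → ℝ) (C : ℝ), L2Fn D T C →
      (∀ ψ, TestOn D ψ → T (lap ψ) = 0) → DecE D E T → ∀ θ, TestOn D θ → (∀ z, 0 ≤ θ z) →
      T θ ≤ 0 := by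
    intro T C hT heq hdec θ hθ hθ0
    refine le_zero_ofE hD hb hE hT heq (fun ε ρ hε hρ => ?_) ?_ hθ hθ0
    · obtain ⟨r, hr, h⟩ := hdec.dec ε ρ hε hρ
      exact ⟨r, hr, fun x hx hxr hxe => (le_abs_self _).trans (h x hx hxr hxe)⟩
    · obtain ⟨K, r, hr, h⟩ := hdec.bd
      exact ⟨K, r, hr, fun x hx hxr => (le_abs_self _).trans (h x hx hxr)⟩
  have hnn : ∀ θ, TestOn D θ → (∀ z, 0 ≤ θ z) → T θ = 0 := by
    intro θ hθ hθ0
    refine le_antisymm (hle T C hT heq hdec θ hθ hθ0) ?_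
    have := hle _ C hT.neg (fun ψ hψ => by rw [heq ψ hψ, neg_zero]) hdec.neg θ hθ hθ0
    linarith
  obtain ⟨p, m, hp, hm, hp0, hm0, hpm⟩ := exists_decomp hD hb hθ
  have : θ = fun z => p z - m z := funext hpm
  rw [this, hT.sub' hp hm, hnn p hp hp0, hnn m hm hm0, sub_zero]

/-- The properties of a limit covariance, with exceptional points. -/
structure CovE (D : Set (ℝ × ℝ)) (E : Finset (ℝ × ℝ)) (κ : ℝ)
    (M : (ℝ × ℝ → ℝ) → (ℝ × ℝ → ℝ) → ℝ) : Prop where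
  symm : ∀ f g, TestOn D f → TestOn D g → M f g = M g f
  pos : ∀ f, TestOn D f → 0 ≤ M f f
  bd : ∀ g, TestOn D g → ∃ C, L2Fn D (fun f => M f g) C
  sd : ∀ ψ g, TestOn D ψ → TestOn D g → M (lap ψ) g = - (κ * ∫ z, ψ z * g z)
  dec : ∀ g, TestOn D g → DecE D E fun f => M f g

end Vale.Agent.P153.R2.FLDI
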