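import Vale.Agent.P153.R2.FLDI.Defs

/-!
Smooth harmonic functions are weakly harmonic.
-/

set_option autoImplicit false

namespace Vale.Agent.P153.R2.FLDI

open Filter Topology Set MeasureTheory
open Vale.Agent.P145.PT

theorem exists_low_compact {D : Set (ℝ × ℝ)} (hD : IsOpen D) (hb : Bornology.IsBounded D)
    {K : Set (ℝ × ℝ)} (hK : IsCompact K) (hKD : K ⊆ D) : ∃ r : ℝ, 0 < r ∧ ∀ z ∈ K, r ≤ dd D z := by
  rcases K.eq_empty_or_nonempty with he | hne
  · exact ⟨1, one_pos, fun z hz => by rw [he] at hz; exact absurd hz (notMem_empty _)⟩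
  · obtain ⟨z0, hz0, hmin⟩ := hK.exists_isMinOn hne (dd_cont D).continuousOn
    exact ⟨dd D z0, (dd_pos hD hb).2 (hKD hz0), fun z hz => hmin hz⟩

/-- A function which is smooth in `D` agrees near a compact subset with a test function. -/
theorem exists_test_near {D : Set (ℝ × ℝ)} (hD : IsOpen D) (hb : Bornology.IsBounded D)
    {w : ℝ × ℝ → ℝ} (hw : ContDiffOn ℝ ((⊤ : ℕ∞) : WithTop ℕ∞) w D) {K : Set (ℝ × ℝ)}
    (hK : IsCompact K) (hKD : K ⊆ D) :
    ∃ (g : ℝ × ℝ → ℝ) (O : Set (ℝ × ℝ)), TestOn D g ∧ IsOpen O ∧ K ⊆ O ∧ O ⊆ D ∧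
      ∀ z ∈ O, g z = w z := by
  obtain ⟨r, hr, hrK⟩ := exists_low_compact hD hb hK hKD
  obtain ⟨χ, hχs, hχ01, hχ0, hχ1⟩ := exists_cutoff D (show r / 4 < r / 2 by linarith)
  have hsub : Function.support χ ⊆ {x | r / 4 ≤ dd D x} := by
    intro x hx
    by_contra h
    rw [mem_ofPred_eq, not_le] at h
    exact hx (hχ0 x h.le)
  have hts : tsupport χ ⊆ {x | r / 4 ≤ dd D x} :=
    closure_minimal hsub (isClosed_le continuous_const (dd_cont D))
  have htD : tsupport χ ⊆ D := fun x hx => by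
    have h1 : r / 4 ≤ dd D x := hts hx
    exact (dd_pos hD hb).1 (by linarith)
  have hcχ : HasCompactSupport χ :=
    Metric.isCompact_of_isClosed_isBounded (isClosed_tsupport _) (hb.subset htD)
  refine ⟨fun z => χ z * w z, {x | r / 2 < dd D x}, ⟨?_, ?_, ?_⟩,
    isOpen_lt continuous_const (dd_cont D), fun z hz => ?_, fun z hz => ?_, fun z hz => ?_⟩
  · rw [contDiff_iff_contDiffAt]
    intro z
    by_cases hz : z ∈ D
    · exact hχs.contDiffAt.mul (hw.contDiffAt (hD.mem_nhds hz))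
    · have h0 : dd D z < r / 4 := by
        have : ¬ 0 < dd D z := fun h => hz ((dd_pos hD hb).1 h)
        linarith
      have : (fun z => χ z * w z) =ᶠ[𝓝 z] fun _ => 0 := by
        filter_upwards [(isOpen_lt (dd_cont D) continuous_const).mem_nhds h0] with y hy
        rw [hχ0 y (le_of_lt hy), zero_mul]
      exact contDiffAt_const.congr_of_eventuallyEq this
  · exact hcχ.mul_right
  · exact (tsupport_mul_subset_left).trans htD
  · exact lt_of_lt_of_le (by linarith) (hrK z hz)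
  · have h1 : r / 2 < dd D z := hz
    exact (dd_pos hD hb).1 (by linarith)
  · have h1 : r / 2 < dd D z := hz
    simp only
    rw [hχ1 z h1.le, one_mul]

theorem lap_congr {f g : ℝ × ℝ → ℝ} {O : Set (ℝ × ℝ)} (hO : IsOpen O) (h : ∀ z ∈ O, f z = g z)
    {z : ℝ × ℝ} (hz : z ∈ O) : lap f z = lap g z := by
  have e : f =ᶠ[𝓝 z] g := by filter_upwards [hO.mem_nhds hz] with y hy using h y hy
  have e1 : ∀ v : ℝ × ℝ, (fun y => fderiv ℝ f y v) =ᶠ[𝓝 z] fun y => fderiv ℝ g y v := by
    intro v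
    filter_upwards [Filter.EventuallyEq.fderiv (𝕜 := ℝ) e] with y hy
    rw [hy]
  unfold lap
  have ex : fderiv ℝ (dx f) z = fderiv ℝ (dx g) z := (e1 (1, 0)).fderiv_eq
  have ey : fderiv ℝ (dy f) z = fderiv ℝ (dy g) z := (e1 (0, 1)).fderiv_eq
  change fderiv ℝ (dx f) z (1, 0) + fderiv ℝ (dy f) z (0, 1) =
    fderiv ℝ (dx g) z (1, 0) + fderiv ℝ (dy g) z (0, 1)
  rw [ex, ey]

/-- Green's second identity. -/
theorem lap_swap {D : Set (ℝ × ℝ)} {f g : ℝ × ℝ → ℝ} (hf : TestOn D f) (hg : TestOn D g) :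
    ∫ z, f z * lap g z = ∫ z, g z * lap f z := by
  rw [green_id hf hg.sm, green_id hg hf.sm]
  congr 2
  funext z
  ring

/-- A smooth harmonic function is weakly harmonic. -/
theorem Harm.weak {D : Set (ℝ × ℝ)} (hD : IsOpen D) (hb : Bornology.IsBounded D)
    {u : ℝ × ℝ → ℝ} (hu : Harm D u) {ψ : ℝ × ℝ → ℝ} (hψ : TestOn D ψ) :
    ∫ z, u z * lap ψ z = 0 := by
  obtain ⟨g, O, hg, hO, hKO, hOD, he⟩ := exists_test_near hD hb hu.smooth hψ.2.1 hψ.2.2
  have h1 : ∫ z, u z * lap ψ z = ∫ z, g z * lap ψ z := by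
    congr 1
    funext z
    by_cases hz : z ∈ O
    · rw [he z hz]
    · have h0 : ∀ y ∈ (tsupport ψ)ᶜ, ψ y = (fun _ => (0 : ℝ)) y := fun y hy => by
        by_contra h
        exact hy (subset_tsupport _ h)
      have : lap ψ z = 0 := by
        rw [lap_congr (isClosed_tsupport ψ).isOpen_compl h0 (fun h => hz (hKO h))]
        exact F.Top.lap_zero' z
      rw [this, mul_zero, mul_zero]
  rw [h1, lap_swap hg hψ, ← integral_zero (ℝ × ℝ) ℝ]
  congr 1
  funext z
  by_cases hz : z ∈ O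
  · rw [lap_congr hO he hz, hu.lapz z (hOD hz), mul_zero]
  · have : ψ z = 0 := by
      by_contra h
      exact hz (hKO (subset_tsupport _ h))
    rw [this, zero_mul]

theorem Harm.comb {D : Set (ℝ × ℝ)} (hD : IsOpen D) (hb : Bornology.IsBounded D)
    {u v : ℝ × ℝ → ℝ} (hu : Harm D u) (hv : Harm D v) (c : ℝ) :
    Harm D fun z => u z + c * v z where
  smooth := hu.smooth.add (contDiffOn_const.mul hv.smooth)
  lapz := fun z hz => by
    obtain ⟨g, O, hg, hO, hKO, hOD, he⟩ := exists_test_near hD hb hu.smooth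
      (isCompact_singleton (x := z)) (singleton_subset_iff.2 hz)
    obtain ⟨g', O', hg', hO', hKO', hOD', he'⟩ := exists_test_near hD hb hv.smooth
      (isCompact_singleton (x := z)) (singleton_subset_iff.2 hz)
    have hz1 : z ∈ O := hKO rfl
    have hz2 : z ∈ O' := hKO' rfl
    rw [lap_congr (g := fun z => g z + c * g' z) (hO.inter hO')
      (fun y hy => by rw [he y hy.1, he' y hy.2]) ⟨hz1, hz2⟩,
      lap_add hg.sm (contDiff_const.mul hg'.sm), lap_smul hg'.sm, lap_congr hO he hz1,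
      lap_congr hO' he' hz2, hu.lapz z hz, hv.lapz z hz]
    ring

theorem Harm.zero (D : Set (ℝ × ℝ)) : Harm D fun _ => 0 where
  smooth := contDiffOn_const
  lapz := fun z _ => F.Top.lap_zero' z

theorem Harm.sum {D : Set (ℝ × ℝ)} (hD : IsOpen D) (hb : Bornology.IsBounded D) {ι : Type*}
    (s : Finset ι) (u : ι → ℝ × ℝ → ℝ) (h : ∀ i ∈ s, Harm D (u i)) :
    Harm D fun z => ∑ i ∈ s, u i z := by
  classical
  induction s using Finset.induction_on with
  | empty => simpa using Harm.zero D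
  | insert a s ha ih =>
    have h1 := (h a (Finset.mem_insert_self _ _)).comb hD hb
      (ih fun i hi => h i (Finset.mem_insert_of_mem hi)) 1
    have e : (fun z => ∑ i ∈ insert a s, u i z) = fun z => u a z + 1 * ∑ i ∈ s, u i z := by
      funext z; rw [Finset.sum_insert ha, one_mul]
    rw [e]
    exact h1

/-- Products of locally integrable functions and test functions. -/
theorem TestOn.locInt {D : Set (ℝ × ℝ)} (hD : IsOpen D) (hb : Bornology.IsBounded D)
    {u : ℝ × ℝ → ℝ} (hu : ContDiffOn ℝ ((⊤ : ℕ∞) : WithTop ℕ∞) u D) {f : ℝ × ℝ → ℝ}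
    (hf : TestOn D f) : Integrable fun z => u z * f z := by
  obtain ⟨g, O, hg, hO, hKO, hOD, he⟩ := exists_test_near hD hb hu hf.2.1 hf.2.2
  refine (hg.intMul hf.cont).congr (ae_of_all _ fun z => ?_)
  simp only
  by_cases hz : z ∈ O
  · rw [he z hz]
  · have : f z = 0 := by
      by_contra h
      exact hz (hKO (subset_tsupport _ h))
    rw [this, mul_zero, mul_zero]

end Vale.Agent.P153.R2.FLDI
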