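import Vale.Agent.P153.R2.FLDI.Loc

/-!
The logarithmic barrier at a point outside the domain.
-/

set_option autoImplicit false

namespace Vale.Agent.P153.R2.FLDI

open Filter Topology Set MeasureTheory
open Vale.Agent.P145.PT

/-- `log (R / |z - e|)`. -/
noncomputable def lw (R : ℝ) (e z : ℝ × ℝ) : ℝ := Real.log R - Real.log (sqn (z - e)) / 2

theorem sqn_pos {y : ℝ × ℝ} (hy : y ≠ 0) : 0 < sqn y := by
  unfold sqn
  rcases eq_or_ne y.1 0 with h | h
  · have h2 : y.2 ≠ 0 := fun h2 => hy (Prod.ext h h2)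
    positivity
  · positivity

theorem sqn_sub_pos {z e : ℝ × ℝ} (h : z ≠ e) : 0 < sqn (z - e) := sqn_pos (sub_ne_zero.2 h)

theorem sqn_sub_smooth (e : ℝ × ℝ) : Sm fun z => sqn (z - e) :=
  sqn_smooth.comp (contDiff_id.sub contDiff_const)

theorem lw_smoothOn (R : ℝ) (e : ℝ × ℝ) :
    ContDiffOn ℝ ((⊤ : ℕ∞) : WithTop ℕ∞) (lw R e) {z | z ≠ e} := by
  intro z hz
  unfold lw
  refine ContDiffAt.contDiffWithinAt ?_
  refine contDiffAt_const.sub (ContDiffAt.div_const ?_ 2)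
  exact ((sqn_sub_smooth e).contDiffAt).log (sqn_sub_pos hz).ne'

theorem hasFDeriv_sqn (e z : ℝ × ℝ) : HasFDerivAt (fun z : ℝ × ℝ => sqn (z - e))
    ((2 * (z.1 - e.1)) • ContinuousLinearMap.fst ℝ ℝ ℝ +
      (2 * (z.2 - e.2)) • ContinuousLinearMap.snd ℝ ℝ ℝ) z := by
  have h1 : HasFDerivAt (fun z : ℝ × ℝ => z.1 - e.1) (ContinuousLinearMap.fst ℝ ℝ ℝ) z :=
    (ContinuousLinearMap.fst ℝ ℝ ℝ).hasFDerivAt.sub_const _
  have h2 : HasFDerivAt (fun z : ℝ × ℝ => z.2 - e.2) (ContinuousLinearMap.snd ℝ ℝ ℝ) z :=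
    (ContinuousLinearMap.snd ℝ ℝ ℝ).hasFDerivAt.sub_const _
  have h3 := (h1.mul h1).add (h2.mul h2)
  have e1 : (fun z : ℝ × ℝ => sqn (z - e)) = fun z : ℝ × ℝ =>
      (z.1 - e.1) * (z.1 - e.1) + (z.2 - e.2) * (z.2 - e.2) := by
    funext y
    unfold sqn
    simp only [Prod.fst_sub, Prod.snd_sub]
    ring
  rw [e1]
  refine h3.congr_fderiv ?_
  ext <;> simp <;> ring

theorem lw_fderiv (R : ℝ) {e z : ℝ × ℝ} (h : z ≠ e) (v : ℝ × ℝ) :
    fderiv ℝ (lw R e) z v =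
      -((z.1 - e.1) * v.1 + (z.2 - e.2) * v.2) * (sqn (z - e))⁻¹ := by
  have h0 := (sqn_sub_pos h).ne'
  have h1 : HasFDerivAt (lw R e) _ z :=
    (((hasFDeriv_sqn e z).log h0).mul_const (1 / 2 : ℝ)).const_sub (Real.log R) |>.congr_of_eventuallyEq
      (Eventually.of_forall fun y => by unfold lw; ring)
  rw [h1.fderiv]
  simp
  field_simp

theorem lw_lap (R : ℝ) {e z : ℝ × ℝ} (h : z ≠ e) : lap (lw R e) z = 0 := by
  have h0 := sqn_sub_pos h
  have hO : IsOpen {z : ℝ × ℝ | z ≠ e} := isOpen_ne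
  have key : ∀ v : ℝ × ℝ, fderiv ℝ (fun y => fderiv ℝ (lw R e) y v) z v =
      -(v.1 * v.1 + v.2 * v.2) * (sqn (z - e))⁻¹ +
        2 * ((z.1 - e.1) * v.1 + (z.2 - e.2) * v.2) ^ 2 * ((sqn (z - e)) ^ 2)⁻¹ := by
    intro v
    have e1 : (fun y => fderiv ℝ (lw R e) y v) =ᶠ[𝓝 z] fun y =>
        -((y.1 - e.1) * v.1 + (y.2 - e.2) * v.2) * (sqn (y - e))⁻¹ := by
      filter_upwards [hO.mem_nhds h] with y hy using lw_fderiv R hy v
    rw [e1.fderiv_eq]
    have g1 : HasFDerivAt (fun y : ℝ × ℝ => (y.1 - e.1) * v.1 + (y.2 - e.2) * v.2)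
        (v.1 • ContinuousLinearMap.fst ℝ ℝ ℝ + v.2 • ContinuousLinearMap.snd ℝ ℝ ℝ) z := by
      have a1 : HasFDerivAt (fun z : ℝ × ℝ => (z.1 - e.1) * v.1) _ z :=
        ((ContinuousLinearMap.fst ℝ ℝ ℝ).hasFDerivAt.sub_const e.1).mul_const v.1
      have a2 : HasFDerivAt (fun z : ℝ × ℝ => (z.2 - e.2) * v.2) _ z :=
        ((ContinuousLinearMap.snd ℝ ℝ ℝ).hasFDerivAt.sub_const e.2).mul_const v.2
      exact a1.add a2
    have g2 := ((hasDerivAt_inv h0.ne').comp_hasFDerivAt z (hasFDeriv_sqn e z))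
    have g3 := g1.neg.mul g2
    have g4 : HasFDerivAt (fun y : ℝ × ℝ =>
        -((y.1 - e.1) * v.1 + (y.2 - e.2) * v.2) * (sqn (y - e))⁻¹) _ z := g3
    rw [g4.fderiv]
    simp
    field_simp
    ring
  unfold lap dx dy
  rw [key, key]
  simp
  have : sqn (z - e) = (z.1 - e.1) ^ 2 + (z.2 - e.2) ^ 2 := by
    unfold sqn; simp
  rw [this] at h0 ⊢
  field_simp
  ring

theorem lw_harm (R : ℝ) {e : ℝ × ℝ} {D : Set (ℝ × ℝ)} (he : e ∉ D) : Harm D (lw R e) where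
  smooth := (lw_smoothOn R e).mono fun _ hz h => he (h ▸ hz)
  lapz := fun _ hz => lw_lap R fun h => he (h ▸ hz)

theorem sqn_le_norm (y : ℝ × ℝ) : sqn y ≤ 2 * ‖y‖ ^ 2 := by
  have h1 := norm_fst_le y
  have h2 := norm_snd_le y
  rw [Real.norm_eq_abs] at h1 h2
  unfold sqn
  nlinarith [abs_nonneg y.1, abs_nonneg y.2, sq_abs y.1, sq_abs y.2, norm_nonneg y]

theorem norm_le_sqn (y : ℝ × ℝ) : ‖y‖ ^ 2 ≤ sqn y := by
  unfold sqn
  rw [Prod.norm_def, Real.norm_eq_abs, Real.norm_eq_abs]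
  rcases max_cases |y.1| |y.2| with ⟨h, _⟩ | ⟨h, _⟩
  · rw [h, sq_abs]; nlinarith [sq_nonneg y.2]
  · rw [h, sq_abs]; nlinarith [sq_nonneg y.1]

theorem lw_nonneg {R : ℝ} {e z : ℝ × ℝ} (hz : z ≠ e) (h : sqn (z - e) ≤ R ^ 2) :
    0 ≤ lw R e z := by
  unfold lw
  have h1 := Real.log_le_log (sqn_sub_pos hz) h
  rw [Real.log_pow] at h1
  push_cast at h1
  linarith

theorem lw_large {R : ℝ} (hR : 0 < R) (A : ℝ) : ∃ ρ : ℝ, 0 < ρ ∧ ∀ e z : ℝ × ℝ, z ≠ e →
    dist z e ≤ ρ → A ≤ lw R e z := by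
  refine ⟨R * Real.exp (-A) / 2, by positivity, fun e z hz hd => ?_⟩
  have h1 : sqn (z - e) ≤ (R * Real.exp (-A)) ^ 2 := by
    have h2 := sqn_le_norm (z - e)
    rw [dist_eq_norm] at hd
    have h3 : ‖z - e‖ ^ 2 ≤ (R * Real.exp (-A) / 2) ^ 2 := pow_le_pow_left₀ (norm_nonneg _) hd 2
    nlinarith [sq_nonneg (R * Real.exp (-A))]
  have h4 := Real.log_le_log (sqn_sub_pos hz) h1
  rw [Real.log_pow, Real.log_mul hR.ne' (Real.exp_pos _).ne', Real.log_exp] at h4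
  unfold lw
  push_cast at h4
  linarith

theorem lw_le {R : ℝ} (hR : 0 < R) {e z : ℝ × ℝ} (hz : z ≠ e) :
    lw R e z ≤ 2 * (R / ‖z - e‖) ^ (1 / 2 : ℝ) := by
  have hn : 0 < ‖z - e‖ := norm_pos_iff.2 (sub_ne_zero.2 hz)
  have h1 := Real.log_le_log (by positivity) (norm_le_sqn (z - e))
  rw [Real.log_pow] at h1
  have h2 := Real.log_le_rpow_div (x := R / ‖z - e‖) (ε := 1 / 2) (by positivity) (by norm_num)
  rw [Real.log_div hR.ne' hn.ne'] at h2
  unfold lw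
  push_cast at h1
  have : (R / ‖z - e‖) ^ (1 / 2 : ℝ) / (1 / 2) = 2 * (R / ‖z - e‖) ^ (1 / 2 : ℝ) := by ring
  linarith

theorem lw_meas (R : ℝ) (e : ℝ × ℝ) : Measurable (lw R e) := by
  unfold lw
  have : Measurable fun z : ℝ × ℝ => sqn (z - e) := (sqn_sub_smooth e).continuous.measurable
  fun_prop

/-- The barrier is square integrable. -/
theorem lw_sq_int {D : Set (ℝ × ℝ)} (hD : IsOpen D) (hb : Bornology.IsBounded D) {R : ℝ} (hR : 0 < R)
    {e : ℝ × ℝ} (he : e ∉ D) (hRD : ∀ z ∈ D, sqn (z - e) ≤ R ^ 2) :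
    IntegrableOn (fun z => lw R e z ^ 2) D := by
  -- at the origin first
  set F : ℝ × ℝ → ℝ := fun y => if sqn y ≤ R ^ 2 then lw R 0 y ^ 2 else 0 with hF
  have hFm : Measurable F := by
    refine Measurable.ite ?_ ((lw_meas R 0).pow_const 2) measurable_const
    exact measurableSet_le sqn_smooth.continuous.measurable measurable_const
  have h1 : ∀ r : ℝ, IntegrableOn F (Metric.ball 0 r) := by
    intro r
    refine integrableOn_ball_of_norm_le_rpow (C := 4 * R) (α := 1) (by simp) (by simp) ?_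
      hFm.aestronglyMeasurable
    refine ae_restrict_of_ae ?_
    have hne : ∀ᵐ y : ℝ × ℝ, y ≠ 0 := by
      rw [ae_iff]; simp
    filter_upwards [hne] with y hy
    have hn : 0 < ‖y‖ := norm_pos_iff.2 hy
    rw [Real.rpow_neg_one, hF]
    simp only
    split_ifs with h
    · have h2 : 0 ≤ lw R 0 y := lw_nonneg hy (by rwa [sub_zero])
      have h3 := lw_le hR (e := 0) hy
      rw [sub_zero] at h3
      rw [Real.norm_eq_abs, abs_of_nonneg (by positivity)]
      have h4 : lw R 0 y ^ 2 ≤ (2 * (R / ‖y‖) ^ (1 / 2 : ℝ)) ^ 2 := pow_le_pow_left₀ h2 h3 2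
      have h5 : (2 * (R / ‖y‖) ^ (1 / 2 : ℝ)) ^ 2 = 4 * (R / ‖y‖) := by
        rw [mul_pow, ← Real.rpow_natCast ((R / ‖y‖) ^ (1 / 2 : ℝ)) 2, ← Real.rpow_mul (by positivity)]
        norm_num
      rw [h5] at h4
      calc lw R 0 y ^ 2 ≤ 4 * (R / ‖y‖) := h4
        _ = 4 * R * ‖y‖⁻¹ := by ring
    · rw [norm_zero]; positivity
  obtain ⟨r, hr⟩ := hb.subset_ball e
  have h2 : Integrable ((Metric.ball (0 : ℝ × ℝ) r).indicator F) :=
    (integrable_indicator_iff Metric.isOpen_ball.measurableSet).2 (h1 r)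
  have h3 := h2.comp_sub_right e
  have h4 : IntegrableOn (fun z => (Metric.ball (0 : ℝ × ℝ) r).indicator F (z - e)) D :=
    h3.integrableOn
  refine h4.congr_fun (fun z hz => ?_) hD.measurableSet
  have hze : z ≠ e := fun h => he (h ▸ hz)
  have h5 : z - e ∈ Metric.ball (0 : ℝ × ℝ) r := by
    rw [mem_ball_zero_iff, ← dist_eq_norm]
    exact hr hz
  simp only
  rw [indicator_of_mem h5, hF]
  simp only
  rw [if_pos (hRD z hz)]
  unfold lw
  rw [sub_zero]

/-- A square integrable function gives a functional which is bounded in `L²`. -/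
theorem l2fn_int {D : Set (ℝ × ℝ)} {W : ℝ × ℝ → ℝ}
    (hW : AEStronglyMeasurable W (volume.restrict D))
    (h2 : IntegrableOn (fun z => W z ^ 2) D) :
    L2Fn D (fun f => ∫ z, W z * f z) (Real.sqrt (∫ z in D, W z ^ 2)) := by
  have hm : MemLp W 2 (volume.restrict D) := by
    rw [memLp_two_iff_integrable_sq hW]
    exact h2
  have hi : ∀ f, TestOn D f → IntegrableOn (fun z => W z * f z) D := fun f hf =>
    hm.integrable_mul (hf.memLp _ 2)
  have hzero : ∀ f, TestOn D f → ∀ z, z ∉ D → f z = 0 := fun f hf z hz => by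
    by_contra h
    exact hz (hf.2.2 (subset_tsupport _ h))
  have hr : ∀ f, TestOn D f → ∫ z, W z * f z = ∫ z in D, W z * f z := fun f hf => by
    rw [setIntegral_eq_integral_of_forall_compl_eq_zero fun z hz => by rw [hzero f hf z hz, mul_zero]]
  refine ⟨fun f g hf hg => ?_, fun c f hf => ?_, fun f hf => ?_⟩
  · simp only
    rw [hr _ (hf.add hg), hr f hf, hr g hg, ← integral_add (hi f hf) (hi g hg)]
    congr 1
    funext z
    ring
  · simp only
    rw [← integral_const_mul]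
    congr 1
    funext z
    ring
  · rw [hr f hf]
    have h3 : ∫ z in D, f z ^ 2 = ∫ z, f z ^ 2 :=
      setIntegral_eq_integral_of_forall_compl_eq_zero fun z hz => by
        rw [hzero f hf z hz]; norm_num
    rw [← h3]
    have h4 := integral_mul_norm_le_Lp_mul_Lq (μ := volume.restrict D) (f := W) (g := f)
      (p := 2) (q := 2) Real.HolderConjugate.two_two (by simpa using hm)
      (by simpa using hf.memLp _ 2)
    refine (abs_integral_le_integral_abs).trans ?_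
    simp only [abs_mul]
    simp only [Real.norm_eq_abs] at h4
    refine h4.trans (le_of_eq ?_)
    have e1 : ∀ g : ℝ × ℝ → ℝ, (∫ z in D, |g z| ^ (2 : ℝ)) = ∫ z in D, g z ^ 2 := by
      intro g
      congr 1
      funext z
      rw [Real.rpow_two, sq_abs]
    rw [e1, e1, ← Real.sqrt_eq_rpow, ← Real.sqrt_eq_rpow]

end Vale.Agent.P153.R2.FLDI
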