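import Vale.Agent.P153.R2.FLDI.Uniq

/-!
Identification of the limit of the heights with exact boundary values.
-/

set_option autoImplicit false

namespace Vale.Agent.P153.R2.FLDI

open Filter Topology Set MeasureTheory Polynomial
open Vale.Agent.P145.PT Vale.Agent.P153 Vale.Agent.P153.F.Top

variable {κ : ℝ} {δ : ℕ → ℝ} {B : ℕ → Finset (ℤ × ℤ)} {μ : ℕ → Measure Om}
  {D : Set (ℝ × ℝ)} {E : Finset (ℝ × ℝ)} {s : ℝ × ℝ → ℝ} {U : Ultrafilter ℕ}

theorem alg_const (c : ℝ) : Alg fun _ => c := (Pol.one.smul c trivial).of_eq fun ω => by ring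

theorem alg_poly {B : Finset (ℤ × ℤ)} {δ : ℝ} (f : ℝ × ℝ → ℝ) (p : ℝ[X]) :
    Alg fun ω => p.eval (hB B δ f ω) := by
  induction p using Polynomial.induction_on' with
  | add p q hp hq => exact (hp.add hq).of_eq fun ω => by rw [eval_add]
  | monomial n a => exact ((alg_hB.pow n).smul a trivial).of_eq fun ω => by rw [eval_monomial]

theorem alg_sub_const {B : Finset (ℤ × ℤ)} {δ : ℝ} (f : ℝ × ℝ → ℝ) (c : ℝ) :
    Alg fun ω => hB B δ f ω - c :=
  (alg_hB.add (alg_const (-c))).of_eq fun ω => by ring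

/-- Boundedness of polynomials of the field. -/
theorem Arc.bd_poly (A : Arc κ δ B μ D E s U) {f : ℝ × ℝ → ℝ} (hf : TestOn D f) (p : ℝ[X]) :
    ∃ C : ℝ, 0 ≤ C ∧ ∀ᶠ n in (U : Filter ℕ), ∫ ω, p.eval (hB (B n) (δ n) f ω) ^ 2 ∂(μ n) ≤ C := by
  induction p using Polynomial.induction_on' with
  | add p q hp hq =>
    obtain ⟨C1, h1, hC1⟩ := hp
    obtain ⟨C2, h2, hC2⟩ := hq
    refine ⟨2 * C1 + 2 * C2, by positivity, ?_⟩
    filter_upwards [hC1, hC2] with n g1 g2
    have i1 := (A.mom n).integrable ((alg_poly (B := B n) (δ := δ n) f p).pow 2)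
    have i2 := (A.mom n).integrable ((alg_poly (B := B n) (δ := δ n) f q).pow 2)
    have i3 := (A.mom n).integrable ((alg_poly (B := B n) (δ := δ n) f (p + q)).pow 2)
    calc ∫ ω, (p + q).eval (hB (B n) (δ n) f ω) ^ 2 ∂(μ n)
        ≤ ∫ ω, (2 * p.eval (hB (B n) (δ n) f ω) ^ 2 + 2 * q.eval (hB (B n) (δ n) f ω) ^ 2) ∂(μ n) := by
          refine integral_mono i3 ((i1.const_mul 2).add (i2.const_mul 2)) fun ω => ?_
          simp only [eval_add]
          nlinarith [sq_nonneg (p.eval (hB (B n) (δ n) f ω) - q.eval (hB (B n) (δ n) f ω))]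
      _ ≤ 2 * C1 + 2 * C2 := by
          rw [integral_add (i1.const_mul 2) (i2.const_mul 2), integral_const_mul,
            integral_const_mul]
          linarith
  | monomial k a =>
    obtain ⟨C, hC⟩ := A.mb f hf k
    refine ⟨a ^ 2 * max C 0, by positivity, ?_⟩
    filter_upwards [hC] with n g
    have e : ∀ ω, (monomial k a).eval (hB (B n) (δ n) f ω) ^ 2 =
        a ^ 2 * hB (B n) (δ n) f ω ^ (2 * k) := fun ω => by
      rw [eval_monomial, mul_pow, ← pow_mul, mul_comm k 2]
    simp_rw [e]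
    rw [integral_const_mul]
    exact mul_le_mul_of_nonneg_left (g.trans (le_max_left _ _)) (sq_nonneg a)

/-- The Schwinger-Dyson equation for polynomials. -/
theorem Arc.sd_poly (A : Arc κ δ B μ D E s U) {ψ f : ℝ × ℝ → ℝ} (hψ : TestOn D ψ)
    (hf : TestOn D f) (p : ℝ[X]) :
    Tendsto (fun n => (∫ ω, hB (B n) (δ n) (lap ψ) ω * p.eval (hB (B n) (δ n) f ω) ∂(μ n)) +
      κ * (∫ z, ψ z * f z) * ∫ ω, (derivative p).eval (hB (B n) (δ n) f ω) ∂(μ n)) U (𝓝 0) := by
  induction p using Polynomial.induction_on' with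
  | add p q hp hq =>
    have h := hp.add hq
    rw [add_zero] at h
    refine h.congr fun n => ?_
    have i1 := (A.mom n).integrable (Alg.mul (alg_hB (B := B n) (δ := δ n) (f := lap ψ))
      (alg_poly (B := B n) (δ := δ n) f p))
    have i2 := (A.mom n).integrable (Alg.mul (alg_hB (B := B n) (δ := δ n) (f := lap ψ))
      (alg_poly (B := B n) (δ := δ n) f q))
    have i3 := (A.mom n).integrable (alg_poly (B := B n) (δ := δ n) f (derivative p))
    have i4 := (A.mom n).integrable (alg_poly (B := B n) (δ := δ n) f (derivative q))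
    simp only [derivative_add, eval_add, mul_add]
    rw [integral_add i1 i2, integral_add i3 i4]
    ring
  | monomial k a =>
    rcases k with _ | k
    · have h := (A.sd0 ψ hψ).const_mul a
      rw [mul_zero] at h
      refine h.congr fun n => ?_
      simp only [derivative_monomial, eval_monomial, pow_zero, mul_one, Nat.cast_zero, mul_zero,
        monomial_zero_right, eval_zero, integral_zero, add_zero]
      rw [← integral_const_mul]
      congr 1
      funext ω
      ring
    · have h := (A.sd ψ f hψ hf k).const_mul a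
      rw [mul_zero] at h
      refine h.congr fun n => ?_
      unfold sdE
      simp only [derivative_monomial, eval_monomial, add_tsub_cancel_right]
      have e1 : ∫ ω, hB (B n) (δ n) (lap ψ) ω * (a * hB (B n) (δ n) f ω ^ (k + 1)) ∂(μ n) =
          a * ∫ ω, hB (B n) (δ n) (lap ψ) ω * hB (B n) (δ n) f ω ^ (k + 1) ∂(μ n) := by
        rw [← integral_const_mul]
        congr 1
        funext ω
        ring
      rw [e1, integral_const_mul]
      push_cast
      ring

/-- The boundary values for polynomials. -/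
theorem Arc.bv_poly (A : Arc κ δ B μ D E s U) {z : ℝ × ℝ} (hz : z ∈ frontier D) (hzE : z ∉ E)
    {f : ℝ × ℝ → ℝ} (hf : TestOn D f) (p : ℝ[X]) : ∀ ε : ℝ, 0 < ε → ∃ r : ℝ, 0 < r ∧
    ∀ x ∈ D, dist x z < r → ∀ᶠ n in (U : Filter ℕ),
      |∫ ω, (hB (B n) (δ n) (bump (dd D x / 2) x) ω - s z) * p.eval (hB (B n) (δ n) f ω) ∂(μ n)|
        ≤ ε := by
  induction p using Polynomial.induction_on' with
  | add p q hp hq =>
    intro ε hε
    obtain ⟨r1, hr1, h1⟩ := hp (ε / 2) (half_pos hε)
    obtain ⟨r2, hr2, h2⟩ := hq (ε / 2) (half_pos hε)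
    refine ⟨min r1 r2, lt_min hr1 hr2, fun x hx hxz => ?_⟩
    filter_upwards [h1 x hx (lt_of_lt_of_le hxz (min_le_left _ _)),
      h2 x hx (lt_of_lt_of_le hxz (min_le_right _ _))] with n g1 g2
    have i1 := (A.mom n).integrable (Alg.mul (alg_sub_const (B := B n) (δ := δ n)
      (bump (dd D x / 2) x) (s z)) (alg_poly (B := B n) (δ := δ n) f p))
    have i2 := (A.mom n).integrable (Alg.mul (alg_sub_const (B := B n) (δ := δ n)
      (bump (dd D x / 2) x) (s z)) (alg_poly (B := B n) (δ := δ n) f q))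
    simp only [eval_add, mul_add]
    rw [integral_add i1 i2]
    exact (abs_add_le _ _).trans (by linarith)
  | monomial k a =>
    intro ε hε
    obtain ⟨r, hr, h⟩ := A.bv z hz hzE f hf k (ε / (|a| + 1)) (by positivity)
    refine ⟨r, hr, fun x hx hxz => ?_⟩
    filter_upwards [h x hx hxz] with n g
    simp only [eval_monomial]
    have e1 : ∫ ω, (hB (B n) (δ n) (bump (dd D x / 2) x) ω - s z) *
        (a * hB (B n) (δ n) f ω ^ k) ∂(μ n) =
        a * ∫ ω, (hB (B n) (δ n) (bump (dd D x / 2) x) ω - s z) * hB (B n) (δ n) f ω ^ k ∂(μ n) := by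
      rw [← integral_const_mul]
      congr 1
      funext ω
      ring
    rw [e1, abs_mul]
    calc |a| * _ ≤ |a| * (ε / (|a| + 1)) := mul_le_mul_of_nonneg_left g (abs_nonneg _)
      _ = ε * (|a| / (|a| + 1)) := by ring
      _ ≤ ε := by
          have : |a| / (|a| + 1) ≤ 1 := by rw [div_le_one (by positivity)]; linarith
          nlinarith

theorem Arc.tend_poly (A : Arc κ δ B μ D E s U) {f : ℝ × ℝ → ℝ} (hf : TestOn D f) (p : ℝ[X]) :
    Tendsto (fun n => ∫ ω, p.eval (hB (B n) (δ n) f ω) ∂(μ n)) U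
      (𝓝 (lm U fun n => ∫ ω, p.eval (hB (B n) (δ n) f ω) ∂(μ n))) := by
  obtain ⟨C, hC0, hC⟩ := A.bd_poly hf p
  refine tend_lm (C := Real.sqrt C) ?_
  filter_upwards [hC] with n hn
  refine Real.abs_le_sqrt ?_
  have h1 := (A.mom n).cs (alg_poly (B := B n) (δ := δ n) f p) (alg_const 1)
  have := (A.mom n).prob
  simp only [mul_one, one_pow, integral_const, probReal_univ, smul_eq_mul] at h1
  exact h1.trans hn

/-- Mixed moments with a polynomial. -/
theorem Arc.tend_mixed (A : Arc κ δ B μ D E s U) {g f : ℝ × ℝ → ℝ} (hg : TestOn D g)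
    (hf : TestOn D f) (c : ℝ) (p : ℝ[X]) :
    Tendsto (fun n => ∫ ω, (hB (B n) (δ n) g ω - c) * p.eval (hB (B n) (δ n) f ω) ∂(μ n)) U
      (𝓝 (lm U fun n => ∫ ω, (hB (B n) (δ n) g ω - c) * p.eval (hB (B n) (δ n) f ω) ∂(μ n))) := by
  obtain ⟨C, hC0, hC⟩ := A.bd_poly hf p
  obtain ⟨C', hC0', hC'⟩ := A.bd_poly hg (X - Polynomial.C c)
  refine tend_lm (C := Real.sqrt (C' * C)) ?_
  filter_upwards [hC, hC'] with n hn hn'
  refine Real.abs_le_sqrt ?_
  have h1 := (A.mom n).cs (alg_sub_const (B := B n) (δ := δ n) g c) (alg_poly (B := B n) (δ := δ n) f p)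
  refine h1.trans (mul_le_mul ?_ hn (integral_nonneg fun ω => sq_nonneg _) hC0')
  simpa using hn'

theorem Arc.mean_l2fn (A : Arc κ δ B μ D E s U) :
    ∃ C, L2Fn D (fun g => lm U fun n => ∫ ω, hB (B n) (δ n) g ω ∂(μ n)) C := by
  obtain ⟨C₂, hC₂, h2⟩ := A.l2
  have ht : ∀ g, TestOn D g → Tendsto (fun n => ∫ ω, hB (B n) (δ n) g ω ∂(μ n)) U
      (𝓝 (lm U fun n => ∫ ω, hB (B n) (δ n) g ω ∂(μ n))) := fun g hg => by
    have := A.tend_poly hg X
    simpa using this
  refine ⟨Real.sqrt C₂, ?_, ?_, ?_⟩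
  · intro g g' hg hg'
    refine lm_eq ?_
    refine ((ht g hg).add (ht g' hg')).congr fun n => ?_
    rw [← integral_add ((A.mom n).integrable alg_hB) ((A.mom n).integrable alg_hB)]
    congr 1
    funext ω
    rw [hB_add]
  · intro a g hg
    refine lm_eq ?_
    refine ((ht g hg).const_mul a).congr fun n => ?_
    rw [← integral_const_mul]
    congr 1
    funext ω
    rw [hB_smul]
  · intro g hg
    have h3 : (lm U fun n => ∫ ω, hB (B n) (δ n) g ω ∂(μ n)) ^ 2 ≤ (C₂ * ∫ z, g z ^ 2) * 1 := by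
      refine sq_limit zero_le_one (ht g hg) fun ε hε => ?_
      filter_upwards [h2 g hg ε hε] with n h3
      have h1 := (A.mom n).cs (alg_hB (B := B n) (δ := δ n) (f := g)) (alg_const 1)
      have := (A.mom n).prob
      simp only [mul_one, one_pow, integral_const, probReal_univ, smul_eq_mul] at h1
      rw [mul_one]
      exact h1.trans h3
    have h4 := Real.abs_le_sqrt h3
    rw [mul_one, Real.sqrt_mul hC₂] at h4
    exact h4

/-- The limit of the mean. -/
noncomputable def uu (δ : ℕ → ℝ) (B : ℕ → Finset (ℤ × ℤ)) (μ : ℕ → Measure Om)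
    (D : Set (ℝ × ℝ)) (U : Ultrafilter ℕ) : ℝ × ℝ → ℝ :=
  uT D fun g => lm U fun n => ∫ ω, hB (B n) (δ n) g ω ∂(μ n)

theorem Arc.uu_spec (A : Arc κ δ B μ D E s U) : Harm D (uu δ B μ D U) ∧ ∀ f, TestOn D f →
    (lm U fun n => ∫ ω, hB (B n) (δ n) f ω ∂(μ n)) = ∫ z, uu δ B μ D U z * f z := by
  obtain ⟨C, hC⟩ := A.mean_l2fn
  exact uT_spec A.op A.bdd hC fun ψ hψ => lm_eq (A.sd0 ψ hψ)

theorem Arc.tend_mean (A : Arc κ δ B μ D E s U) {f : ℝ × ℝ → ℝ} (hf : TestOn D f) :
    Tendsto (fun n => ∫ ω, hB (B n) (δ n) f ω ∂(μ n)) U (𝓝 (∫ z, uu δ B μ D U z * f z)) := by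
  rw [← A.uu_spec.2 f hf]
  have := A.tend_poly hf X
  simpa using this

theorem Arc.dirichlet (A : Arc κ δ B μ D E s U) : Dirichlet D E s (uu δ B μ D U) where
  harm := A.uu_spec.1
  bdd := by
    obtain ⟨K, hK0, hK⟩ := A.vb
    refine ⟨Real.sqrt K, fun x hx => ?_⟩
    have hb := bump_test' A.op A.bdd hx
    have ht := A.tend_poly hb X
    simp only [eval_X] at ht
    refine le_of_tendsto ht.abs ?_
    filter_upwards [hK x hx] with n hn
    refine Real.abs_le_sqrt ?_
    have h1 := (A.mom n).cs (alg_hB (B := B n) (δ := δ n) (f := bump (dd D x / 2) x)) (alg_const 1)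
    have := (A.mom n).prob
    simp only [mul_one, one_pow, integral_const, probReal_univ, smul_eq_mul] at h1
    exact h1.trans hn
  bv := by
    intro z hz hzE
    rw [Metric.tendsto_nhds]
    intro ε hε
    obtain ⟨r, hr, h⟩ := A.bv z hz hzE (fun _ => 0) (TestOn.zero D) 0 (ε / 2) (half_pos hε)
    rw [eventually_nhdsWithin_iff, Metric.eventually_nhds_iff]
    refine ⟨r, hr, fun x hxz hx => ?_⟩
    have hb := bump_test' A.op A.bdd hx
    have ht := A.tend_poly hb X
    simp only [eval_X] at ht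
    have h1 : |uu δ B μ D U x - s z| ≤ ε / 2 := by
      refine le_of_tendsto (ht.sub_const (s z)).abs ?_
      filter_upwards [h x hx hxz] with n hn
      have := (A.mom n).prob
      simp only [pow_zero, mul_one] at hn
      rw [integral_sub ((A.mom n).integrable alg_hB) (integrable_const _)] at hn
      simpa using hn
    rw [Real.dist_eq]
    linarith

end Vale.Agent.P153.R2.FLDI
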