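import Vale.Agent.P153.R2.FLDI.Conn6
import Vale.Agent.P153.R2.SDAR.Scen

/-!
P153, two-arc boundary values, block FLDI: the approximations of the final statements are scenarios
of block SDAR, and the Schwinger-Dyson equations of block SDAR are the ones used for the field.
-/

set_option autoImplicit false

namespace Vale.Agent.P153.R2.FLDI

open Filter Topology Set MeasureTheory
open Vale.Agent.P145.PT Vale.Agent.P153 Vale.Agent.P153.F.Top
open Vale.Agent.P153.Topo (Conn)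
open Vale.Agent.P153.R2.SDAR (Scen ov YJ S_scen)

variable {Φ : (ℝ × ℝ) ≃ₜ (ℝ × ℝ)} {δ : ℕ → ℝ} {N k : ℕ → ℕ}
  {p : ∀ n, ZMod (N n) → ℤ × ℤ} {S : ℕ → Finset ((ℤ × ℤ) × Bool)}

/-- Every point of the boundary curve is a limit of vertices of the polygons. -/
theorem ev_poly_near (h : Final.Approx Φ δ N k p S) {t₀ : ℝ} (ht₀ : t₀ ∈ Ico 0 (2 * Real.pi))
    {r : ℝ} (hr : 0 < r) :
    ∀ᶠ n in atTop, ∃ i : ZMod (N n), dist (dp (δ n) (p n i)) (Φ (Final.circ t₀)) < r := by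
  filter_upwards [h.2.2.1 r hr] with n hn
  obtain ⟨s, hs, hs0, -, hsN, hdist⟩ := hn
  have hNn : 2 < N n := (h.1 n).2.2.2.1.1
  have hex : ∃ i < N n, t₀ ∈ Icc (s i) (s (i + 1)) := by
    classical
    have hex : ∃ i, t₀ < s i := ⟨N n, by rw [hsN]; exact ht₀.2⟩
    have h1 := Nat.find_spec hex
    have h2 : Nat.find hex ≠ 0 := by
      intro h0
      rw [h0, hs0] at h1
      linarith [ht₀.1]
    obtain ⟨i, hi⟩ := Nat.exists_eq_succ_of_ne_zero h2
    have h3 : ¬ t₀ < s i := Nat.find_min hex (by omega)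
    refine ⟨i, ?_, not_lt.1 h3, ?_⟩
    · by_contra hcon
      have := hs (not_lt.1 hcon)
      rw [hsN] at this
      linarith [ht₀.2, not_lt.1 h3]
    · rw [hi] at h1
      exact h1.le
  obtain ⟨i, hi, hit⟩ := hex
  refine ⟨i, ?_⟩
  have h1 := hdist i hi t₀ hit
  rwa [dp_pt] at h1

/-- The inner vertices are eventually in a fixed ball. -/
theorem ev_ball (h : Final.Approx Φ δ N k p S) {R : ℝ}
    (hR : closure (Final.dom Φ) ⊆ Metric.ball (0 : ℝ × ℝ) R) :
    ∀ᶠ n in atTop, ∀ x ∈ inn (p n) (S n), dp (δ n) x ∈ Metric.ball (0 : ℝ × ℝ) R := by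
  have hA := approxF h
  have h1 := F.Dom.s_out (Final.dom Φ) δ N p S jordF hA (Metric.ball 0 R) Metric.isOpen_ball
    Metric.isBounded_ball hR
  filter_upwards [h1] with n g1 x hx
  have h3 := g1 (Finset.mem_coe.1 hx)
  rw [mem_Vs (hA.pos n) Metric.isBounded_ball] at h3
  have hδ := hA.pos n
  exact h3 (Metric.mem_closedBall_self (by linarith))

/-- **The approximations are scenarios.** -/
theorem scen_of_approx (h : Final.Approx Φ δ N k p S) : ∃ (Rb : ℝ) (E : ℝ × ℝ → Set (ℝ × ℝ)),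
    Scen atTop (Final.dom Φ) E δ (fun n => inn (p n) (S n)) (fun n => dat (p n) (k n)) Rb := by
  have hA := approxF h
  obtain ⟨Rb, hRb⟩ := (domF_bdd (Φ := Φ)).closure.subset_ball (0 : ℝ × ℝ)
  refine ⟨Rb, fun _ => {Φ (Final.circ 0), Φ (Final.circ Real.pi)}, ?_⟩
  refine ⟨le_rfl, hA.pos, hA.lim, domF_open, subset_closure.trans hRb, fun _ => ?_,
    ev_ball h hRb, ?_, fun n x => dat_pm _ _, fun K hK hKD => ?_, fun x hx r hr => ?_, ?_,
    fun z₀ _ z _ x hx hxE _ => ?_⟩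
  · exact (Set.finite_singleton _).insert _
  · exact Eventually.of_forall fun n =>
      PLAN.CC_inner (polyF (h.1 n).2.2.2.1) (enclF (h.1 n).2.2.2.2)
  · filter_upwards [ev_inner h hK hKD] with n hn v hv
    exact Finset.mem_coe.2 (hn v hv)
  · have hx' := hx
    rw [domF_frontier] at hx'
    obtain ⟨z, hz, rfl⟩ := hx'
    obtain ⟨t, ht, rfl⟩ := circ_surj hz
    filter_upwards [ev_poly_near h ht hr] with n hn
    obtain ⟨i, hi⟩ := hn
    exact ⟨p n i, fun hin => (F.Dom.dl_inner.1 (Finset.mem_coe.1 hin)).2 _ rfl, hi⟩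
  · refine Eventually.of_forall fun n σ hσ => ?_
    have hp := (h.1 n).2.2.2.1
    have hS := (h.1 n).2.2.2.2
    have hk0 := (h.1 n).2.1
    have hkn := (h.1 n).2.2.1
    have hn0 : 0 < N n := by omega
    have : NeZero (N n) := ⟨by omega⟩
    have hadj : ∀ i, Adj (p n i) (p n (i + 1)) := fun i => adj_poly hp i
    have hdat : ∀ i, dat (p n) (k n) (p n i) = if i.val < k n then 1 else -1 := fun i =>
      dat_p (polyF hp) (k n) i
    have hnot : ∀ a b : ℕ, PLAN.parc (p n) a b ⊆ (inn (p n) (S n))ᶜ := by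
      rintro a b _ ⟨i, -, -, rfl⟩ hin
      exact (F.Dom.dl_inner.1 (Finset.mem_coe.1 hin)).2 _ rfl
    rcases hσ with rfl | rfl
    · refine ⟨PLAN.parc (p n) (k n) (N n), hnot _ _, PLAN.cn_parc hadj _ _, ?_, ?_⟩
      · rintro _ ⟨i, h1, h2, rfl⟩
        rw [hdat, ZMod.val_natCast_of_lt h2, if_neg (by omega)]
        norm_num
      · intro x hx y hy hxy hne
        obtain ⟨i, rfl⟩ := inn_out hS hx hxy hy
        rw [PLAN.mem_parc_iff hn0 hp.2.1 le_rfl]
        rw [hdat] at hne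
        refine ⟨?_, i.val_lt⟩
        by_contra hcon
        exact hne (if_pos (by omega))
    · refine ⟨PLAN.parc (p n) 0 (k n), hnot _ _, PLAN.cn_parc hadj _ _, ?_, ?_⟩
      · rintro _ ⟨i, h1, h2, rfl⟩
        rw [hdat, ZMod.val_natCast_of_lt (by omega), if_pos h2]
        norm_num
      · intro x hx y hy hxy hne
        obtain ⟨i, rfl⟩ := inn_out hS hx hxy hy
        rw [PLAN.mem_parc_iff hn0 hp.2.1 hkn.le]
        rw [hdat] at hne
        refine ⟨Nat.zero_le _, ?_⟩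
        by_contra hcon
        exact hne (if_neg hcon)
  · obtain ⟨c, hc⟩ : ∃ c : ℤ, c = 1 ∧ x ∈ Final.arcPlus Φ ∨ c = -1 ∧ x ∈ Final.arcMinus Φ := by
      rcases frontier_cases hx with h1 | h1 | h1 | h1
      · exact ⟨1, Or.inl ⟨rfl, h1⟩⟩
      · exact ⟨-1, Or.inr ⟨rfl, h1⟩⟩
      · exact (hxE (Or.inl h1)).elim
      · exact (hxE (Or.inr h1)).elim
    have hc1 : c = 1 ∨ c = -1 := by
      rcases hc with h1 | h1
      · exact Or.inl h1.1
      · exact Or.inr h1.1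
    obtain ⟨ρ₁, hρ₁, hdat⟩ := data_near h hc
    refine ⟨ρ₁ / 2, half_pos hρ₁, c, hc1, fun q _ _ => ⟨1, one_pos, ?_⟩⟩
    have hδ : ∀ᶠ n in atTop, δ n < ρ₁ / 2 := hA.lim.eventually (gt_mem_nhds (half_pos hρ₁))
    filter_upwards [hdat, hδ] with n g1 g2 a _ _ x' hx' y hy hxy
    obtain ⟨a', ha', hx''⟩ := hx'
    have h1 := hx''.right_mem
    obtain ⟨i, rfl⟩ := inn_out (h.1 n).2.2.2.2 h1.1 hxy hy
    refine g1 i ?_
    have h2 : dist (dp (δ n) x') x < ρ₁ / 2 := Metric.mem_ball.1 h1.2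
    have h3 := dist_adj (hA.pos n) hxy
    have h4 := dist_triangle_left (dp (δ n) (p n i)) x (dp (δ n) x')
    linarith

/-- The smeared inner heights are the smeared heights, if the support is covered. -/
theorem hh_eq_Lf {n : ℕ} {p : ZMod n → ℤ × ℤ} {S : Finset ((ℤ × ℤ) × Bool)} {δ : ℝ} (hδ : 0 < δ)
    {f : ℝ × ℝ → ℝ} (hs : Sm f) (hf : HasCompactSupport f)
    (hin : ∀ v, dp δ v ∈ tsupport f → v ∈ F.Dom.inner p S) (h : Hg) :
    hh p S δ f h = F.SD.Lf δ f h := by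
  rw [← F.X.Sdx.hv_vm hδ hs hf h]
  unfold hh hv
  congr 1
  refine finsum_congr fun v => ?_
  by_cases hv : f (dp δ v) = 0
  · have : tl f (δ * v.1, δ * v.2) = 0 := by
      rw [tl_eq, hv, mul_zero]
    rw [this, mul_zero, mul_zero]
  · have : v ∈ F.Dom.inner p S := hin v (subset_tsupport _ hv)
    show (if v ∈ F.Dom.inner p S then (h v : ℝ) else 0) * tl f (δ * v.1, δ * v.2) =
      (h v : ℝ) * tl f (δ * v.1, δ * v.2)
    rw [if_pos this]

/-- The Schwinger-Dyson equations of block SDAR are the ones used for the field. -/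
theorem sdar_of_scen {κ : ℝ} (H : S_scen κ) : S_sdar κ := by
  intro Φ δ N k p S h ψ f hψ hf j
  have hA := approxF h
  obtain ⟨Rb, E, hsc⟩ := scen_of_approx h
  have h1 := H atTop _ E δ _ _ Rb hsc ψ f hψ hf j
  refine h1.congr' ?_
  filter_upwards [ev_inner h hψ.lap.2.1 hψ.lap.2.2, ev_inner h hf.2.1 hf.2.2] with n g1 g2
  have hδ := hA.pos n
  have e1 : ∀ g : Hg, F.SD.Lf (δ n) (lap ψ) g = hh (p n) (S n) (δ n) (lap ψ) g := fun g =>
    (hh_eq_Lf hδ hψ.lap.1 hψ.lap.2.1 g1 g).symm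
  have e2 : ∀ g : Hg, F.SD.Lf (δ n) f g = hh (p n) (S n) (δ n) f g := fun g =>
    (hh_eq_Lf hδ hf.1 hf.2.1 g2 g).symm
  show Ex (CA (p n) (k n) (S n)) (YJ κ (δ n) ψ f j) = _
  rw [← Ex_const_mul, ← Ex_add]
  refine Ex_congr fun g _ => ?_
  unfold YJ
  rw [e1, e2]

end Vale.Agent.P153.R2.FLDI
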